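import Crest.Agent.R113.Defs

/-!
Row 113, S0149, task T9 (orbit combinatorics), part 1: windows, base sets and far sets along one
orbit (`OrbitData`, `OrbitCounts` of `Defs.lean`).  Namespace `Crest.Agent.R113.Orb`. (helper292)
-/

set_option autoImplicit false

namespace Crest.Agent.R113.Orb

open Finset

/-- start of the window of `m` (window length `l`, base block `b0`) -/
def win (lev : ℕ → ℤ → ℕ) (b0 l : ℕ) (m : ℤ) : ℤ := m - ((lev b0 m % l : ℕ) : ℤ)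

/-- cell number -/
def cell (lev : ℕ → ℤ → ℕ) (b : ℕ) (m : ℤ) : ℕ := lev b m / Mb b

/-- the window number inside the cell, in `{0..D-1}` (`D * l = Mb b0`) -/
def pw (lev : ℕ → ℤ → ℕ) (b0 l : ℕ) (m : ℤ) : ℕ := (lev b0 m % Mb b0) / l

/-- near set `Q_i = {p ≥ D - i}` -/
def near (lev : ℕ → ℤ → ℕ) (b0 l D i : ℕ) : Set ℤ := {m | D ≤ pw lev b0 l m + i}

/-- far sets (virtual word): `s = true`: `A1_k = {ε(a)=1, ε(a+k)=0}`;
`s = false`: `A0_k = {ε(a) ≥ ε(a+k)}`, `a` = the cell of `m` -/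
def far (w : ℕ → ℕ → Bool) (lev : ℕ → ℤ → ℕ) (b k : ℕ) (s : Bool) : Set ℤ :=
  {m | (if s then w b (cell lev b m) && !(w b (cell lev b m + k))
    else w b (cell lev b m) || !(w b (cell lev b m + k))) = true}

/-- the function `g = p + (1/K) ∑_{1 ≤ k ≤ K} (1 + ε(a) - ε(a+k))` -/
noncomputable def gfun (w : ℕ → ℕ → Bool) (lev : ℕ → ℤ → ℕ) (b0 l K : ℕ) (m : ℤ) : ℝ :=
  pw lev b0 l m + (1 / (K : ℝ)) * ∑ k ∈ Finset.Icc 1 K,
    (1 + bv (w b0 (cell lev b0 m)) - bv (w b0 (cell lev b0 m + k)))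

/-- `1_A` as a real function on `ℤ` -/
noncomputable def ind (A : Set ℤ) (m : ℤ) : ℝ := A.indicator (fun _ => (1 : ℝ)) m

/-- index type of the base sets: `inl i` is `Q_{i+1}`, `inr (k,s)` is the far set number `k+1` -/
abbrev BIdx (D K : ℕ) := Fin (D - 1) ⊕ (Fin K × Bool)

/-- the base sets -/
def bset (w : ℕ → ℕ → Bool) (lev : ℕ → ℤ → ℕ) (b0 l D K : ℕ) : BIdx D K → Set ℤ
  | Sum.inl i => near lev b0 l D (i + 1)
  | Sum.inr ks => far w lev b0 (ks.1 + 1) ks.2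

/-- shifts of the base sets -/
def bshift (b0 l D K : ℕ) : BIdx D K → ℕ
  | Sum.inl i => (i + 1) * l
  | Sum.inr ks => (ks.1 + 1) * Mb b0

/-- coefficients: `gfun = ∑ bcoef * 1_{bset}` -/
noncomputable def bcoef (D K : ℕ) : BIdx D K → ℝ
  | Sum.inl _ => 1
  | Sum.inr _ => 1 / (K : ℝ)

/-- `Bd` contains all exceptional positions for the set `A` with shift `n`: exactly the four
hypotheses `hcutA hcutB hA hAc` of `flux_window`. -/
structure IsBd {q : ℕ} {κ' : Type*} (win : Fin q → κ') (u : ℤ → ℝ) (n : ℕ) (A : Set ℤ) (v0 γ : ℝ)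
    (Bd : Finset (Fin q)) : Prop where
  cutA : ∀ i j : Fin q, win i = win j → ((i : ℕ) : ℤ) ∈ A → ((j : ℕ) : ℤ) ∉ A → i ∈ Bd ∧ j ∈ Bd
  cutB : ∀ i j : Fin q, win i = win j → ((i : ℕ) : ℤ) - n ∈ A → ((j : ℕ) : ℤ) - n ∉ A →
      ∀ i' : Fin q, ((i' : ℕ) + n = i ∨ (i' : ℕ) + n = j) → i' ∈ Bd
  onA : ∀ i : Fin q, ((i : ℕ) : ℤ) ∈ A → i ∉ Bd → (i : ℕ) + n < q → v0 + γ ≤ wsum u i n
  offA : ∀ i : Fin q, ((i : ℕ) : ℤ) ∉ A → i ∉ Bd → (i : ℕ) + n < q → wsum u i n ≤ v0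

/-- flux of a diagonal `h` on `[0,q)` for the set `A ⊆ ℤ` and the shift `n` -/
noncomputable def flux {q : ℕ} (h : Fin q → ℝ) (A : Set ℤ) (n : ℕ) : ℝ :=
  ∑ m : Fin q, h m * (ind A ((m : ℕ) : ℤ) - ind A (((m : ℕ) : ℤ) - n))

open Classical in
/-- cut of a mass matrix `μ m m' = |P m m'|²` -/
noncomputable def cutM {q : ℕ} (μ : Fin q → Fin q → ℝ) (A : Set ℤ) : ℝ :=
  ∑ m : Fin q, ∑ m' : Fin q,
    if ((m : ℕ) : ℤ) ∈ A ∧ ((m' : ℕ) : ℤ) ∉ A then μ m m' else 0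

/-- abstract mass matrix: `μ m m' = |P m m'|²`, `h m = P m m` for a projection `P` -/
structure Mass {q : ℕ} (μ : Fin q → Fin q → ℝ) (h : Fin q → ℝ) : Prop where
  nonneg : ∀ m m', 0 ≤ μ m m'
  symm : ∀ m m', μ m m' = μ m' m
  row : ∀ m, ∑ m', μ m m' = h m
  le_one : ∀ m, h m ≤ 1

end Crest.Agent.R113.Orb
private theorem rz_37dfdd7ad4 : type_of% @_root_.Crest.Agent.R113.Orb.bcoef.eq_1 := @_root_.Crest.Agent.R113.Orb.bcoef.eq_1 -- L54
private theorem rz_67f1eb0de8 : type_of% @_root_.Crest.Agent.R113.Orb.bset.eq_1 := @_root_.Crest.Agent.R113.Orb.bset.eq_1 -- L44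
private theorem rz_d3020698d6 : type_of% @_root_.Crest.Agent.R113.Orb.bshift.eq_1 := @_root_.Crest.Agent.R113.Orb.bshift.eq_1 -- L49
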