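import Crest.Agent.R113.Defs
import Crest.Agent.R113.CS
import Crest.Agent.R113.FluxLA
import Crest.Agent.R113.Basic
import Crest.Agent.R113.FD.Orbit

-- ▼ part R113/FluxWin
section

/-! # T02: auxiliary lemmas for `flux_window` (row 113) -/

set_option autoImplicit false

namespace Crest.Agent.R113.FW

open scoped BigOperators

section FluxAux


variable {ι : Type*} [Fintype ι] [DecidableEq ι]

/-- Block diagonal maps commute with the restriction to `B` on vectors vanishing on the windows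
cut by `B`. -/
theorem restr_comm_of_vanish {κ' : Type*} [DecidableEq κ'] (win : ι → κ')
    (a : EuclideanSpace ℂ ι →ₗ[ℂ] EuclideanSpace ℂ ι) (ha : BlockDiag win a)
    (B : Set ι) [DecidablePred (· ∈ B)] (w : EuclideanSpace ℂ ι)
    (hw : ∀ i j : ι, win i = win j → i ∈ B → j ∉ B → w i = 0 ∧ w j = 0) :
    restr B (a w) = a (restr B w) := by
  ext i
  rw [restr_apply]
  have hi : ∀ v : EuclideanSpace ℂ ι, (a v) i = (a (restr {k | win k = win i} v)) i := by
    intro v
    rw [ha (win i) v, restr_apply]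
    simp
  rw [hi w, hi (restr B w)]
  by_cases hcut : ∃ j k : ι, win j = win i ∧ win k = win i ∧ j ∈ B ∧ k ∉ B
  · -- cut window: `w` vanishes on it
    obtain ⟨j, k, hj, hk, hjB, hkB⟩ := hcut
    have hz : ∀ m : ι, win m = win i → w m = 0 := by
      intro m hm
      by_cases hmB : m ∈ B
      · exact (hw m k (hm.trans hk.symm) hmB hkB).1
      · exact (hw j m (hj.trans hm.symm) hjB hmB).2
    have h1 : restr {k | win k = win i} w = 0 := by
      ext m
      rw [restr_apply]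
      by_cases hm : win m = win i
      · simp [hm, hz m hm]
      · simp [hm]
    have h2 : restr {k | win k = win i} (restr B w) = 0 := by
      ext m
      rw [restr_apply]
      by_cases hm : win m = win i
      · simp [hm, hz m hm]
      · simp [hm]
    rw [h1, h2]
    simp
  · push Not at hcut
    by_cases hiB : i ∈ B
    · have h2 : restr {k | win k = win i} (restr B w) = restr {k | win k = win i} w := by
        ext m
        rw [restr_apply, restr_apply, restr_apply]
        by_cases hm : win m = win i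
        · have : m ∈ B := by
            by_contra hmB
            exact hmB (hcut i m rfl hm hiB)
          simp [hm, this]
        · simp [hm]
      rw [h2]
      simp [hiB]
    · have h2 : restr {k | win k = win i} (restr B w) = 0 := by
        ext m
        rw [restr_apply, restr_apply]
        by_cases hm : win m = win i
        · have : m ∉ B := by
            intro hmB
            exact hiB (hcut m i hm rfl hmB)
          simp [this]
        · simp [hm]
      rw [h2]
      simp [hiB]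

theorem norm_sub_starProjection_le {ι : Type*} [Fintype ι] [DecidableEq ι]
    (X : Submodule ℂ (EuclideanSpace ℂ ι)) (v w : EuclideanSpace ℂ ι) (hw : w ∈ X) :
    ‖v - X.starProjection v‖ ≤ ‖v - w‖ := by
  have h1 : v - w = (v - X.starProjection v) + (X.starProjection v - w) := by abel
  have h2 : inner ℂ (v - X.starProjection v) (X.starProjection v - w) = 0 := by
    have h3 : X.starProjection v - w ∈ X := X.sub_mem (by simp) hw
    have h4 : v - X.starProjection v ∈ Xᗮ := by simp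
    exact Submodule.inner_left_of_mem_orthogonal h3 h4
  have h5 := norm_add_sq_eq_norm_sq_add_norm_sq_of_inner_eq_zero _ _ h2
  rw [← h1] at h5
  nlinarith [norm_nonneg (v - w), norm_nonneg (v - X.starProjection v),
    norm_nonneg (X.starProjection v - w)]

theorem norm_restr_le {ι : Type*} [Fintype ι] [DecidableEq ι] (A : Set ι) [DecidablePred (· ∈ A)]
    (v : EuclideanSpace ℂ ι) : ‖restr A v‖ ≤ ‖v‖ := by
  have h : ‖restr A v‖ ^ 2 ≤ ‖v‖ ^ 2 := by
    rw [EuclideanSpace.norm_sq_eq, EuclideanSpace.norm_sq_eq]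
    refine Finset.sum_le_sum fun i _ => ?_
    rw [restr_apply]
    split_ifs
    · exact le_rfl
    · simp
  exact le_of_sq_le_sq h (norm_nonneg _)

end FluxAux

section FluxShift


variable {q : ℕ}

theorem shiftN_apply_lt (u : ℤ → ℝ) (n : ℕ) (e : EuclideanSpace ℂ (Fin q)) (j : Fin q)
    (hj : (j : ℕ) < n) : shiftN u n e j = 0 := by
  have : ¬ n ≤ (j : ℕ) := by omega
  simp [shiftN, this]

theorem shiftN_apply_add (u : ℤ → ℝ) (n : ℕ) (e : EuclideanSpace ℂ (Fin q)) (i : Fin q)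
    (h : (i : ℕ) + n < q) :
    shiftN u n e ⟨(i : ℕ) + n, h⟩ = (Real.exp (-(wsum u (i : ℕ) n)) : ℂ) * e i := by
  have h1 : n ≤ (i : ℕ) + n := by omega
  have h2 : (((i : ℕ) + n : ℕ) : ℤ) - n = ((i : ℕ) : ℤ) := by push_cast; ring
  have h3 : (⟨(i : ℕ) + n - n, lt_of_le_of_lt (Nat.sub_le _ _) h⟩ : Fin q) = i := by
    ext; simp
  simp only [shiftN, LinearMap.coe_mk, AddHom.coe_mk, dif_pos h1, h2]
  rw [h3]

theorem sum_shift (n : ℕ) (f : Fin q → ℝ) (hf : ∀ j : Fin q, (j : ℕ) < n → f j = 0) :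
    ∑ j, f j = ∑ i : Fin q, if h : (i : ℕ) + n < q then f ⟨(i : ℕ) + n, h⟩ else 0 := by
  classical
  have h1 : ∑ j, f j = ∑ j ∈ Finset.univ.filter (fun j : Fin q => n ≤ (j : ℕ)), f j := by
    rw [Finset.sum_filter]
    refine Finset.sum_congr rfl fun j _ => ?_
    by_cases h : n ≤ (j : ℕ)
    · simp [h]
    · simp [h, hf j (by omega)]
  have h2 : (∑ i : Fin q, if h : (i : ℕ) + n < q then f ⟨(i : ℕ) + n, h⟩ else 0)
      = ∑ i ∈ Finset.univ.filter (fun i : Fin q => (i : ℕ) + n < q),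
          (if h : (i : ℕ) + n < q then f ⟨(i : ℕ) + n, h⟩ else 0) := by
    rw [Finset.sum_filter]
    refine Finset.sum_congr rfl fun j _ => ?_
    by_cases h : (j : ℕ) + n < q
    · simp [h]
    · simp [h]
  rw [h1, h2]
  refine Finset.sum_bij' (i := fun j _ => (⟨(j : ℕ) - n, by omega⟩ : Fin q))
    (j := fun i hi => (⟨(i : ℕ) + n, by simpa using hi⟩ : Fin q)) ?_ ?_ ?_ ?_ ?_
  · intro j hj
    simp only [Finset.mem_filter, Finset.mem_univ, true_and] at hj ⊢
    have := j.2
    omega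
  · intro i hi
    simp only [Finset.mem_filter, Finset.mem_univ, true_and] at hi ⊢
    omega
  · intro j hj
    simp only [Finset.mem_filter, Finset.mem_univ, true_and] at hj
    ext
    simp only
    omega
  · intro i hi
    ext
    simp
  · intro j hj
    simp only [Finset.mem_filter, Finset.mem_univ, true_and] at hj
    have h3 : (j : ℕ) - n + n < q := by have := j.2; omega
    have h4 : (j : ℕ) - n + n = (j : ℕ) := by omega
    simp only [h3, dif_pos]
    congr 1
    ext
    simp [h4]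

theorem mem_fs {A : Set ℤ} [DecidablePred (· ∈ A)] (i : Fin q) :
    i ∈ fs q A ↔ (((i : ℕ) : ℤ) ∈ A) := by
  simp [fs]

/-- Upper bound for the part of `T^n e` in `A + n`. -/
theorem norm_restr_shiftN_le (u : ℤ → ℝ) (n : ℕ) (A : Set ℤ) [DecidablePred (· ∈ A)]
    [DecidablePred (· ∈ {m : ℤ | m - n ∈ A})] (t : ℝ) (e : EuclideanSpace ℂ (Fin q))
    (h : ∀ i : Fin q, ((i : ℕ) : ℤ) ∈ A → e i ≠ 0 → (i : ℕ) + n < q → t ≤ wsum u (i : ℕ) n) :
    ‖restr (fs q {m : ℤ | m - n ∈ A} : Set (Fin q)) (shiftN u n e)‖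
      ≤ Real.exp (-t) * ‖restr (fs q A : Set (Fin q)) e‖ := by
  have hsq : ‖restr (fs q {m : ℤ | m - n ∈ A} : Set (Fin q)) (shiftN u n e)‖ ^ 2
      ≤ (Real.exp (-t) * ‖restr (fs q A : Set (Fin q)) e‖) ^ 2 := by
    rw [mul_pow, EuclideanSpace.norm_sq_eq, EuclideanSpace.norm_sq_eq, Finset.mul_sum,
      sum_shift n]
    · refine Finset.sum_le_sum fun i _ => ?_
      by_cases hi : (i : ℕ) + n < q
      · rw [dif_pos hi, restr_apply, restr_apply, shiftN_apply_add]
        by_cases hA : ((i : ℕ) : ℤ) ∈ A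
        · have h1 : (⟨(i : ℕ) + n, hi⟩ : Fin q) ∈ (fs q {m : ℤ | m - n ∈ A} : Set (Fin q)) := by
            rw [Finset.mem_coe, mem_fs]
            simpa using hA
          have h2 : i ∈ (fs q A : Set (Fin q)) := by
            rw [Finset.mem_coe, mem_fs]; exact hA
          rw [if_pos h1, if_pos h2]
          by_cases he : e i = 0
          · simp [he]
          · have h3 := h i hA he hi
            rw [norm_mul, mul_pow]
            refine mul_le_mul_of_nonneg_right ?_ (by positivity)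
            rw [Complex.norm_real, Real.norm_eq_abs, Real.abs_exp]
            refine pow_le_pow_left₀ (Real.exp_pos _).le ?_ 2
            exact Real.exp_le_exp.mpr (by linarith)
        · have h1 : ¬ (⟨(i : ℕ) + n, hi⟩ : Fin q) ∈ (fs q {m : ℤ | m - n ∈ A} : Set (Fin q)) := by
            rw [Finset.mem_coe, mem_fs]
            simpa using hA
          rw [if_neg h1, norm_zero, zero_pow two_ne_zero]
          exact mul_nonneg (by positivity) (by positivity)
      · rw [dif_neg hi]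
        exact mul_nonneg (by positivity) (by positivity)
    · intro j hj
      rw [restr_apply, shiftN_apply_lt u n e j hj]
      simp
  exact le_of_sq_le_sq hsq (by positivity)

/-- Lower bound for the part of `T^n e` off `A + n`. -/
theorem le_norm_sub_restr_shiftN (u : ℤ → ℝ) (n : ℕ) (A : Set ℤ) [DecidablePred (· ∈ A)]
    [DecidablePred (· ∈ {m : ℤ | m - n ∈ A})] (t : ℝ) (e : EuclideanSpace ℂ (Fin q))
    (h0 : ∀ i : Fin q, q ≤ (i : ℕ) + n → e i = 0)
    (h : ∀ i : Fin q, ((i : ℕ) : ℤ) ∉ A → e i ≠ 0 → (i : ℕ) + n < q → wsum u (i : ℕ) n ≤ t) :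
    Real.exp (-t) * ‖e - restr (fs q A : Set (Fin q)) e‖ ≤
      ‖shiftN u n e - restr (fs q {m : ℤ | m - n ∈ A} : Set (Fin q)) (shiftN u n e)‖ := by
  have hsq : (Real.exp (-t) * ‖e - restr (fs q A : Set (Fin q)) e‖) ^ 2 ≤
      ‖shiftN u n e - restr (fs q {m : ℤ | m - n ∈ A} : Set (Fin q)) (shiftN u n e)‖ ^ 2 := by
    rw [mul_pow, EuclideanSpace.norm_sq_eq, EuclideanSpace.norm_sq_eq, Finset.mul_sum,
      sum_shift n (fun j => ‖(shiftN u n e - restr (fs q {m : ℤ | m - n ∈ A} : Set (Fin q))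
        (shiftN u n e)) j‖ ^ 2)]
    · refine Finset.sum_le_sum fun i _ => ?_
      by_cases hi : (i : ℕ) + n < q
      · rw [dif_pos hi, PiLp.sub_apply, PiLp.sub_apply, restr_apply, restr_apply,
          shiftN_apply_add]
        by_cases hA : ((i : ℕ) : ℤ) ∈ A
        · have h2 : i ∈ (fs q A : Set (Fin q)) := by
            rw [Finset.mem_coe, mem_fs]; exact hA
          rw [if_pos h2]
          simp only [sub_self, norm_zero, ne_eq, OfNat.ofNat_ne_zero, not_false_eq_true, zero_pow,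
            mul_zero]
          positivity
        · have h1 : ¬ (⟨(i : ℕ) + n, hi⟩ : Fin q) ∈ (fs q {m : ℤ | m - n ∈ A} : Set (Fin q)) := by
            rw [Finset.mem_coe, mem_fs]
            simpa using hA
          have h2 : ¬ i ∈ (fs q A : Set (Fin q)) := by
            rw [Finset.mem_coe, mem_fs]; exact hA
          rw [if_neg h1, if_neg h2, sub_zero, sub_zero]
          by_cases he : e i = 0
          · simp [he]
          · have h3 := h i hA he hi
            rw [norm_mul, mul_pow]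
            refine mul_le_mul_of_nonneg_right ?_ (by positivity)
            rw [Complex.norm_real, Real.norm_eq_abs, Real.abs_exp]
            refine pow_le_pow_left₀ (Real.exp_pos _).le ?_ 2
            exact Real.exp_le_exp.mpr (by linarith)
      · rw [dif_neg hi, PiLp.sub_apply, restr_apply, h0 i (by omega)]
        simp
    · intro j hj
      rw [PiLp.sub_apply, restr_apply, shiftN_apply_lt u n e j hj]
      simp
  exact le_of_sq_le_sq hsq (by positivity)

end FluxShift

end Crest.Agent.R113.FW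
end

-- ▼ part R113/Flux
section

/-! # T02: key lemma, flux inequality (FI), moving inequality (MI) — blueprint 6835 (K),(FI),(MI) -/

set_option autoImplicit false

namespace Crest.Agent.R113

open scoped BigOperators

/-- (K) key lemma. -/
theorem key_lemma {ι : Type*} [Fintype ι] [DecidableEq ι]
    (X X' : Submodule ℂ (EuclideanSpace ℂ ι)) (A B : Finset ι)
    (N : EuclideanSpace ℂ ι →ₗ[ℂ] EuclideanSpace ℂ ι) (δ α β s d : ℝ)
    (hδ : 0 ≤ δ) (hα : 0 ≤ α) (hβ : 0 < β) (hs : 0 < s) (hs1 : s ≤ 1)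
    (hle : X' ≤ X) (hcod : (Module.finrank ℂ X : ℝ) ≤ Module.finrank ℂ X' + d)
    (h1 : ∀ v ∈ X', ‖N v - X.starProjection (N v)‖ ≤ δ * ‖v‖)
    (h2 : ∀ v ∈ X', ‖restr (B : Set ι) (N v)‖ ≤ α * ‖restr (A : Set ι) v‖)
    (h3 : ∀ v ∈ X', β * ‖v - restr (A : Set ι) v‖ ≤ ‖N v - restr (B : Set ι) (N v)‖) :
    ∃ Y : Submodule ℂ (EuclideanSpace ℂ ι), Y ≤ X ∧
      trOn X B - s * Module.finrank ℂ X - d ≤ Module.finrank ℂ Y ∧
      ∀ v ∈ Y, ‖v - restr (A : Set ι) v‖ ≤
        (α / (β * Real.sqrt s)) * ‖restr (A : Set ι) v‖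
          + ((1 / Real.sqrt s + 1) * δ / β) * ‖v‖ := by
  obtain ⟨Y, hY, hd, hb⟩ := key_lemma_aux X X' A B N δ α β s d hβ hs hcod h1 h2 h3
  exact ⟨Y, hY.trans hle, hd, hb⟩

/-- If `X` contains a subspace `Y` of vectors `ε`-localised in `A`, then the cut mass is small. -/
theorem cut_le_of_localised {ι : Type*} [Fintype ι] [DecidableEq ι]
    (X Y : Submodule ℂ (EuclideanSpace ℂ ι)) (A : Finset ι) (ε : ℝ) (hε : 0 ≤ ε) (hY : Y ≤ X)
    (hloc : ∀ v ∈ Y, ‖v - restr (A : Set ι) v‖ ≤ ε * ‖v‖) :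
    cut X A ≤ trOn X A - (1 - 2 * ε ^ 2) * Module.finrank ℂ Y :=
  cut_le_of_localised_aux X Y A ε hY hloc

theorem trOn_ge_of_localised {ι : Type*} [Fintype ι] [DecidableEq ι]
    (X Y : Submodule ℂ (EuclideanSpace ℂ ι)) (A : Finset ι) (ε : ℝ) (hε : 0 ≤ ε) (hY : Y ≤ X)
    (hloc : ∀ v ∈ Y, ‖v - restr (A : Set ι) v‖ ≤ ε * ‖v‖) :
    (1 - ε ^ 2) * Module.finrank ℂ Y ≤ trOn X A :=
  trOn_ge_of_localised_aux X Y A ε hY hloc

open FW in
/-- The subspace `Y` of vectors of `X = aE` localised in `A`. -/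
theorem flux_localised {q : ℕ} {κ' : Type*} [DecidableEq κ'] (win : Fin q → κ')
    (E E' : Submodule ℂ (EuclideanSpace ℂ (Fin q))) (u : ℤ → ℝ) (n : ℕ) (cs d : ℝ)
    (hinv : AppInv E E' u n (Real.exp (-cs)) d)
    (a : EuclideanSpace ℂ (Fin q) →ₗ[ℂ] EuclideanSpace ℂ (Fin q)) (ha : BlockDiag win a)
    (κ : ℝ) (hκ : 0 ≤ κ) (ha1 : ∀ v, ‖a v‖ ≤ ‖v‖) (ha2 : ∀ v, Real.exp (-κ) * ‖v‖ ≤ ‖a v‖)
    (A : Set ℤ) [DecidablePred (· ∈ A)] [DecidablePred (· ∈ {m : ℤ | m - n ∈ A})]
    (Bd : Finset (Fin q)) (v0 γ : ℝ)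
    (hγ0 : 0 < γ) (hγ : 8 * κ ≤ γ) (hcs : v0 + 5 * γ + 10 ≤ cs)
    (hcutA : ∀ i j : Fin q, win i = win j → ((i : ℕ) : ℤ) ∈ A → ((j : ℕ) : ℤ) ∉ A →
      i ∈ Bd ∧ j ∈ Bd)
    (hcutB : ∀ i j : Fin q, win i = win j → ((i : ℕ) : ℤ) - n ∈ A → ((j : ℕ) : ℤ) - n ∉ A →
      ∀ i' : Fin q, ((i' : ℕ) + n = i ∨ (i' : ℕ) + n = j) → i' ∈ Bd)
    (hA : ∀ i : Fin q, ((i : ℕ) : ℤ) ∈ A → i ∉ Bd → (i : ℕ) + n < q →
      v0 + γ ≤ wsum u i n)
    (hAc : ∀ i : Fin q, ((i : ℕ) : ℤ) ∉ A → i ∉ Bd → (i : ℕ) + n < q → wsum u i n ≤ v0) :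
    ∃ Y : Submodule ℂ (EuclideanSpace ℂ (Fin q)), Y ≤ E.map a ∧
      trOn (E.map a) (fs q {m : ℤ | m - n ∈ A}) - Real.exp (-γ / 4) * q - (d + Bd.card)
        ≤ Module.finrank ℂ Y ∧
      ∀ v ∈ Y, ‖v - restr (fs q A : Set (Fin q)) v‖ ≤
        (1.01 * Real.exp (-(5 * γ / 8))) * ‖v‖ := by
  -- `a` is bijective
  have hinj : Function.Injective a := by
    rw [← LinearMap.ker_eq_bot, LinearMap.ker_eq_bot']
    intro v hv
    have h1 := ha2 v
    rw [hv, norm_zero] at h1
    have h2 : ‖v‖ ≤ 0 := by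
      by_contra hne
      push Not at hne
      have := mul_pos (Real.exp_pos (-κ)) hne
      linarith
    exact norm_le_zero_iff.mp h2
  let ae : EuclideanSpace ℂ (Fin q) ≃ₗ[ℂ] EuclideanSpace ℂ (Fin q) :=
    LinearEquiv.ofInjectiveEndo a hinj
  have hae : ∀ v, ae.symm (a v) = v := fun v => by
    have : ae v = a v := rfl
    rw [← this, LinearEquiv.symm_apply_apply]
  set N : EuclideanSpace ℂ (Fin q) →ₗ[ℂ] EuclideanSpace ℂ (Fin q) :=
    a ∘ₗ shiftN u n ∘ₗ ae.symm.toLinearMap with hN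
  have hNa : ∀ e, N (a e) = a (shiftN u n e) := fun e => by
    simp only [hN, LinearMap.comp_apply, LinearEquiv.coe_coe, hae]
  set E2 : Submodule ℂ (EuclideanSpace ℂ (Fin q)) := E' ⊓ coordSub Bdᶜ with hE2
  have hE2le : E2 ≤ E := inf_le_left.trans hinv.le
  -- facts for `e ∈ E2`
  have hvan : ∀ e ∈ E2, ∀ i ∈ Bd, e i = 0 := by
    intro e he i hi
    have h1 : e ∈ coordSub Bdᶜ := (Submodule.mem_inf.mp he).2
    exact h1 i (by simpa using hi)
  have hsupp : ∀ e ∈ E2, ∀ j : Fin q, q ≤ (j : ℕ) + n → e j = 0 := fun e he =>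
    hinv.supp e (Submodule.mem_inf.mp he).1
  have hrA : ∀ e ∈ E2, restr (fs q A : Set (Fin q)) (a e) = a (restr (fs q A : Set (Fin q)) e) := by
    intro e he
    refine restr_comm_of_vanish win a ha _ e fun i j hij hi hj => ?_
    rw [Finset.mem_coe, mem_fs] at hi hj
    obtain ⟨h1, h2⟩ := hcutA i j hij hi hj
    exact ⟨hvan e he i h1, hvan e he j h2⟩
  have hrB : ∀ e ∈ E2, restr (fs q {m : ℤ | m - n ∈ A} : Set (Fin q)) (a (shiftN u n e))
      = a (restr (fs q {m : ℤ | m - n ∈ A} : Set (Fin q)) (shiftN u n e)) := by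
    intro e he
    refine restr_comm_of_vanish win a ha _ _ fun i j hij hi hj => ?_
    rw [Finset.mem_coe, mem_fs] at hi hj
    have key : ∀ k : Fin q, (k = i ∨ k = j) → shiftN u n e k = 0 := by
      intro k hk
      by_cases hkn : (k : ℕ) < n
      · exact shiftN_apply_lt u n e k hkn
      · push Not at hkn
        have hk2 : (k : ℕ) - n < q := by have := k.2; omega
        have hk3 : (k : ℕ) - n + n < q := by have := k.2; omega
        have hk4 : k = ⟨(k : ℕ) - n + n, hk3⟩ := by ext; simp only; omega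
        have h1 : (⟨(k : ℕ) - n, hk2⟩ : Fin q) ∈ Bd := by
          refine hcutB i j hij hi hj _ ?_
          rcases hk with rfl | rfl
          · left; simp only; omega
          · right; simp only; omega
        have h2 := shiftN_apply_add u n e ⟨(k : ℕ) - n, hk2⟩ hk3
        rw [hk4]
        simp only at h2
        rw [h2, hvan e he _ h1, mul_zero]
    exact ⟨key i (Or.inl rfl), key j (Or.inr rfl)⟩
  have hnorm : ∀ e, ‖e‖ ≤ Real.exp κ * ‖a e‖ := by
    intro e
    have h1 := ha2 e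
    have h2 : Real.exp κ * (Real.exp (-κ) * ‖e‖) = ‖e‖ := by
      rw [← mul_assoc, ← Real.exp_add]; simp
    calc ‖e‖ = Real.exp κ * (Real.exp (-κ) * ‖e‖) := h2.symm
      _ ≤ _ := mul_le_mul_of_nonneg_left h1 (Real.exp_pos _).le
  -- the key lemma
  have hs : 0 < Real.exp (-γ / 4) := Real.exp_pos _
  have hs1 : Real.exp (-γ / 4) ≤ 1 := by
    rw [Real.exp_le_one_iff]; linarith
  have hrank : ∀ F : Submodule ℂ (EuclideanSpace ℂ (Fin q)),
      Module.finrank ℂ (F.map a) = Module.finrank ℂ F := fun F =>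
    LinearEquiv.finrank_map_eq ae F
  have hcod : (Module.finrank ℂ (E.map a) : ℝ) ≤ Module.finrank ℂ (E2.map a) + (d + Bd.card) := by
    rw [hrank, hrank]
    have h1 := hinv.codim
    have h2 := finrank_inf_vanish E' Bd
    have h3 : (Module.finrank ℂ E' : ℝ) ≤ Module.finrank ℂ E2 + Bd.card := by exact_mod_cast h2
    linarith
  have h1 : ∀ v ∈ E2.map a, ‖N v - (E.map a).starProjection (N v)‖
      ≤ Real.exp (-cs + κ) * ‖v‖ := by
    intro v hv
    obtain ⟨e, he, rfl⟩ := hv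
    rw [hNa]
    have g1 : a (E.starProjection (shiftN u n e)) ∈ E.map a :=
      Submodule.mem_map_of_mem (by simp)
    calc ‖a (shiftN u n e) - (E.map a).starProjection (a (shiftN u n e))‖
        ≤ ‖a (shiftN u n e) - a (E.starProjection (shiftN u n e))‖ :=
          norm_sub_starProjection_le _ _ _ g1
      _ = ‖a (shiftN u n e - E.starProjection (shiftN u n e))‖ := by rw [map_sub]
      _ ≤ ‖shiftN u n e - E.starProjection (shiftN u n e)‖ := ha1 _
      _ ≤ Real.exp (-cs) * ‖e‖ := hinv.inv e (Submodule.mem_inf.mp he).1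
      _ ≤ Real.exp (-cs) * (Real.exp κ * ‖a e‖) :=
          mul_le_mul_of_nonneg_left (hnorm e) (Real.exp_pos _).le
      _ = Real.exp (-cs + κ) * ‖a e‖ := by rw [Real.exp_add]; ring
  have h2 : ∀ v ∈ E2.map a, ‖restr (fs q {m : ℤ | m - n ∈ A} : Set (Fin q)) (N v)‖
      ≤ Real.exp (κ - v0 - γ) * ‖restr (fs q A : Set (Fin q)) v‖ := by
    intro v hv
    obtain ⟨e, he, rfl⟩ := hv
    rw [hNa, hrA e he, hrB e he]
    calc ‖a (restr (fs q {m : ℤ | m - n ∈ A} : Set (Fin q)) (shiftN u n e))‖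
        ≤ ‖restr (fs q {m : ℤ | m - n ∈ A} : Set (Fin q)) (shiftN u n e)‖ := ha1 _
      _ ≤ Real.exp (-(v0 + γ)) * ‖restr (fs q A : Set (Fin q)) e‖ := by
          refine norm_restr_shiftN_le u n A (v0 + γ) e fun i hi he0 hin => ?_
          refine hA i hi (fun hiB => he0 (hvan e he i hiB)) hin
      _ ≤ Real.exp (-(v0 + γ)) * (Real.exp κ * ‖a (restr (fs q A : Set (Fin q)) e)‖) :=
          mul_le_mul_of_nonneg_left (hnorm _) (Real.exp_pos _).le
      _ = Real.exp (κ - v0 - γ) * ‖a (restr (fs q A : Set (Fin q)) e)‖ := by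
          rw [← mul_assoc, ← Real.exp_add]; congr 2; ring
  have h3 : ∀ v ∈ E2.map a, Real.exp (-κ - v0) * ‖v - restr (fs q A : Set (Fin q)) v‖
      ≤ ‖N v - restr (fs q {m : ℤ | m - n ∈ A} : Set (Fin q)) (N v)‖ := by
    intro v hv
    obtain ⟨e, he, rfl⟩ := hv
    rw [hNa, hrA e he, hrB e he, ← map_sub, ← map_sub]
    calc Real.exp (-κ - v0) * ‖a (e - restr (fs q A : Set (Fin q)) e)‖
        ≤ Real.exp (-κ - v0) * ‖e - restr (fs q A : Set (Fin q)) e‖ :=
          mul_le_mul_of_nonneg_left (ha1 _) (Real.exp_pos _).le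
      _ = Real.exp (-κ) * (Real.exp (-v0) * ‖e - restr (fs q A : Set (Fin q)) e‖) := by
          rw [← mul_assoc, ← Real.exp_add]; congr 2
      _ ≤ Real.exp (-κ) * ‖shiftN u n e
            - restr (fs q {m : ℤ | m - n ∈ A} : Set (Fin q)) (shiftN u n e)‖ := by
          refine mul_le_mul_of_nonneg_left ?_ (Real.exp_pos _).le
          refine le_norm_sub_restr_shiftN u n A v0 e (hsupp e he) fun i hi he0 hin => ?_
          exact hAc i hi (fun hiB => he0 (hvan e he i hiB)) hin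
      _ ≤ _ := ha2 _
  obtain ⟨Y, hY, hYdim, hYloc⟩ := key_lemma (E.map a) (E2.map a) (fs q A)
    (fs q {m : ℤ | m - n ∈ A}) N (Real.exp (-cs + κ)) (Real.exp (κ - v0 - γ))
    (Real.exp (-κ - v0)) (Real.exp (-γ / 4)) (d + Bd.card) (Real.exp_pos _).le (Real.exp_pos _).le
    (Real.exp_pos _) hs hs1 (Submodule.map_mono hE2le)
    hcod h1 h2 h3
  refine ⟨Y, hY, ?_, fun v hv => ?_⟩
  · have g1 : (Module.finrank ℂ (E.map a) : ℝ) ≤ q := by
      have := Submodule.finrank_le (E.map a)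
      rw [finrank_euclideanSpace_fin] at this
      exact_mod_cast this
    have g2 := mul_le_mul_of_nonneg_left g1 hs.le
    linarith
  · have g0 : ‖restr (fs q A : Set (Fin q)) v‖ ≤ ‖v‖ := norm_restr_le _ v
    have g1 := hYloc v hv
    have hsqrt : Real.sqrt (Real.exp (-γ / 4)) = Real.exp (-(γ / 8)) := by
      rw [← Real.exp_half]; congr 1; ring
    rw [hsqrt] at g1
    have g2 : Real.exp (κ - v0 - γ) / (Real.exp (-κ - v0) * Real.exp (-(γ / 8)))
        ≤ Real.exp (-(5 * γ / 8)) := by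
      rw [← Real.exp_add, ← Real.exp_sub]
      exact Real.exp_le_exp.mpr (by linarith)
    have g3 : (1 / Real.exp (-(γ / 8)) + 1) * Real.exp (-cs + κ) / Real.exp (-κ - v0)
        ≤ 0.01 * Real.exp (-(5 * γ / 8)) := by
      have k1 : 1 / Real.exp (-(γ / 8)) = Real.exp (γ / 8) := by
        rw [Real.exp_neg, one_div, inv_inv]
      have k2 : (1 : ℝ) ≤ Real.exp (γ / 8) := Real.one_le_exp (by linarith)
      have k3 : Real.exp (-10) ≤ (0.005 : ℝ) := by
        have e1 := Real.exp_one_gt_d9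
        have e2 : Real.exp (-10) = (Real.exp 1 ^ 10)⁻¹ := by
          rw [← Real.exp_nat_mul, Real.exp_neg]; norm_num
        have e3 : (2.7 : ℝ) ^ 10 ≤ Real.exp 1 ^ 10 :=
          pow_le_pow_left₀ (by norm_num) (by linarith) 10
        have e4 : (200 : ℝ) ≤ Real.exp 1 ^ 10 := le_trans (by norm_num) e3
        rw [e2, inv_le_comm₀ (by positivity) (by norm_num)]
        exact le_trans (by norm_num) e4
      rw [k1]
      calc (Real.exp (γ / 8) + 1) * Real.exp (-cs + κ) / Real.exp (-κ - v0)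
          ≤ (2 * Real.exp (γ / 8)) * Real.exp (-cs + κ) / Real.exp (-κ - v0) := by
            gcongr; linarith
        _ = 2 * Real.exp (γ / 8 + (-cs + κ) - (-κ - v0)) := by
            rw [Real.exp_sub (γ / 8 + (-cs + κ)) (-κ - v0), Real.exp_add (γ / 8)]; ring
        _ ≤ 2 * Real.exp (-10 + -(5 * γ / 8)) := by
            gcongr; linarith
        _ = 2 * Real.exp (-10) * Real.exp (-(5 * γ / 8)) := by rw [Real.exp_add]; ring
        _ ≤ 2 * 0.005 * Real.exp (-(5 * γ / 8)) := by gcongr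
        _ = _ := by norm_num
    calc ‖v - restr (fs q A : Set (Fin q)) v‖ ≤ _ := g1
      _ ≤ Real.exp (-(5 * γ / 8)) * ‖v‖ + 0.01 * Real.exp (-(5 * γ / 8)) * ‖v‖ := by
          refine add_le_add (mul_le_mul g2 g0 (norm_nonneg _) (Real.exp_pos _).le) ?_
          exact mul_le_mul_of_nonneg_right g3 (norm_nonneg _)
      _ = _ := by ring

/-- (FI)+(MI), window form. `X = aE`, `a` window-block-diagonal with `e^{-κ} ≤ |a| ≤ 1`.
`Bd` contains the cut windows of `A`, the `n`-preimages of the windows cut by `A+n`, and the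
positions violating the cost bounds. -/
theorem flux_window {q : ℕ} {κ' : Type*} [DecidableEq κ'] (win : Fin q → κ')
    (E E' : Submodule ℂ (EuclideanSpace ℂ (Fin q))) (u : ℤ → ℝ) (n : ℕ) (cs d : ℝ) (hd : 0 ≤ d)
    (hinv : AppInv E E' u n (Real.exp (-cs)) d)
    (a : EuclideanSpace ℂ (Fin q) →ₗ[ℂ] EuclideanSpace ℂ (Fin q)) (ha : BlockDiag win a)
    (κ : ℝ) (hκ : 0 ≤ κ) (ha1 : ∀ v, ‖a v‖ ≤ ‖v‖) (ha2 : ∀ v, Real.exp (-κ) * ‖v‖ ≤ ‖a v‖)
    (A : Set ℤ) [DecidablePred (· ∈ A)] [DecidablePred (· ∈ {m : ℤ | m - n ∈ A})]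
    (Bd : Finset (Fin q)) (v0 γ : ℝ)
    (hv0 : 0 ≤ v0) (hγ0 : 0 < γ) (hγ : 8 * κ ≤ γ) (hcs : v0 + 5 * γ + 10 ≤ cs)
    (hcutA : ∀ i j : Fin q, win i = win j → ((i : ℕ) : ℤ) ∈ A → ((j : ℕ) : ℤ) ∉ A →
      i ∈ Bd ∧ j ∈ Bd)
    (hcutB : ∀ i j : Fin q, win i = win j → ((i : ℕ) : ℤ) - n ∈ A → ((j : ℕ) : ℤ) - n ∉ A →
      ∀ i' : Fin q, ((i' : ℕ) + n = i ∨ (i' : ℕ) + n = j) → i' ∈ Bd)
    (hA : ∀ i : Fin q, ((i : ℕ) : ℤ) ∈ A → i ∉ Bd → (i : ℕ) + n < q →
      v0 + γ ≤ wsum u i n)
    (hAc : ∀ i : Fin q, ((i : ℕ) : ℤ) ∉ A → i ∉ Bd → (i : ℕ) + n < q → wsum u i n ≤ v0) :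
    cut (E.map a) (fs q A) ≤ trOn (E.map a) (fs q A) - trOn (E.map a) (fs q {m : ℤ | m - n ∈ A})
        + 10 * Real.exp (-γ / 4) * q + d + Bd.card ∧
    ∀ s : ℝ, 0 ≤ s → s ≤ γ / 4 →
      trOn (E.map a) (fs q A) - trOn ((E.map a).map (scal (fs q A) s)) (fs q A) ≤
        trOn (E.map a) (fs q A) - trOn (E.map a) (fs q {m : ℤ | m - n ∈ A})
          + 10 * Real.exp (-γ / 4) * q + d + Bd.card := by
  obtain ⟨Y, hY, hYdim, hYloc⟩ := flux_localised win E E' u n cs d hinv a ha κ hκ ha1 ha2 A Bd v0 γ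
    hγ0 hγ hcs hcutA hcutB hA hAc
  have hYq : (Module.finrank ℂ Y : ℝ) ≤ q := by
    have := Submodule.finrank_le Y
    rw [finrank_euclideanSpace_fin] at this
    exact_mod_cast this
  have hY0 : (0 : ℝ) ≤ Module.finrank ℂ Y := Nat.cast_nonneg _
  have hq0 : (0 : ℝ) ≤ q := Nat.cast_nonneg _
  set t : ℝ := Real.exp (-γ / 4) with ht
  have ht0 : 0 < t := Real.exp_pos _
  refine ⟨?_, fun s hs hs2 => ?_⟩
  · have g1 := cut_le_of_localised (E.map a) Y (fs q A) (1.01 * Real.exp (-(5 * γ / 8)))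
      (by positivity) hY hYloc
    have g2 : (1.01 * Real.exp (-(5 * γ / 8))) ^ 2 ≤ 1.1 * t := by
      rw [mul_pow, ← Real.exp_nat_mul]
      have : Real.exp (((2 : ℕ) : ℝ) * -(5 * γ / 8)) ≤ t :=
        Real.exp_le_exp.mpr (by push_cast; linarith)
      nlinarith
    nlinarith [mul_le_mul g2 hYq hY0 (by positivity)]
  · have hinj : Function.Injective (scal (fs q A) s : EuclideanSpace ℂ (Fin q) →ₗ[ℂ] _) := by
      intro v w hvw
      ext i
      have h1 := congrArg (fun x : EuclideanSpace ℂ (Fin q) => x i) hvw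
      simp only [scal, mulD_apply] at h1
      refine mul_left_cancel₀ ?_ h1
      split_ifs
      · exact_mod_cast (Real.exp_pos _).ne'
      · simp
    have hfr : Module.finrank ℂ (Y.map (scal (fs q A) s)) = Module.finrank ℂ Y :=
      LinearEquiv.finrank_map_eq (LinearEquiv.ofInjectiveEndo _ hinj) Y
    have g1 := trOn_ge_of_localised ((E.map a).map (scal (fs q A) s)) (Y.map (scal (fs q A) s))
      (fs q A) (1.01 * Real.exp (-(3 * γ / 8))) (by positivity) (Submodule.map_mono hY) (by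
        intro v' hv'
        obtain ⟨v, hv, rfl⟩ := hv'
        have k1 : scal (fs q A) s v - restr (fs q A : Set (Fin q)) (scal (fs q A) s v)
            = v - restr (fs q A : Set (Fin q)) v := by
          ext i
          rw [PiLp.sub_apply, PiLp.sub_apply, restr_apply, restr_apply]
          by_cases hi : i ∈ fs q A
          · simp [hi]
          · simp [hi, scal]
        have k2 : ‖v‖ ≤ Real.exp s * ‖scal (fs q A) s v‖ := by
          have : ‖v‖ ^ 2 ≤ (Real.exp s * ‖scal (fs q A) s v‖) ^ 2 := by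
            rw [mul_pow, EuclideanSpace.norm_sq_eq, EuclideanSpace.norm_sq_eq, Finset.mul_sum]
            refine Finset.sum_le_sum fun i _ => ?_
            simp only [scal, mulD_apply, norm_mul, mul_pow]
            rw [← mul_assoc]
            refine le_mul_of_one_le_left (by positivity) ?_
            rw [← mul_pow]
            refine one_le_pow₀ ?_
            rw [Complex.norm_real, Real.norm_eq_abs]
            split_ifs
            · rw [Real.abs_exp, ← Real.exp_add]; simp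
            · simp only [abs_one, mul_one]
              exact Real.one_le_exp hs
          exact le_of_sq_le_sq this (by positivity)
        rw [k1]
        calc ‖v - restr (fs q A : Set (Fin q)) v‖
            ≤ (1.01 * Real.exp (-(5 * γ / 8))) * ‖v‖ := hYloc v hv
          _ ≤ (1.01 * Real.exp (-(5 * γ / 8))) * (Real.exp s * ‖scal (fs q A) s v‖) :=
              mul_le_mul_of_nonneg_left k2 (by positivity)
          _ = 1.01 * (Real.exp (-(5 * γ / 8)) * Real.exp s) * ‖scal (fs q A) s v‖ := by ring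
          _ ≤ _ := by
              gcongr
              rw [← Real.exp_add]
              exact Real.exp_le_exp.mpr (by linarith))
    rw [hfr] at g1
    have g2 : (1.01 * Real.exp (-(3 * γ / 8))) ^ 2 ≤ 1.1 * t := by
      rw [mul_pow, ← Real.exp_nat_mul]
      have : Real.exp (((2 : ℕ) : ℝ) * -(3 * γ / 8)) ≤ t :=
        Real.exp_le_exp.mpr (by push_cast; linarith)
      nlinarith
    nlinarith [mul_le_mul g2 hYq hY0 (by positivity)]

end Crest.Agent.R113
end

-- ▼ part R113/FD/OffBridge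

/-!
Row 113, S0149, T10 bridge (helper251): the entries of a projection form a mass matrix; `cut`, `trOn`
of `Defs.lean` in terms of `cutM`, `flux` of `FD/Orbit.lean`.
-/

set_option autoImplicit false

namespace Crest.Agent.R113.Orb

open Finset

/-- a projection gives a mass matrix -/
theorem mass_ent {q : ℕ} (X : Submodule ℂ (EuclideanSpace ℂ (Fin q))) :
    Mass (fun i j => ‖ent X i j‖ ^ 2) (dg X) where
  nonneg _ _ := by positivity
  symm i j := by rw [norm_ent_symm]
  row i := sum_ent_sq X i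
  le_one i := dg_le_one X i

theorem mem_fs {q : ℕ} (A : Set ℤ) [DecidablePred (· ∈ A)] (m : Fin q) :
    m ∈ fs q A ↔ ((m : ℕ) : ℤ) ∈ A := by
  simp [fs]

theorem trOn_fs {q : ℕ} (X : Submodule ℂ (EuclideanSpace ℂ (Fin q))) (A : Set ℤ)
    [DecidablePred (· ∈ A)] : trOn X (fs q A) = ∑ m : Fin q, dg X m * ind A ((m : ℕ) : ℤ) := by
  classical
  rw [trOn, fs, Finset.sum_filter]
  refine Finset.sum_congr rfl fun m _ => ?_
  unfold ind
  by_cases h : ((m : ℕ) : ℤ) ∈ A
  · rw [if_pos h, Set.indicator_of_mem h, mul_one]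
  · rw [if_neg h, Set.indicator_of_notMem h, mul_zero]

theorem cut_fs {q : ℕ} (X : Submodule ℂ (EuclideanSpace ℂ (Fin q))) (A : Set ℤ)
    [DecidablePred (· ∈ A)] :
    cut X (fs q A) = cutM (fun i j => ‖ent X i j‖ ^ 2) A := by
  classical
  rw [cut, cutM, fs, Finset.sum_filter]
  refine Finset.sum_congr rfl fun m _ => ?_
  rw [Finset.compl_filter, Finset.sum_filter]
  by_cases h : ((m : ℕ) : ℤ) ∈ A
  · rw [if_pos h]
    refine Finset.sum_congr rfl fun m' _ => ?_
    by_cases h' : ((m' : ℕ) : ℤ) ∈ A <;> simp [h, h']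
  · rw [if_neg h]
    symm
    apply Finset.sum_eq_zero
    intro m' _
    simp [h]

theorem flux_fs {q : ℕ} (X : Submodule ℂ (EuclideanSpace ℂ (Fin q))) (A : Set ℤ) (n : ℕ)
    [DecidablePred (· ∈ A)] [DecidablePred (· ∈ {m : ℤ | m - n ∈ A})] :
    trOn X (fs q A) - trOn X (fs q {m : ℤ | m - n ∈ A}) = flux (dg X) A n := by
  classical
  rw [trOn_fs, trOn_fs, flux, ← Finset.sum_sub_distrib]
  refine Finset.sum_congr rfl fun m _ => ?_
  have : ind {m : ℤ | m - n ∈ A} ((m : ℕ) : ℤ) = ind A (((m : ℕ) : ℤ) - n) := by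
    unfold ind
    by_cases h : ((m : ℕ) : ℤ) - n ∈ A
    · rw [Set.indicator_of_mem h, Set.indicator_of_mem (show ((m : ℕ) : ℤ) ∈ {m : ℤ | m - n ∈ A} from h)]
    · rw [Set.indicator_of_notMem h, Set.indicator_of_notMem
        (show ((m : ℕ) : ℤ) ∉ {m : ℤ | m - n ∈ A} from h)]
  rw [this]
  ring

end Crest.Agent.R113.Orb
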