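import Crest.Agent.R113.FD.OrbitB
import Mathlib
import Crest.Agent.R113.Basic
import Crest.Agent.R113.FD.OffBridge_Mg

-- ▼ part R113/FD/OrbitC
section

/-!
Row 113, S0149, task T9, part 4: costs on and off the sets, the exceptional sets `Bd`. (helper292)
-/

set_option autoImplicit false

namespace Crest.Agent.R113.Orb

open Finset

variable {w : ℕ → ℕ → Bool} {c e : ℕ → ℝ} {g : ℕ → ℕ} {u : ℤ → ℝ} {lev : ℕ → ℤ → ℕ}
  {bad : ℕ → Set ℤ} {q N B J b0 l D K : ℕ}

theorem c_nonneg (hG : IsGrowth c e g) {b : ℕ} (hb : 1 ≤ b) : 0 ≤ c b := by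
  refine le_trans ?_ (hG.c_ge b hb)
  have := hG.e_nonneg b
  positivity

/-- cost of a near shift -/
theorem near_cost (hG : IsGrowth c e g) (hO : OrbitData w c e g u lev bad) (hb : 1 ≤ b0)
    (hl : 0 < l) (hlD : D * l = Mb b0) {i : ℕ} (hi : i < D) {m : ℤ} (hm : m ∉ bad b0)
    (hp : g b0 ≤ lev b0 m % Mb b0) (hp' : g b0 ≤ (lev b0 m + i * l) % Mb b0) :
    (m ∈ near lev b0 l D i → c b0 ≤ wsum u m (i * l)) ∧
    (m ∉ near lev b0 l D i → wsum u m (i * l) ≤ e b0) := by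
  have hM := Mb_pos b0
  have hc := c_nonneg hG hb
  have hn : i * l < Mb b0 := by
    rw [← hlD]; exact Nat.mul_lt_mul_of_pos_right hi hl
  have hn' : i * l ≤ rb b0 * Mb b0 := by
    calc i * l ≤ 1 * Mb b0 := by omega
      _ ≤ rb b0 * Mb b0 := Nat.mul_le_mul_right _ (rb_one_le b0)
  have h1 := hO.cost_low b0 hb m hm (i * l) hn' hp hp'
  have h2 := hO.cost_high b0 hb m hm (i * l) hn' hp hp'
  unfold idealCost at h1 h2
  have hdm := Nat.div_add_mod (lev b0 m) (Mb b0)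
  have hr := Nat.mod_lt (lev b0 m) hM
  set a := lev b0 m / Mb b0 with ha
  set r := lev b0 m % Mb b0 with hrdef
  have hmem : m ∈ near lev b0 l D i ↔ D ≤ r / l + i := Iff.rfl
  constructor
  · intro h
    rw [hmem] at h
    have h3 : Mb b0 ≤ r + i * l := by
      have h4 : r / l * l ≤ r := Nat.div_mul_le_self _ _
      calc Mb b0 = D * l := hlD.symm
        _ ≤ (r / l + i) * l := Nat.mul_le_mul_right _ h
        _ = r / l * l + i * l := by ring
        _ ≤ _ := by omega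
    have h5 : (lev b0 m + i * l) / Mb b0 = a + 1 := by
      rw [← hdm]
      have : Mb b0 * a + r + i * l = Mb b0 * (a + 1) + (r + i * l - Mb b0) := by
        rw [mul_add, mul_one]; omega
      rw [this, Nat.mul_add_div hM, Nat.div_eq_of_lt (by omega), add_zero]
    rw [h5] at h1
    have b1 := bv_nonneg (w b0 a)
    have b2 := bv_le_one (w b0 (a + 1))
    have : c b0 * 1 ≤ c b0 * (2 * (((a + 1 : ℕ) : ℝ) - (a : ℝ)) + bv (w b0 a) -
        bv (w b0 (a + 1))) := by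
      apply mul_le_mul_of_nonneg_left _ hc
      push_cast
      linarith
    linarith
  · intro h
    rw [hmem] at h
    have h3 : r + i * l < Mb b0 := by
      have h4 : r < l * (r / l + 1) := Nat.lt_mul_div_succ _ hl
      calc r + i * l < l * (r / l + 1) + i * l := by omega
        _ = (r / l + 1 + i) * l := by ring
        _ ≤ D * l := Nat.mul_le_mul_right _ (by omega)
        _ = _ := hlD
    have h5 : (lev b0 m + i * l) / Mb b0 = a := by
      rw [← hdm]
      have : Mb b0 * a + r + i * l = Mb b0 * a + (r + i * l) := by ring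
      rw [this, Nat.mul_add_div hM, Nat.div_eq_of_lt h3, add_zero]
    rw [h5] at h2
    have : c b0 * (2 * ((a : ℝ) - (a : ℝ)) + bv (w b0 a) - bv (w b0 a)) = 0 := by ring
    linarith

/-- cost of a far shift -/
theorem far_cost (hO : OrbitData w c e g u lev bad) {b k : ℕ} (hb : 1 ≤ b)
    (hk : k ≤ rb b) {m : ℤ} (hm : m ∉ bad b) (hp : g b ≤ lev b m % Mb b) :
    c b * (2 * k + bv (w b (cell lev b m)) - bv (w b (cell lev b m + k))) ≤ wsum u m (k * Mb b) ∧
    wsum u m (k * Mb b) ≤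
      c b * (2 * k + bv (w b (cell lev b m)) - bv (w b (cell lev b m + k))) + e b := by
  have hM := Mb_pos b
  have hn' : k * Mb b ≤ rb b * Mb b := Nat.mul_le_mul_right _ hk
  have hp' : g b ≤ (lev b m + k * Mb b) % Mb b := by
    rw [Nat.add_mul_mod_self_right]; exact hp
  have h1 := hO.cost_low b hb m hm (k * Mb b) hn' hp hp'
  have h2 := hO.cost_high b hb m hm (k * Mb b) hn' hp hp'
  unfold idealCost at h1 h2
  have h5 : (lev b m + k * Mb b) / Mb b = lev b m / Mb b + k := Nat.add_mul_div_right _ _ hM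
  rw [h5] at h1 h2
  have h6 : (2 * (((lev b m / Mb b + k : ℕ) : ℝ) - ((lev b m / Mb b : ℕ) : ℝ))) = 2 * k := by
    push_cast; ring
  rw [h6] at h1 h2
  exact ⟨h1, h2⟩

theorem card_shift (q n : ℕ) (P : ℤ → Prop) [DecidablePred P] :
    ((univ : Finset (Fin q)).filter
      (fun m : Fin q => (m : ℕ) + n < q ∧ P (((m : ℕ) : ℤ) + n))).card ≤
      ((univ : Finset (Fin q)).filter (fun m : Fin q => P ((m : ℕ) : ℤ))).card := by
  rw [card_fin_filter q P]
  apply Finset.card_le_card_of_injOn (fun m : Fin q => ((m : ℕ) : ℤ) + n)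
  · intro m hm
    simp only [Finset.coe_filter, Finset.mem_univ, true_and, Set.mem_ofPred_eq,
      Finset.mem_Ico] at hm ⊢
    exact ⟨by omega, hm.2⟩
  · intro m _ m' _ h
    apply Fin.ext
    simp only at h
    omega

theorem near_isBd (hG : IsGrowth c e g) (hO : OrbitData w c e g u lev bad)
    (hC : OrbitCounts q N B J lev bad)
    (hb : 1 ≤ b0) (hB : B ≤ b0) (hJ : b0 ≤ J) (hN : 2 * (Pib b0 * Mb b0) ≤ N)
    (hq : 4 ^ b0 * (Pib b0 * Mb b0) ≤ q)
    (hl : 0 < l) (hlD : D * l = Mb b0) (i : Fin (D - 1)) :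
    ∃ (Bd : Finset (Fin q)),
      IsBd (fun i : Fin q => win lev b0 l ((i : ℕ) : ℤ)) u (((i : ℕ) + 1) * l)
        (near lev b0 l D ((i : ℕ) + 1)) (e b0) (c b0 - e b0) Bd ∧
      (Bd.card : ℝ) ≤ 16 * zb b0 * q := by
  classical
  have hi := i.2
  have hid : (i : ℕ) + 1 < D := by omega
  set n := ((i : ℕ) + 1) * l with hn
  have hnM : n < Mb b0 := by
    rw [hn, ← hlD]; exact Nat.mul_lt_mul_of_pos_right hid hl
  have hPM : Mb b0 ≤ Pib b0 * Mb b0 := Nat.le_mul_of_pos_left _ (Pib_pos b0)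
  refine ⟨(univ.filter (fun m : Fin q => ((m : ℕ) : ℤ) ∈ bad b0)) ∪
    ((univ.filter (fun m : Fin q => lev b0 ((m : ℕ) : ℤ) % Mb b0 < g b0)) ∪
    (univ.filter (fun m : Fin q => (m : ℕ) + n < q ∧ lev b0 (((m : ℕ) : ℤ) + n) % Mb b0 < g b0))),
    ⟨?_, ?_, ?_, ?_⟩, ?_⟩
  · intro a a' haa h1 h2
    exact absurd ((bset_win (w := w) hO hb hl hlD haa (Sum.inl i : BIdx D 0)).1 h1) h2
  · intro a a' haa h1 h2 a'' h3
    by_contra hcon
    simp only [Finset.mem_union, Finset.mem_filter, Finset.mem_univ, true_and, not_or] at hcon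
    have hlev := hO.run b0 hb _ hcon.1 n (by rw [mul_assoc]; omega)
    rcases h3 with h3 | h3
    · have e1 : (((a'' : ℕ) : ℤ) + n) = ((a : ℕ) : ℤ) := by omega
      rw [e1] at hlev
      exact h2 ((bset_shift_win (w := w) hO hb hl hlD haa (Sum.inl i : BIdx D 0)
        (by show n ≤ _; omega)).1 h1)
    · have e1 : (((a'' : ℕ) : ℤ) + n) = ((a' : ℕ) : ℤ) := by omega
      rw [e1] at hlev
      exact h2 ((bset_shift_win (w := w) hO hb hl hlD haa.symm (Sum.inl i : BIdx D 0)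
        (by show n ≤ _; omega)).2 h1)
  · intro a h1 h2 h3
    simp only [Finset.mem_union, Finset.mem_filter, Finset.mem_univ, true_and, not_or] at h2
    have hlev := hO.run b0 hb _ h2.1 n (by rw [mul_assoc]; omega)
    have := (near_cost hG hO hb hl hlD hid h2.1 (by omega)
      (by rw [← hn, ← hlev]; by_contra hc; exact h2.2.2 ⟨h3, by omega⟩)).1 h1
    rw [← hn] at this
    linarith
  · intro a h1 h2 h3
    simp only [Finset.mem_union, Finset.mem_filter, Finset.mem_univ, true_and, not_or] at h2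
    have hlev := hO.run b0 hb _ h2.1 n (by rw [mul_assoc]; omega)
    exact (near_cost hG hO hb hl hlD hid h2.1 (by omega)
      (by rw [← hn, ← hlev]; by_contra hc; exact h2.2.2 ⟨h3, by omega⟩)).2 h1
  · have h1 := count_bad' hC hB hJ
    have h2 := phase_le hG hO hC hb hB hJ hN hq
    have h3 := card_shift q n (fun m => lev b0 m % Mb b0 < g b0)
    have h4 := zb_pos b0
    have h5 : (0 : ℝ) ≤ zb b0 * q := by positivity
    calc _ ≤ (((univ.filter (fun m : Fin q => ((m : ℕ) : ℤ) ∈ bad b0)).card +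
        ((univ.filter (fun m : Fin q => lev b0 ((m : ℕ) : ℤ) % Mb b0 < g b0)).card +
        (univ.filter (fun m : Fin q => lev b0 ((m : ℕ) : ℤ) % Mb b0 < g b0)).card) : ℕ) : ℝ) := by
          norm_cast
          refine (Finset.card_union_le _ _).trans (Nat.add_le_add_left ?_ _)
          exact (Finset.card_union_le _ _).trans (Nat.add_le_add_left h3 _)
      _ ≤ _ := by push_cast; linarith

open Classical in
/-- positions close to a start of a higher block -/
theorem close_le (hO : OrbitData w c e g u lev bad)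
    (hC : OrbitCounts q N B J lev bad) {b : ℕ} (hb1 : 1 ≤ b) (hbb' : b0 < b) (hB : B ≤ b)
    (hJ : b ≤ J) (hN : 2 * (Pib b * Mb b) ≤ N) (hq : 4 ^ b * (Pib b * Mb b) ≤ q)
    (hlD : D * l = Mb b0) :
    (((univ : Finset (Fin q)).filter (fun m : Fin q => ∃ t : ℤ,
        |t - ((m : ℕ) : ℤ)| < l ∧ lev b t % Mb b = 0)).card : ℝ) ≤ zb b * q := by
  have hlb : l ≤ Mb b := (l_le hlD).trans (Mb_mono hbb'.le)
  have h4 := zb_pos b
  have hq0 : (0 : ℝ) ≤ q := by positivity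
  rw [card_fin_filter q (fun m => ∃ t : ℤ, |t - m| < l ∧ lev b t % Mb b = 0)]
  have h7 := close_card (lev := lev) (b := b) 0 q l
  have h8 := starts_le_two hO hC hb1 hB hJ hN hq hlb hlb
  simp only [zero_sub, zero_add] at h7
  set S : ℝ := (((Finset.Ico (-(l : ℤ)) ((q : ℤ) + l)).filter
    (fun m => lev b m % Mb b = 0)).card : ℝ) with hS
  have h7' : (((Finset.Ico (0 : ℤ) q).filter (fun m => ∃ t : ℤ,
      |t - m| < l ∧ lev b t % Mb b = 0)).card : ℝ) ≤ 2 * l * S := by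
    rw [hS]; exact_mod_cast h7
  refine h7'.trans ?_
  obtain ⟨b', hb'⟩ : ∃ b', b = b' + 1 := ⟨b - 1, by omega⟩
  have h9 : 100 * 4 ^ b' * l ≤ Mb b := by
    rw [hb']
    refine le_trans (Nat.mul_le_mul_left _ ?_) (Mb_succ b')
    calc l ≤ Mb b' := (l_le hlD).trans (Mb_mono (by omega))
      _ = 1 * Mb b' := (one_mul _).symm
      _ ≤ rb b' * Mb b' := Nat.mul_le_mul_right _ (rb_one_le b')
  have h10 : (25 : ℝ) * 4 ^ b * l ≤ Mb b := by
    have : ((100 * 4 ^ b' * l : ℕ) : ℝ) ≤ Mb b := by exact_mod_cast h9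
    push_cast at this
    have e1 : (25 : ℝ) * 4 ^ b = 100 * 4 ^ b' := by rw [hb', pow_succ]; ring
    rw [e1]; exact this
  have hS0 : 0 ≤ S := by rw [hS]; positivity
  have h11 : (25 : ℝ) * 4 ^ b * (2 * l * S) ≤ 4 * q := by nlinarith
  have h12 : (4 : ℝ) ^ b * (zb b * q) = 2 ^ b * q := by
    rw [← mul_assoc, mul_comm ((4 : ℝ) ^ b), four_zb]
  have h13 : (1 : ℝ) ≤ 2 ^ b := one_le_pow₀ (by norm_num)
  have h14 : (25 : ℝ) * 4 ^ b * (2 * l * S) ≤ 25 * 4 ^ b * (zb b * q) := by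
    calc _ ≤ 4 * (q : ℝ) := h11
      _ ≤ 25 * (2 ^ b * q) := by nlinarith
      _ = _ := by rw [← h12]; ring
  exact le_of_mul_le_mul_left h14 (by positivity)

set_option maxHeartbeats 1000000 in
theorem far_isBd (hG : IsGrowth c e g) (hO : OrbitData w c e g u lev bad)
    (hC : OrbitCounts q N B J lev bad)
    (hb : 1 ≤ b0) {b k : ℕ} (hbb : b0 ≤ b) (hB : B ≤ b) (hJ : b ≤ J)
    (hN : 2 * (Pib b * Mb b) ≤ N) (hq : 4 ^ b * (Pib b * Mb b) ≤ q)
    (hl : 0 < l) (hlD : D * l = Mb b0) (hk1 : 1 ≤ k) (hk : k ≤ rb b) (s : Bool) :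
    ∃ (Bd : Finset (Fin q)) (v0 : ℝ), 0 ≤ v0 ∧ v0 ≤ 2 * rb b * c b + e b ∧
      IsBd (fun i : Fin q => win lev b0 l ((i : ℕ) : ℤ)) u (k * Mb b) (far w lev b k s)
        v0 (c b - e b) Bd ∧ (Bd.card : ℝ) ≤ 16 * zb b * q := by
  classical
  have hb1 : 1 ≤ b := hb.trans hbb
  have hc := c_nonneg hG hb1
  have he := hG.e_nonneg b
  have hM := Mb_pos b
  set n := k * Mb b with hn
  have hnN : n ≤ 2 * (Pib b * Mb b) := by
    have h1 : k * Mb b ≤ Pib b * Mb b :=
      Nat.mul_le_mul_right _ (hk.trans ((Nat.le_mul_of_pos_left _ (by norm_num)).trans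
        (rb_le_Pib b)))
    omega
  have hkr : (k : ℝ) ≤ rb b := by exact_mod_cast hk
  have hk1r : (1 : ℝ) ≤ k := by exact_mod_cast hk1
  set Bd : Finset (Fin q) := (univ.filter (fun m : Fin q => ((m : ℕ) : ℤ) ∈ bad b)) ∪
    ((univ.filter (fun m : Fin q => lev b ((m : ℕ) : ℤ) % Mb b < g b)) ∪
    (univ.filter (fun m : Fin q => b0 < b ∧ ∃ t : ℤ, |t - ((m : ℕ) : ℤ)| < l ∧
      lev b t % Mb b = 0))) with hBd
  -- common parts
  have hcutA : ∀ i j : Fin q, win lev b0 l ((i : ℕ) : ℤ) = win lev b0 l ((j : ℕ) : ℤ) →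
      ((i : ℕ) : ℤ) ∈ far w lev b k s → ((j : ℕ) : ℤ) ∉ far w lev b k s → i ∈ Bd ∧ j ∈ Bd := by
    intro i j hij h1 h2
    have hne : cell lev b ((i : ℕ) : ℤ) ≠ cell lev b ((j : ℕ) : ℤ) := by
      intro hce
      apply h2
      have : (((j : ℕ) : ℤ) ∈ far w lev b k s ↔ ((i : ℕ) : ℤ) ∈ far w lev b k s) := by
        simp only [far, Set.mem_ofPred_eq, hce]
      exact this.2 h1
    have hbb' : b0 < b := by
      rcases Nat.lt_or_ge b0 b with h | h
      · exact h
      · have : b = b0 := le_antisymm h hbb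
        subst this
        exfalso
        apply hne
        rw [cell_eq hlD, cell_eq hlD, (win_lev hO hb hl hij).2]
    have hab := win_abs hl hij
    rw [abs_lt] at hab
    rcases le_total ((i : ℕ) : ℤ) ((j : ℕ) : ℤ) with hle | hle
    · obtain ⟨t, ht1, ht2, ht3⟩ := exists_start (steps hO hb1) hle hne
      constructor
      · rw [hBd]
        simp only [Finset.mem_union, Finset.mem_filter, Finset.mem_univ, true_and]
        exact Or.inr (Or.inr ⟨hbb', t, by rw [abs_lt]; omega, ht3⟩)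
      · rw [hBd]
        simp only [Finset.mem_union, Finset.mem_filter, Finset.mem_univ, true_and]
        exact Or.inr (Or.inr ⟨hbb', t, by rw [abs_lt]; omega, ht3⟩)
    · obtain ⟨t, ht1, ht2, ht3⟩ := exists_start (steps hO hb1) hle hne.symm
      constructor
      · rw [hBd]
        simp only [Finset.mem_union, Finset.mem_filter, Finset.mem_univ, true_and]
        exact Or.inr (Or.inr ⟨hbb', t, by rw [abs_lt]; omega, ht3⟩)
      · rw [hBd]
        simp only [Finset.mem_union, Finset.mem_filter, Finset.mem_univ, true_and]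
        exact Or.inr (Or.inr ⟨hbb', t, by rw [abs_lt]; omega, ht3⟩)
  have hcutB : ∀ i j : Fin q, win lev b0 l ((i : ℕ) : ℤ) = win lev b0 l ((j : ℕ) : ℤ) →
      ((i : ℕ) : ℤ) - n ∈ far w lev b k s → ((j : ℕ) : ℤ) - n ∉ far w lev b k s →
      ∀ i' : Fin q, ((i' : ℕ) + n = i ∨ (i' : ℕ) + n = j) → i' ∈ Bd := by
    intro i j hij h1 h2 i' hi'
    rcases Nat.lt_or_ge b0 b with hbb' | hbb'
    · have hne : cell lev b (((i : ℕ) : ℤ) - n) ≠ cell lev b (((j : ℕ) : ℤ) - n) := by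
        intro hce
        apply h2
        have : (((j : ℕ) : ℤ) - n ∈ far w lev b k s ↔ ((i : ℕ) : ℤ) - n ∈ far w lev b k s) := by
          simp only [far, Set.mem_ofPred_eq, hce]
        exact this.2 h1
      have hab := win_abs hl hij
      rw [abs_lt] at hab
      rw [hBd]
      simp only [Finset.mem_union, Finset.mem_filter, Finset.mem_univ, true_and]
      refine Or.inr (Or.inr ⟨hbb', ?_⟩)
      rcases le_total ((i : ℕ) : ℤ) ((j : ℕ) : ℤ) with hle | hle
      · obtain ⟨t, ht1, ht2, ht3⟩ := exists_start (steps hO hb1)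
          (m := ((i : ℕ) : ℤ) - n) (m' := ((j : ℕ) : ℤ) - n) (by omega) hne
        exact ⟨t, by rw [abs_lt]; omega, ht3⟩
      · obtain ⟨t, ht1, ht2, ht3⟩ := exists_start (steps hO hb1)
          (m := ((j : ℕ) : ℤ) - n) (m' := ((i : ℕ) : ℤ) - n) (by omega) hne.symm
        exact ⟨t, by rw [abs_lt]; omega, ht3⟩
    · have : b = b0 := le_antisymm hbb' hbb
      subst this
      by_contra hcon
      rw [hBd] at hcon
      simp only [Finset.mem_union, Finset.mem_filter, Finset.mem_univ, true_and, not_or] at hcon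
      have hlev := hO.run b hb _ hcon.1 n (by rw [mul_assoc]; omega)
      obtain ⟨k', hk'⟩ : ∃ k', k = k' + 1 := ⟨k - 1, by omega⟩
      subst hk'
      have hbs : bshift b l D (k' + 1) (Sum.inr (⟨k', by omega⟩, s)) = n := rfl
      rcases hi' with h3 | h3
      · have e1 : (((i' : ℕ) : ℤ) + n) = ((i : ℕ) : ℤ) := by omega
        rw [e1] at hlev
        exact h2 ((bset_shift_win (w := w) hO hb hl hlD hij
          (Sum.inr (⟨k', by omega⟩, s) : BIdx D (k' + 1)) (by rw [hbs]; omega)).1 h1)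
      · have e1 : (((i' : ℕ) : ℤ) + n) = ((j : ℕ) : ℤ) := by omega
        rw [e1] at hlev
        exact h2 ((bset_shift_win (w := w) hO hb hl hlD hij.symm
          (Sum.inr (⟨k', by omega⟩, s) : BIdx D (k' + 1)) (by rw [hbs]; omega)).2 h1)
  have hcard : (Bd.card : ℝ) ≤ 16 * zb b * q := by
    have h1 := count_bad' hC hB hJ
    have h2 := phase_le hG hO hC hb1 hB hJ hN hq
    have h4 := zb_pos b
    have hq0 : (0 : ℝ) ≤ q := by positivity
    have h5 : (0 : ℝ) ≤ zb b * q := by positivity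
    have h3 : (((univ : Finset (Fin q)).filter (fun m : Fin q => b0 < b ∧ ∃ t : ℤ,
        |t - ((m : ℕ) : ℤ)| < l ∧ lev b t % Mb b = 0)).card : ℝ) ≤ zb b * q := by
      rcases Nat.lt_or_ge b0 b with hbb' | hbb'
      · refine le_trans ?_ (close_le hO hC hb1 hbb' hB hJ hN hq hlD)
        norm_cast
        apply Finset.card_le_card
        intro m hm
        simp only [Finset.mem_filter, Finset.mem_univ, true_and] at hm ⊢
        exact hm.2
      · have : ((univ : Finset (Fin q)).filter (fun m : Fin q => b0 < b ∧ ∃ t : ℤ,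
            |t - ((m : ℕ) : ℤ)| < l ∧ lev b t % Mb b = 0)) = ∅ := by
          apply Finset.filter_eq_empty_iff.2
          intro m _ h
          omega
        rw [this]
        simpa using h5
    calc (Bd.card : ℝ) ≤ (((univ.filter (fun m : Fin q => ((m : ℕ) : ℤ) ∈ bad b)).card +
        ((univ.filter (fun m : Fin q => lev b ((m : ℕ) : ℤ) % Mb b < g b)).card +
        (univ.filter (fun m : Fin q => b0 < b ∧ ∃ t : ℤ, |t - ((m : ℕ) : ℤ)| < l ∧
          lev b t % Mb b = 0)).card) : ℕ) : ℝ) := by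
          norm_cast
          refine (Finset.card_union_le _ _).trans (Nat.add_le_add_left ?_ _)
          exact Finset.card_union_le _ _
      _ ≤ _ := by push_cast; linarith
  -- the costs
  rcases s with _ | _
  · refine ⟨Bd, (2 * k - 1) * c b + e b, ?_, ?_, ⟨hcutA, hcutB, ?_, ?_⟩, hcard⟩
    · have : 0 ≤ (2 * (k : ℝ) - 1) * c b := mul_nonneg (by linarith) hc
      linarith
    · nlinarith
    · intro a h1 h2 _
      rw [hBd] at h2
      simp only [Finset.mem_union, Finset.mem_filter, Finset.mem_univ, true_and, not_or] at h2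
      have h4 := (far_cost hO hb1 hk h2.1 (by omega)).1
      rw [← hn] at h4
      refine le_trans ?_ h4
      rw [mem_far_false] at h1
      have : 0 ≤ bv (w b (cell lev b ((a : ℕ) : ℤ))) - bv (w b (cell lev b ((a : ℕ) : ℤ) + k)) := by
        rcases h1 with h1 | h1
        · rw [h1]
          have := bv_le_one (w b (cell lev b ((a : ℕ) : ℤ) + k))
          have e1 : bv true = 1 := rfl
          linarith
        · rw [h1]
          have := bv_nonneg (w b (cell lev b ((a : ℕ) : ℤ)))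
          have e1 : bv false = 0 := rfl
          linarith
      nlinarith
    · intro a h1 h2 _
      rw [hBd] at h2
      simp only [Finset.mem_union, Finset.mem_filter, Finset.mem_univ, true_and, not_or] at h2
      have h4 := (far_cost hO hb1 hk h2.1 (by omega)).2
      rw [← hn] at h4
      refine le_trans h4 ?_
      rw [mem_far_false] at h1
      simp only [not_or, Bool.not_eq_true, Bool.not_eq_false] at h1
      rw [h1.1, h1.2]
      have e1 : bv false = 0 := rfl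
      have e2 : bv true = 1 := rfl
      rw [e1, e2]
      linarith
  · refine ⟨Bd, 2 * k * c b + e b, ?_, ?_, ⟨hcutA, hcutB, ?_, ?_⟩, hcard⟩
    · positivity
    · nlinarith
    · intro a h1 h2 _
      rw [hBd] at h2
      simp only [Finset.mem_union, Finset.mem_filter, Finset.mem_univ, true_and, not_or] at h2
      have h4 := (far_cost hO hb1 hk h2.1 (by omega)).1
      rw [← hn] at h4
      refine le_trans ?_ h4
      rw [mem_far_true] at h1
      rw [h1.1, h1.2]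
      have e1 : bv false = 0 := rfl
      have e2 : bv true = 1 := rfl
      rw [e1, e2]
      linarith
    · intro a h1 h2 _
      rw [hBd] at h2
      simp only [Finset.mem_union, Finset.mem_filter, Finset.mem_univ, true_and, not_or] at h2
      have h4 := (far_cost hO hb1 hk h2.1 (by omega)).2
      rw [← hn] at h4
      refine le_trans h4 ?_
      have h5 : bv (w b (cell lev b ((a : ℕ) : ℤ))) ≤ bv (w b (cell lev b ((a : ℕ) : ℤ) + k)) := by
        rw [mem_far_true] at h1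
        cases hA : w b (cell lev b ((a : ℕ) : ℤ))
        · exact bv_nonneg _
        · cases hA' : w b (cell lev b ((a : ℕ) : ℤ) + k)
          · exact absurd ⟨hA, hA'⟩ h1
          · exact le_rfl
      nlinarith

/-- base sets: the exceptional set is small -/
theorem base_isBd (hG : IsGrowth c e g) (hO : OrbitData w c e g u lev bad)
    (hC : OrbitCounts q N B J lev bad)
    (hb : 1 ≤ b0) (hB : B ≤ b0) (hJ : b0 ≤ J) (hN : 2 * (Pib b0 * Mb b0) ≤ N)
    (hq : 4 ^ b0 * (Pib b0 * Mb b0) ≤ q)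
    (hl : 0 < l) (hlD : D * l = Mb b0) (hK : K ≤ rb b0) (j : BIdx D K) :
    ∃ (Bd : Finset (Fin q)) (v0 : ℝ), 0 ≤ v0 ∧ v0 ≤ 2 * rb b0 * c b0 + e b0 ∧
      IsBd (fun i : Fin q => win lev b0 l ((i : ℕ) : ℤ)) u (bshift b0 l D K j)
        (bset w lev b0 l D K j)
        v0 (c b0 - e b0) Bd ∧ (Bd.card : ℝ) ≤ 16 * zb b0 * q := by
  rcases j with i | ⟨k, s⟩
  · obtain ⟨Bd, h1, h2⟩ := near_isBd hG hO hC hb hB hJ hN hq hl hlD i
    have hc := c_nonneg hG hb
    refine ⟨Bd, e b0, hG.e_nonneg b0, ?_, h1, h2⟩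
    have : 0 ≤ 2 * (rb b0 : ℝ) * c b0 := by positivity
    linarith
  · exact far_isBd hG hO hC hb le_rfl hB hJ hN hq hl hlD (by omega)
      (by have := k.2; omega) s

end Crest.Agent.R113.Orb
end

-- ▼ part R113/Bes
section

/-!
R113 / T8 : the Bessel selection lemma (BES), Abel summation and the far-block flux functions.
-/

set_option autoImplicit false

open Finset

namespace Crest.Agent.R113.Bes

/-- (BES): among the functions `φ b` with small pairwise inner products, one has small upper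
correlation with `h ∈ [0,1]`. -/
theorem bes {ι β : Type*} [Fintype β] [Nonempty β] (S : Finset ι) (φ : β → ι → ℝ)
    (hφ : ∀ b, ∀ m ∈ S, |φ b m| ≤ 2) (δ : ℝ) (hδ0 : 0 ≤ δ)
    (hδ : ∀ b b', b ≠ b' → |∑ m ∈ S, φ b m * φ b' m| ≤ δ * (S.card : ℝ))
    (h : ι → ℝ) (h0 : ∀ m ∈ S, 0 ≤ h m) (h1 : ∀ m ∈ S, h m ≤ 1) :
    ∃ b, ∑ m ∈ S, h m * φ b m ≤ (S.card : ℝ) * Real.sqrt (4 / (Fintype.card β : ℝ) + δ) := by
  classical
  set n : ℝ := (Fintype.card β : ℝ) with hn
  have hn1 : 1 ≤ n := by rw [hn]; exact_mod_cast Fintype.card_pos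
  have hnpos : 0 < n := by linarith
  set q : ℝ := (S.card : ℝ) with hq
  have hq0 : 0 ≤ q := by rw [hq]; positivity
  by_contra hcon
  push Not at hcon
  have hsum : n * (q * Real.sqrt (4 / n + δ)) < ∑ b, ∑ m ∈ S, h m * φ b m := by
    have : ∑ _b : β, (q * Real.sqrt (4 / n + δ)) < ∑ b, ∑ m ∈ S, h m * φ b m :=
      Finset.sum_lt_sum_of_nonempty Finset.univ_nonempty (fun b _ => hcon b)
    simpa [hn] using this
  have hswap : ∑ b, ∑ m ∈ S, h m * φ b m = ∑ m ∈ S, h m * ∑ b, φ b m := by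
    rw [Finset.sum_comm]
    refine Finset.sum_congr rfl fun m _ => ?_
    rw [Finset.mul_sum]
  have hCS : (∑ m ∈ S, h m * ∑ b, φ b m) ^ 2 ≤ (∑ m ∈ S, h m ^ 2) * ∑ m ∈ S, (∑ b, φ b m) ^ 2 :=
    Finset.sum_mul_sq_le_sq_mul_sq S h (fun m => ∑ b, φ b m)
  have hh : ∑ m ∈ S, h m ^ 2 ≤ q := by
    calc ∑ m ∈ S, h m ^ 2 ≤ ∑ _m ∈ S, (1 : ℝ) := by
          refine Finset.sum_le_sum fun m hm => ?_
          have := h0 m hm; have := h1 m hm
          nlinarith
      _ = q := by simp [hq]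
  have h2 : ∑ m ∈ S, (∑ b, φ b m) ^ 2 = ∑ b, ∑ b', ∑ m ∈ S, φ b m * φ b' m := by
    calc ∑ m ∈ S, (∑ b, φ b m) ^ 2 = ∑ m ∈ S, ∑ b, ∑ b', φ b m * φ b' m := by
          refine Finset.sum_congr rfl fun m _ => ?_
          rw [sq, Finset.sum_mul_sum]
      _ = ∑ b, ∑ m ∈ S, ∑ b', φ b m * φ b' m := Finset.sum_comm
      _ = ∑ b, ∑ b', ∑ m ∈ S, φ b m * φ b' m := by
          refine Finset.sum_congr rfl fun b _ => Finset.sum_comm
  have h3 : ∑ b, ∑ b', ∑ m ∈ S, φ b m * φ b' m ≤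
      ∑ b : β, ∑ b' : β, (if b = b' then 4 * q else δ * q) := by
    refine Finset.sum_le_sum fun b _ => Finset.sum_le_sum fun b' _ => ?_
    split_ifs with hbb
    · subst hbb
      calc ∑ m ∈ S, φ b m * φ b m ≤ ∑ _m ∈ S, (4 : ℝ) := by
            refine Finset.sum_le_sum fun m hm => ?_
            have := hφ b m hm
            rw [← sq, ← sq_abs]
            have h0' := abs_nonneg (φ b m)
            nlinarith
        _ = 4 * q := by simp [hq]; ring
    · exact (le_abs_self _).trans (hδ b b' hbb)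
  have h4 : ∑ b : β, ∑ b' : β, (if b = b' then 4 * q else δ * q) =
      n * (4 * q) + (n ^ 2 - n) * (δ * q) := by
    have : ∀ b : β, ∑ b' : β, (if b = b' then 4 * q else δ * q) = 4 * q + (n - 1) * (δ * q) := by
      intro b
      have h5 : ∀ b' : β, (if b = b' then 4 * q else δ * q) =
          δ * q + (if b = b' then (4 * q - δ * q) else 0) := by
        intro b'; split_ifs <;> ring
      simp only [h5, Finset.sum_add_distrib, Finset.sum_ite_eq, Finset.mem_univ, if_true,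
        Finset.sum_const, Finset.card_univ, nsmul_eq_mul]
      rw [← hn]; ring
    simp only [this, Finset.sum_const, Finset.card_univ, nsmul_eq_mul]
    rw [← hn]; ring
  have h11 : ∑ m ∈ S, (∑ b, φ b m) ^ 2 ≤ (4 / n + δ) * (n ^ 2 * q) := by
    rw [h2]
    refine (h3.trans h4.le).trans ?_
    have : (4 / n + δ) * (n ^ 2 * q) = n * (4 * q) + n ^ 2 * (δ * q) := by
      field_simp
    rw [this]
    have : 0 ≤ n * (δ * q) := by positivity
    nlinarith
  have h12 : 0 ≤ ∑ m ∈ S, (∑ b, φ b m) ^ 2 := Finset.sum_nonneg fun _ _ => sq_nonneg _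
  have h13 : (∑ m ∈ S, h m * ∑ b, φ b m) ^ 2 ≤ q * ((4 / n + δ) * (n ^ 2 * q)) :=
    calc (∑ m ∈ S, h m * ∑ b, φ b m) ^ 2 ≤ (∑ m ∈ S, h m ^ 2) * ∑ m ∈ S, (∑ b, φ b m) ^ 2 := hCS
      _ ≤ q * ∑ m ∈ S, (∑ b, φ b m) ^ 2 := mul_le_mul_of_nonneg_right hh h12
      _ ≤ q * ((4 / n + δ) * (n ^ 2 * q)) := mul_le_mul_of_nonneg_left h11 hq0
  have h14 : (n * (q * Real.sqrt (4 / n + δ))) ^ 2 = q * ((4 / n + δ) * (n ^ 2 * q)) := by
    rw [mul_pow, mul_pow, Real.sq_sqrt (by positivity)]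
    ring
  rw [hswap] at hsum
  have h15 : 0 ≤ n * (q * Real.sqrt (4 / n + δ)) := by positivity
  have h16 : (n * (q * Real.sqrt (4 / n + δ))) ^ 2 < (∑ m ∈ S, h m * ∑ b, φ b m) ^ 2 :=
    pow_lt_pow_left₀ hsum h15 (by norm_num)
  linarith

/-- Abel summation bound. -/
theorem abel (f g : ℕ → ℝ) (B : ℝ) (q : ℕ) (hf : ∀ j ≤ q, |∑ m ∈ range j, f m| ≤ B) :
    |∑ m ∈ range q, f m * g m| ≤ B * (|g (q - 1)| + ∑ m ∈ range (q - 1), |g (m + 1) - g m|) := by
  have hB : 0 ≤ B := (abs_nonneg _).trans (hf 0 (Nat.zero_le _))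
  have key := Finset.sum_range_by_parts g f q
  have : ∑ m ∈ range q, f m * g m = ∑ m ∈ range q, g m • f m := by
    refine Finset.sum_congr rfl fun m _ => ?_
    rw [smul_eq_mul, mul_comm]
  rw [this, key]
  calc |g (q - 1) • ∑ i ∈ range q, f i -
        ∑ i ∈ range (q - 1), (g (i + 1) - g i) • ∑ i ∈ range (i + 1), f i|
      ≤ |g (q - 1) • ∑ i ∈ range q, f i| +
        |∑ i ∈ range (q - 1), (g (i + 1) - g i) • ∑ i ∈ range (i + 1), f i| := abs_sub _ _
    _ ≤ |g (q - 1)| * B + ∑ i ∈ range (q - 1), |g (i + 1) - g i| * B := by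
        refine add_le_add ?_ ?_
        · rw [smul_eq_mul, abs_mul]
          exact mul_le_mul_of_nonneg_left (hf q le_rfl) (abs_nonneg _)
        · refine (Finset.abs_sum_le_sum_abs _ _).trans (Finset.sum_le_sum fun i hi => ?_)
          rw [smul_eq_mul, abs_mul]
          have hi' := Finset.mem_range.1 hi
          exact mul_le_mul_of_nonneg_left (hf (i + 1) (by omega)) (abs_nonneg _)
    _ = B * (|g (q - 1)| + ∑ m ∈ range (q - 1), |g (m + 1) - g m|) := by
        rw [← Finset.sum_mul]; ring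

/-- The (averaged) far flux function of a `{0,1}`-word `ε` on the orbit:
`φ(m) = (1/r) ∑_{k=1}^r (2 ε(m) - ε(m+kM) - ε(m-kM))`. -/
noncomputable def farPhi (r M : ℕ) (ε : ℤ → ℝ) (m : ℤ) : ℝ :=
  (1 / (r : ℝ)) * ∑ k ∈ Finset.Icc 1 r, (2 * ε m - ε (m + k * M) - ε (m - k * M))

theorem farPhi_abs_le (r M : ℕ) (ε : ℤ → ℝ) (h0 : ∀ m, 0 ≤ ε m) (h1 : ∀ m, ε m ≤ 1) (m : ℤ) :
    |farPhi r M ε m| ≤ 2 := by
  unfold farPhi
  rcases Nat.eq_zero_or_pos r with hr | hr
  · subst hr; simp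
  have hr' : (0 : ℝ) < r := by exact_mod_cast hr
  rw [abs_mul, abs_of_pos (by positivity : (0 : ℝ) < 1 / (r : ℝ))]
  have : |∑ k ∈ Finset.Icc 1 r, (2 * ε m - ε (m + k * M) - ε (m - k * M))| ≤ r * 2 := by
    calc |∑ k ∈ Finset.Icc 1 r, (2 * ε m - ε (m + k * M) - ε (m - k * M))|
        ≤ ∑ k ∈ Finset.Icc 1 r, |2 * ε m - ε (m + k * M) - ε (m - k * M)| :=
          Finset.abs_sum_le_sum_abs _ _
      _ ≤ ∑ _k ∈ Finset.Icc 1 r, (2 : ℝ) := by
          refine Finset.sum_le_sum fun k _ => ?_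
          rw [abs_le]
          have a1 := h0 m; have a2 := h1 m
          have b1 := h0 (m + k * M); have b2 := h1 (m + k * M)
          have c1 := h0 (m - k * M); have c2 := h1 (m - k * M)
          constructor <;> linarith
      _ = r * 2 := by simp
  calc 1 / (r : ℝ) * |∑ k ∈ Finset.Icc 1 r, (2 * ε m - ε (m + k * M) - ε (m - k * M))|
      ≤ 1 / (r : ℝ) * (r * 2) := mul_le_mul_of_nonneg_left this (by positivity)
    _ = 2 := by field_simp

/-- shift of an interval sum changes it by at most the shift. -/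
theorem shift_sum_le (ε : ℤ → ℝ) (h0 : ∀ m, 0 ≤ ε m) (h1 : ∀ m, ε m ≤ 1) (a : ℤ) (j s : ℕ) :
    |∑ m ∈ range j, ε (a + m) - ∑ m ∈ range j, ε (a + m + s)| ≤ s := by
  have e1 : ∑ m ∈ range (j + s), ε (a + m) =
      ∑ m ∈ range j, ε (a + m) + ∑ m ∈ range s, ε (a + (j + m : ℕ)) := by
    rw [Finset.sum_range_add]
  have e2 : ∑ m ∈ range (s + j), ε (a + m) =
      ∑ m ∈ range s, ε (a + m) + ∑ m ∈ range j, ε (a + (s + m : ℕ)) := by
    rw [Finset.sum_range_add]
  have e3 : ∑ m ∈ range j, ε (a + m + s) = ∑ m ∈ range j, ε (a + (s + m : ℕ)) := by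
    refine Finset.sum_congr rfl fun m _ => ?_
    congr 1
    push_cast
    ring
  have e4 : ∑ m ∈ range j, ε (a + m) - ∑ m ∈ range j, ε (a + m + s) =
      ∑ m ∈ range s, ε (a + m) - ∑ m ∈ range s, ε (a + (j + m : ℕ)) := by
    rw [e3]
    have := e1
    rw [add_comm j s, e2] at this
    linarith
  rw [e4]
  have b1 : 0 ≤ ∑ m ∈ range s, ε (a + m) := Finset.sum_nonneg fun _ _ => h0 _
  have b2 : ∑ m ∈ range s, ε (a + m) ≤ s := by
    calc ∑ m ∈ range s, ε (a + m) ≤ ∑ _m ∈ range s, (1 : ℝ) := Finset.sum_le_sum fun _ _ => h1 _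
      _ = s := by simp
  have b3 : 0 ≤ ∑ m ∈ range s, ε (a + (j + m : ℕ)) := Finset.sum_nonneg fun _ _ => h0 _
  have b4 : ∑ m ∈ range s, ε (a + (j + m : ℕ)) ≤ s := by
    calc ∑ m ∈ range s, ε (a + (j + m : ℕ)) ≤ ∑ _m ∈ range s, (1 : ℝ) :=
          Finset.sum_le_sum fun _ _ => h1 _
      _ = s := by simp
  rw [abs_le]; constructor <;> linarith

/-- partial sums of `farPhi` over intervals are at most `2 r M`. -/
theorem farPhi_partial (r M : ℕ) (ε : ℤ → ℝ) (h0 : ∀ m, 0 ≤ ε m) (h1 : ∀ m, ε m ≤ 1)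
    (a : ℤ) (j : ℕ) : |∑ m ∈ range j, farPhi r M ε (a + m)| ≤ 2 * r * M := by
  rcases Nat.eq_zero_or_pos r with hr | hr
  · subst hr; simp [farPhi]
  have hr' : (0 : ℝ) < r := by exact_mod_cast hr
  unfold farPhi
  rw [← Finset.mul_sum, Finset.sum_comm, abs_mul, abs_of_pos (by positivity : (0 : ℝ) < 1 / (r : ℝ))]
  have hk : ∀ k ∈ Finset.Icc 1 r, |∑ m ∈ range j, (2 * ε (a + m) - ε (a + m + k * M) -
      ε (a + m - k * M))| ≤ 2 * (r * M) := by
    intro k hk
    have hk' : (k : ℝ) ≤ r := by exact_mod_cast (Finset.mem_Icc.1 hk).2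
    have s1 := shift_sum_le ε h0 h1 a j (k * M)
    have s2 := shift_sum_le ε h0 h1 (a - k * M) j (k * M)
    have e : ∑ m ∈ range j, (2 * ε (a + m) - ε (a + m + k * M) - ε (a + m - k * M)) =
        (∑ m ∈ range j, ε (a + m) - ∑ m ∈ range j, ε (a + m + (k * M : ℕ))) -
        (∑ m ∈ range j, ε (a - k * M + m) - ∑ m ∈ range j, ε (a - k * M + m + (k * M : ℕ))) := by
      rw [← Finset.sum_sub_distrib, ← Finset.sum_sub_distrib, ← Finset.sum_sub_distrib]
      refine Finset.sum_congr rfl fun m _ => ?_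
      have x1 : a - k * M + m = a + m - k * M := by ring
      have x2 : a - k * M + m + (k * M : ℕ) = a + m := by push_cast; ring
      rw [x2, x1]
      push_cast
      ring
    rw [e]
    have hkM : ((k * M : ℕ) : ℝ) ≤ r * M := by
      push_cast
      exact mul_le_mul_of_nonneg_right hk' (by positivity)
    calc _ ≤ |∑ m ∈ range j, ε (a + m) - ∑ m ∈ range j, ε (a + m + (k * M : ℕ))| +
          |∑ m ∈ range j, ε (a - k * M + m) - ∑ m ∈ range j, ε (a - k * M + m + (k * M : ℕ))| :=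
          abs_sub _ _
      _ ≤ 2 * (r * M) := by linarith
  calc 1 / (r : ℝ) * |∑ k ∈ Finset.Icc 1 r, ∑ m ∈ range j,
        (2 * ε (a + m) - ε (a + m + k * M) - ε (a + m - k * M))|
      ≤ 1 / (r : ℝ) * ∑ k ∈ Finset.Icc 1 r, 2 * (r * M : ℝ) := by
        refine mul_le_mul_of_nonneg_left ?_ (by positivity)
        exact (Finset.abs_sum_le_sum_abs _ _).trans (Finset.sum_le_sum hk)
    _ = 2 * r * M := by
        rw [Finset.sum_const, Nat.card_Icc, nsmul_eq_mul]
        simp only [Nat.add_sub_cancel]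
        field_simp

/-- total variation of `farPhi`. -/
theorem farPhi_tv (r M : ℕ) (ε : ℤ → ℝ) (a : ℤ) (j : ℕ) (V : ℝ)
    (hV : ∑ m ∈ range (j + 2 * (r * M)), |ε (a - r * M + m + 1) - ε (a - r * M + m)| ≤ V) :
    ∑ m ∈ range j, |farPhi r M ε (a + m + 1) - farPhi r M ε (a + m)| ≤ 4 * V := by
  rcases Nat.eq_zero_or_pos r with hr | hr
  · subst hr
    have hV0 : 0 ≤ V := (Finset.sum_nonneg fun _ _ => abs_nonneg _).trans hV
    simp [farPhi]; linarith
  have hr' : (0 : ℝ) < r := by exact_mod_cast hr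
  -- window bound: any shift by s ∈ [-rM, rM]
  have hw : ∀ s : ℕ, s ≤ 2 * (r * M) →
      ∑ m ∈ range j, |ε (a - r * M + s + m + 1) - ε (a - r * M + s + m)| ≤ V := by
    intro s hs
    refine le_trans ?_ hV
    have : ∑ m ∈ range j, |ε (a - r * M + s + m + 1) - ε (a - r * M + s + m)| =
        ∑ m ∈ Finset.Ico s (s + j), |ε (a - r * M + m + 1) - ε (a - r * M + m)| := by
      rw [Finset.sum_Ico_eq_sum_range]
      simp only [Nat.add_sub_cancel_left]
      refine Finset.sum_congr rfl fun m _ => ?_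
      have : a - r * M + s + (m : ℤ) = a - r * M + ((s + m : ℕ) : ℤ) := by push_cast; ring
      rw [this]
    rw [this]
    refine Finset.sum_le_sum_of_subset_of_nonneg ?_ (fun _ _ _ => abs_nonneg _)
    intro m hm
    have := Finset.mem_Ico.1 hm
    exact Finset.mem_range.2 (by omega)
  have hpt : ∀ m : ℕ, |farPhi r M ε (a + m + 1) - farPhi r M ε (a + m)| ≤
      (1 / (r : ℝ)) * ∑ k ∈ Finset.Icc 1 r,
        (2 * |ε (a + m + 1) - ε (a + m)| + |ε (a + m + k * M + 1) - ε (a + m + k * M)| +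
          |ε (a + m - k * M + 1) - ε (a + m - k * M)|) := by
    intro m
    unfold farPhi
    rw [← mul_sub, ← Finset.sum_sub_distrib, abs_mul,
      abs_of_pos (by positivity : (0 : ℝ) < 1 / (r : ℝ))]
    refine mul_le_mul_of_nonneg_left ?_ (by positivity)
    refine (Finset.abs_sum_le_sum_abs _ _).trans (Finset.sum_le_sum fun k _ => ?_)
    have x1 : a + m + 1 + k * M = a + m + k * M + 1 := by ring
    have x2 : a + m + 1 - k * M = a + m - k * M + 1 := by ring
    rw [x1, x2]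
    have e : 2 * ε (a + m + 1) - ε (a + m + k * M + 1) - ε (a + m - k * M + 1) -
        (2 * ε (a + m) - ε (a + m + k * M) - ε (a + m - k * M)) =
        2 * (ε (a + m + 1) - ε (a + m)) - (ε (a + m + k * M + 1) - ε (a + m + k * M)) -
        (ε (a + m - k * M + 1) - ε (a + m - k * M)) := by ring
    rw [e]
    refine (abs_sub _ _).trans (add_le_add ((abs_sub _ _).trans (add_le_add ?_ le_rfl)) le_rfl)
    rw [abs_mul, abs_two]
  calc ∑ m ∈ range j, |farPhi r M ε (a + m + 1) - farPhi r M ε (a + m)|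
      ≤ ∑ m ∈ range j, (1 / (r : ℝ)) * ∑ k ∈ Finset.Icc 1 r,
        (2 * |ε (a + m + 1) - ε (a + m)| + |ε (a + m + k * M + 1) - ε (a + m + k * M)| +
          |ε (a + m - k * M + 1) - ε (a + m - k * M)|) := Finset.sum_le_sum fun m _ => hpt m
    _ = (1 / (r : ℝ)) * ∑ k ∈ Finset.Icc 1 r, ∑ m ∈ range j,
        (2 * |ε (a + m + 1) - ε (a + m)| + |ε (a + m + k * M + 1) - ε (a + m + k * M)| +
          |ε (a + m - k * M + 1) - ε (a + m - k * M)|) := by
        rw [← Finset.mul_sum, Finset.sum_comm]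
    _ ≤ (1 / (r : ℝ)) * ∑ _k ∈ Finset.Icc 1 r, 4 * V := by
        refine mul_le_mul_of_nonneg_left (Finset.sum_le_sum fun k hk => ?_) (by positivity)
        have hk1 := (Finset.mem_Icc.1 hk).2
        have hkM : k * M ≤ r * M := Nat.mul_le_mul_right M hk1
        simp only [Finset.sum_add_distrib, ← Finset.mul_sum]
        have w0 := hw (r * M) (by omega)
        have w1 := hw (r * M + k * M) (by omega)
        have w2 := hw (r * M - k * M) (by omega)
        have y0 : ∀ m : ℕ, a - r * M + ((r * M : ℕ) : ℤ) + m = a + m := by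
          intro m; push_cast; ring
        have y1 : ∀ m : ℕ, a - r * M + ((r * M + k * M : ℕ) : ℤ) + m = a + m + k * M := by
          intro m; push_cast; ring
        have y2 : ∀ m : ℕ, a - r * M + ((r * M - k * M : ℕ) : ℤ) + m = a + m - k * M := by
          intro m
          rw [Nat.cast_sub hkM]; push_cast; ring
        simp only [y0] at w0
        simp only [y1] at w1
        simp only [y2] at w2
        linarith
    _ = 4 * V := by
        rw [Finset.sum_const, Nat.card_Icc, nsmul_eq_mul]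
        simp only [Nat.add_sub_cancel]
        field_simp

/-- Inner product of two far flux functions of different blocks. -/
theorem farPhi_inner (r M r' M' : ℕ) (ε ε' : ℤ → ℝ) (h0 : ∀ m, 0 ≤ ε m) (h1 : ∀ m, ε m ≤ 1)
    (h0' : ∀ m, 0 ≤ ε' m) (h1' : ∀ m, ε' m ≤ 1) (a : ℤ) (q : ℕ) (V : ℝ)
    (hV : ∑ m ∈ range (q + 2 * (r' * M')), |ε' (a - r' * M' + m + 1) - ε' (a - r' * M' + m)| ≤ V) :
    |∑ m ∈ range q, farPhi r M ε (a + m) * farPhi r' M' ε' (a + m)| ≤
      2 * r * M * (2 + 4 * V) := by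
  have hB : (0 : ℝ) ≤ 2 * r * M := by positivity
  have key := abel (fun m => farPhi r M ε (a + m)) (fun m => farPhi r' M' ε' (a + m))
    (2 * r * M) q (fun j _ => farPhi_partial r M ε h0 h1 a j)
  refine key.trans (mul_le_mul_of_nonneg_left (add_le_add ?_ ?_) hB)
  · exact farPhi_abs_le r' M' ε' h0' h1' _
  · have htv := farPhi_tv r' M' ε' a q V hV
    refine le_trans ?_ htv
    have : ∀ m : ℕ, |farPhi r' M' ε' (a + ((m + 1 : ℕ) : ℤ)) - farPhi r' M' ε' (a + m)| =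
        |farPhi r' M' ε' (a + m + 1) - farPhi r' M' ε' (a + m)| := by
      intro m
      have : a + ((m + 1 : ℕ) : ℤ) = a + m + 1 := by push_cast; ring
      rw [this]
    simp only [this]
    exact Finset.sum_le_sum_of_subset_of_nonneg
      (Finset.range_subset_range.2 (Nat.sub_le q 1)) (fun _ _ _ => abs_nonneg _)

end Crest.Agent.R113.Bes
end

-- ▼ part R113/FD/OffA
section

/-!
Row 113, S0149, task T10: mass of pairs in different windows, auxiliary statements. (helper292)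
-/

set_option autoImplicit false

namespace Crest.Agent.R113.Orb

open Finset

variable {w : ℕ → ℕ → Bool} {c e : ℕ → ℝ} {g : ℕ → ℕ} {u : ℤ → ℝ} {lev : ℕ → ℤ → ℕ}
  {bad : ℕ → Set ℤ} {q N B J b0 l D K : ℕ}

section mass

variable {μ : Fin q → Fin q → ℝ} {h : Fin q → ℝ}

theorem Mass.h_nonneg (hμ : Mass μ h) (m : Fin q) : 0 ≤ h m := by
  rw [← hμ.row m]
  exact Finset.sum_nonneg fun _ _ => hμ.nonneg _ _

/-- mass of the pairs with a given property of one end -/
theorem mass_left (hμ : Mass μ h) (P : Fin q → Prop) [DecidablePred P] :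
    ∑ m, ∑ m', (if P m then μ m m' else 0) ≤ ((univ.filter P).card : ℝ) := by
  have : ∀ m, ∑ m', (if P m then μ m m' else 0) = if P m then h m else 0 := by
    intro m
    split_ifs
    · exact hμ.row m
    · simp
  simp only [this]
  rw [← Finset.sum_filter, Finset.card_eq_sum_ones]
  push_cast
  exact Finset.sum_le_sum fun m _ => hμ.le_one m

theorem mass_either (hμ : Mass μ h) (P : Fin q → Prop) [DecidablePred P] :
    ∑ m, ∑ m', (if P m ∨ P m' then μ m m' else 0) ≤ 2 * ((univ.filter P).card : ℝ) := by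
  have h1 := mass_left hμ P
  have h2 : ∑ m, ∑ m', (if P m' then μ m m' else 0) ≤ ((univ.filter P).card : ℝ) := by
    rw [Finset.sum_comm]
    refine le_trans (le_of_eq ?_) h1
    refine Finset.sum_congr rfl fun m _ => Finset.sum_congr rfl fun m' _ => ?_
    rw [hμ.symm]
  have h3 : ∑ m, ∑ m', (if P m ∨ P m' then μ m m' else 0) ≤
      ∑ m, ∑ m', (if P m then μ m m' else 0) + ∑ m, ∑ m', (if P m' then μ m m' else 0) := by
    rw [← Finset.sum_add_distrib]
    refine Finset.sum_le_sum fun m _ => ?_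
    rw [← Finset.sum_add_distrib]
    refine Finset.sum_le_sum fun m' _ => ?_
    have := hμ.nonneg m m'
    by_cases hP : P m <;> by_cases hP' : P m' <;> simp [hP, hP'] <;> linarith
  linarith

/-- pairs with different window number inside the cell -/
theorem near_mass (hμ : Mass μ h) (hlD : D * l = Mb b0) :
    ∑ m : Fin q, ∑ m' : Fin q,
      (if pw lev b0 l ((m : ℕ) : ℤ) ≠ pw lev b0 l ((m' : ℕ) : ℤ) then μ m m' else 0) ≤
      2 * ∑ i : Fin (D - 1), cutM μ (near lev b0 l D ((i : ℕ) + 1)) := by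
  classical
  have key : ∑ m : Fin q, ∑ m' : Fin q,
      (if pw lev b0 l ((m' : ℕ) : ℤ) < pw lev b0 l ((m : ℕ) : ℤ) then μ m m' else 0) ≤
      ∑ i : Fin (D - 1), cutM μ (near lev b0 l D ((i : ℕ) + 1)) := by
    unfold cutM
    rw [Finset.sum_comm (s := (univ : Finset (Fin (D - 1))))]
    refine Finset.sum_le_sum fun m _ => ?_
    rw [Finset.sum_comm (s := (univ : Finset (Fin (D - 1))))]
    refine Finset.sum_le_sum fun m' _ => ?_
    have hnn : ∀ i ∈ (univ : Finset (Fin (D - 1))), (0 : ℝ) ≤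
        (if ((m : ℕ) : ℤ) ∈ near lev b0 l D ((i : ℕ) + 1) ∧
          ((m' : ℕ) : ℤ) ∉ near lev b0 l D ((i : ℕ) + 1) then μ m m' else 0) := by
      intro i _
      split_ifs
      · exact hμ.nonneg _ _
      · exact le_rfl
    split_ifs with hlt
    · have h1 := pw_lt (lev := lev) hlD ((m : ℕ) : ℤ)
      have h2 : D - pw lev b0 l ((m : ℕ) : ℤ) - 1 < D - 1 := by omega
      refine le_trans (le_of_eq ?_) (Finset.single_le_sum hnn
        (Finset.mem_univ (⟨D - pw lev b0 l ((m : ℕ) : ℤ) - 1, h2⟩ : Fin (D - 1))))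
      rw [if_pos]
      constructor
      · show D ≤ pw lev b0 l ((m : ℕ) : ℤ) + (D - pw lev b0 l ((m : ℕ) : ℤ) - 1 + 1)
        omega
      · intro hh
        have : D ≤ pw lev b0 l ((m' : ℕ) : ℤ) + (D - pw lev b0 l ((m : ℕ) : ℤ) - 1 + 1) := hh
        omega
    · exact Finset.sum_nonneg hnn
  have key' : ∑ m : Fin q, ∑ m' : Fin q,
      (if pw lev b0 l ((m : ℕ) : ℤ) < pw lev b0 l ((m' : ℕ) : ℤ) then μ m m' else 0) ≤
      ∑ i : Fin (D - 1), cutM μ (near lev b0 l D ((i : ℕ) + 1)) := by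
    rw [Finset.sum_comm]
    refine le_trans (le_of_eq ?_) key
    refine Finset.sum_congr rfl fun m _ => Finset.sum_congr rfl fun m' _ => ?_
    rw [hμ.symm]
  have h3 : ∑ m : Fin q, ∑ m' : Fin q,
      (if pw lev b0 l ((m : ℕ) : ℤ) ≠ pw lev b0 l ((m' : ℕ) : ℤ) then μ m m' else 0) =
      ∑ m : Fin q, ∑ m' : Fin q,
      (if pw lev b0 l ((m' : ℕ) : ℤ) < pw lev b0 l ((m : ℕ) : ℤ) then μ m m' else 0) +
      ∑ m : Fin q, ∑ m' : Fin q,
      (if pw lev b0 l ((m : ℕ) : ℤ) < pw lev b0 l ((m' : ℕ) : ℤ) then μ m m' else 0) := by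
    rw [← Finset.sum_add_distrib]
    refine Finset.sum_congr rfl fun m _ => ?_
    rw [← Finset.sum_add_distrib]
    refine Finset.sum_congr rfl fun m' _ => ?_
    rcases lt_trichotomy (pw lev b0 l ((m : ℕ) : ℤ)) (pw lev b0 l ((m' : ℕ) : ℤ)) with h | h | h
    · rw [if_pos h.ne, if_neg h.le.not_gt, if_pos h]; ring
    · rw [if_neg (by simp [h]), if_neg (by simp [h]), if_neg (by simp [h])]; ring
    · rw [if_pos h.ne', if_pos h, if_neg h.le.not_gt]; ring
  rw [h3]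
  linarith

end mass

/-! ### incongruent cells -/

theorem incong (hO : OrbitData w c e g u lev bad) {b : ℕ} (hb : 1 ≤ b) {m m' : ℤ} (h : m ≤ m')
    (hm : m ∉ bad b) (hd : m' - m ≤ ((Pib b - 1) * Mb b : ℕ))
    (hc : cell lev b m ≠ cell lev b m') :
    ¬ cell lev b m ≡ cell lev b m' [MOD Pib b] := by
  have hM := Mb_pos b
  have hP := Pib_ge b
  have hPM : (Pib b - 1) * Mb b ≤ Pib b * Mb b := Nat.mul_le_mul_right _ (by omega)
  have hlev := lev_good hO hb hm (m' := m') (by rw [abs_le]; push_cast at *; omega)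
  obtain ⟨d, hd'⟩ := Int.eq_ofNat_of_zero_le (sub_nonneg.2 h)
  rw [hd'] at hlev hd
  have hlev' : lev b m' = lev b m + d := by omega
  have hdle : d ≤ (Pib b - 1) * Mb b := by exact_mod_cast hd
  have h1 : cell lev b m ≤ cell lev b m' := by
    unfold cell
    exact Nat.div_le_div_right (by omega)
  have h2 : cell lev b m' ≤ cell lev b m + (Pib b - 1) := by
    unfold cell
    rw [hlev']
    calc (lev b m + d) / Mb b ≤ (lev b m + (Pib b - 1) * Mb b) / Mb b :=
          Nat.div_le_div_right (by omega)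
      _ = _ := Nat.add_mul_div_right _ _ hM
  intro hcong
  have h3 : Pib b ∣ cell lev b m' - cell lev b m := (Nat.modEq_iff_dvd' h1).1 hcong
  have h4 := Nat.eq_zero_of_dvd_of_lt h3 (by omega)
  omega

theorem cell_ne_of_far (hO : OrbitData w c e g u lev bad) {b : ℕ} (hb : 1 ≤ b) {m m' : ℤ}
    (hm : m ∉ bad b) (h : (Mb b : ℤ) ≤ m' - m) (hd : m' - m ≤ ((Pib b - 1) * Mb b : ℕ)) :
    cell lev b m ≠ cell lev b m' := by
  have hM := Mb_pos b
  have hPM : (Pib b - 1) * Mb b ≤ Pib b * Mb b := Nat.mul_le_mul_right _ (by omega)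
  have hlev := lev_good hO hb hm (m' := m') (by rw [abs_le]; push_cast at *; omega)
  have h1 : lev b m + Mb b ≤ lev b m' := by omega
  have h2 : (lev b m + Mb b) / Mb b ≤ lev b m' / Mb b := Nat.div_le_div_right h1
  rw [Nat.add_div_right _ hM] at h2
  unfold cell
  omega

/-- same `p`, different windows, good lower end: different cells -/
theorem cell_ne_of_win (hO : OrbitData w c e g u lev bad) (hb : 1 ≤ b0)
    (hlD : D * l = Mb b0) {m m' : ℤ} (h : m ≤ m') (hm : m ∉ bad b0)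
    (hd : m' - m ≤ ((Pib b0 - 1) * Mb b0 : ℕ)) (hp : pw lev b0 l m = pw lev b0 l m')
    (hw : win lev b0 l m ≠ win lev b0 l m') : cell lev b0 m ≠ cell lev b0 m' := by
  have hM := Mb_pos b0
  have hPM : (Pib b0 - 1) * Mb b0 ≤ Pib b0 * Mb b0 := Nat.mul_le_mul_right _ (by omega)
  have hlev := lev_good hO hb hm (m' := m') (by rw [abs_le]; push_cast at *; omega)
  intro hc
  apply hw
  apply win_eq hlev
  rw [pw_eq hlD, pw_eq hlD] at hp
  rw [cell_eq hlD, cell_eq hlD] at hc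
  rw [← Nat.div_add_mod (lev b0 m' / l) D, ← Nat.div_add_mod (lev b0 m / l) D, hp, hc]

/-- ordered version of the classification of pairs -/
theorem classify_aux (hO : OrbitData w c e g u lev bad) (hb : 1 ≤ b0) (hlD : D * l = Mb b0)
    (β : ℕ → ℕ) {J' : ℕ} (hβ1 : ∀ i < J', 4 ^ i * b0 + 1 ≤ β i)
    (hβ2 : ∀ i < J', β i ≤ 4 ^ (i + 1) * b0) {m m' : ℤ} (h : m ≤ m')
    (hw : win lev b0 l m ≠ win lev b0 l m') :
    pw lev b0 l m ≠ pw lev b0 l m' ∨
    (m ∈ bad b0 ∨ ¬ cell lev b0 m ≡ cell lev b0 m' [MOD Pib b0]) ∨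
    (∃ i < J', m ∈ bad (β i) ∨ ¬ cell lev (β i) m ≡ cell lev (β i) m' [MOD Pib (β i)]) ∨
    2 * (Mb (4 ^ (J' + 1) * b0) : ℤ) < m' - m := by
  by_cases hp : pw lev b0 l m = pw lev b0 l m'
  swap
  · exact Or.inl hp
  right
  by_cases hd0 : m' - m ≤ 2 * (Mb (4 * b0) : ℤ)
  · left
    by_cases hm : m ∈ bad b0
    · exact Or.inl hm
    right
    have h16 := Mb16 (b := b0) (b' := 4 * b0) (by omega)
    have hd : m' - m ≤ ((Pib b0 - 1) * Mb b0 : ℕ) := by
      generalize (Pib b0 - 1) * Mb b0 = z at *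
      omega
    exact incong hO hb h hm hd (cell_ne_of_win hO hb hlD h hm hd hp hw)
  · right
    by_cases hd1 : 2 * (Mb (4 ^ (J' + 1) * b0) : ℤ) < m' - m
    · exact Or.inr hd1
    left
    push Not at hd0 hd1
    -- find the class
    have : ∃ i < J', 2 * (Mb (4 ^ (i + 1) * b0) : ℤ) < m' - m ∧
        m' - m ≤ 2 * (Mb (4 ^ (i + 2) * b0) : ℤ) := by
      by_contra hcon
      push Not at hcon
      have key : ∀ i ≤ J', 2 * (Mb (4 ^ (i + 1) * b0) : ℤ) < m' - m := by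
        intro i
        induction i with
        | zero => intro _; simpa using hd0
        | succ i ih =>
          intro hi
          exact hcon i (by omega) (ih (by omega))
      exact absurd (key J' le_rfl) (by omega)
    obtain ⟨i, hi, hi1, hi2⟩ := this
    refine ⟨i, hi, ?_⟩
    by_cases hm : m ∈ bad (β i)
    · exact Or.inl hm
    right
    have hβi1 := hβ1 i hi
    have hβi2 := hβ2 i hi
    have hbi : 1 ≤ β i := by omega
    have h16 := Mb16 (b := β i) (b' := 4 ^ (i + 2) * b0) (by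
      have : 4 ^ (i + 2) * b0 = 16 * (4 ^ i * b0) := by ring
      omega)
    have hd : m' - m ≤ ((Pib (β i) - 1) * Mb (β i) : ℕ) := by
      generalize (Pib (β i) - 1) * Mb (β i) = z at *
      omega
    have hMle := Mb_mono hβi2
    exact incong hO hbi h hm hd (cell_ne_of_far hO hbi hm (by omega) hd)

end Crest.Agent.R113.Orb
end

-- ▼ part R113/FD/OffBes
section

/-!
Row 113, S0149, task T10 (P1): the Bessel selection for one distance class.  (helper205)
-/

set_option autoImplicit false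

namespace Crest.Agent.R113.Orb

open Finset

variable {w : ℕ → ℕ → Bool} {c e : ℕ → ℝ} {g : ℕ → ℕ} {u : ℤ → ℝ} {lev : ℕ → ℤ → ℕ}
  {bad : ℕ → Set ℤ} {q N B J b0 l D K : ℕ}

theorem Pib_mono {b b' : ℕ} (h : b ≤ b') : Pib b ≤ Pib b' := by
  unfold Pib
  apply Nat.pow_le_pow_right (by norm_num)
  have : b ^ 2 ≤ b' ^ 2 := Nat.pow_le_pow_left h 2
  omega

/-- total variation of the word of block `b` along the orbit -/
theorem word_tv (hO : OrbitData w c e g u lev bad) (hC : OrbitCounts q N B J lev bad) {b : ℕ}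
    (hb : 1 ≤ b) (hB : B ≤ b) (hJ : b ≤ J) (hN : 2 * (Pib b * Mb b) ≤ N)
    (hq : 4 ^ b * (Pib b * Mb b) ≤ q) :
    ∑ m ∈ range (q + 2 * (rb b * Mb b)),
      |bv (w b (cell lev b (0 - rb b * Mb b + m + 1))) -
        bv (w b (cell lev b (0 - rb b * Mb b + m)))| ≤ 2 * q / Mb b := by
  classical
  have hMpos : (0 : ℝ) < Mb b := by exact_mod_cast Mb_pos b
  have hterm : ∀ m : ℤ, |bv (w b (cell lev b (m + 1))) - bv (w b (cell lev b m))| ≤
      if lev b (m + 1) % Mb b = 0 then 1 else 0 := by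
    intro m
    split_ifs with hm
    · have h1 := bv_nonneg (w b (cell lev b (m + 1)))
      have h2 := bv_le_one (w b (cell lev b (m + 1)))
      have h3 := bv_nonneg (w b (cell lev b m))
      have h4 := bv_le_one (w b (cell lev b m))
      rw [abs_le]; constructor <;> linarith
    · have : cell lev b m = cell lev b (m + 1) := by
        by_contra hcon
        obtain ⟨t, ht1, ht2, ht3⟩ := exists_start (steps hO hb) (by omega) hcon
        have : t = m + 1 := by omega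
        exact hm (this ▸ ht3)
      rw [this]; simp
  have h1 : ∑ m ∈ range (q + 2 * (rb b * Mb b)),
      |bv (w b (cell lev b (0 - rb b * Mb b + m + 1))) -
        bv (w b (cell lev b (0 - rb b * Mb b + m)))| ≤
      (((Finset.Ico (1 - (rb b * Mb b : ℕ) : ℤ) (1 - (rb b * Mb b : ℕ) + (q + 2 * (rb b * Mb b) : ℕ))).filter
        (fun m => lev b m % Mb b = 0)).card : ℝ) := by
    calc _ ≤ ∑ m ∈ range (q + 2 * (rb b * Mb b)),
          (if lev b ((0 - rb b * Mb b + m : ℤ) + 1) % Mb b = 0 then (1 : ℝ) else 0) :=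
          Finset.sum_le_sum fun m _ => hterm _
      _ = (((range (q + 2 * (rb b * Mb b))).filter
          (fun m : ℕ => lev b ((0 - rb b * Mb b + m : ℤ) + 1) % Mb b = 0)).card : ℝ) := by
          rw [Finset.sum_boole]
      _ ≤ _ := by
          refine Nat.cast_le.2 ?_
          apply Finset.card_le_card_of_injOn (fun m : ℕ => (0 - rb b * Mb b + m : ℤ) + 1)
          · intro m hm
            simp only [Finset.coe_filter, Set.mem_ofPred_eq, Finset.mem_range, Finset.mem_Ico] at hm ⊢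
            refine ⟨?_, hm.2⟩
            push_cast
            constructor
            · omega
            · have := hm.1
              have : (m : ℤ) < ((q + 2 * (rb b * Mb b) : ℕ) : ℤ) := by exact_mod_cast this
              push_cast at this
              linarith
          · intro m _ m' _ hmm
            simp only at hmm
            omega
  have hP1024 : 1024 * (rb b * Mb b) ≤ Pib b * Mb b := by
    calc 1024 * (rb b * Mb b) = (1024 * rb b) * Mb b := by ring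
      _ ≤ _ := Nat.mul_le_mul_right _ (rb_le_Pib b)
  have hrM : 1 ≤ rb b * Mb b := Nat.mul_pos (rb_pos b) (Mb_pos b)
  have h2 := starts_total hO hC hb hB hJ (a0 := (1 - (rb b * Mb b : ℕ) : ℤ))
    (L := q + 2 * (rb b * Mb b)) (by push_cast; push_cast at *; omega)
    (by push_cast; push_cast at *; omega)
  rw [le_div_iff₀ hMpos]
  refine (mul_le_mul_of_nonneg_right h1 hMpos.le).trans (h2.trans ?_)
  obtain ⟨q1, q2⟩ := q_facts hq
  have h4 : (1 : ℝ) ≤ 4 ^ b := one_le_pow₀ (by norm_num)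
  have hM : (0 : ℝ) ≤ Mb b := by positivity
  have h5 : (1024 : ℝ) * Mb b ≤ q := by nlinarith
  have hrM0 : (0 : ℝ) ≤ rb b * Mb b := by positivity
  have h6 : (1024 : ℝ) * (rb b * Mb b) ≤ q := by nlinarith
  have h7 : zb b * q / Pib b ≤ q / 1024 := by
    have hP : (1024 : ℝ) ≤ Pib b := by exact_mod_cast Pib_ge b
    have hz := zb_le_half hb
    have hz0 := zb_pos b
    have hq0 : (0 : ℝ) ≤ q := by positivity
    rw [div_le_div_iff₀ (by positivity) (by norm_num)]
    nlinarith [mul_nonneg hq0 hz0.le]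
  have hq0 : (0 : ℝ) ≤ q := by positivity
  push_cast
  linarith

/-- inner product of the far flux functions of two blocks `b < b'` -/
theorem farPhi_class (hO : OrbitData w c e g u lev bad) (hC : OrbitCounts q N B J lev bad)
    {b b' : ℕ} (hb : 1 ≤ b) (hbb : b < b') (hB : B ≤ b') (hJ : b' ≤ J)
    (hN : 2 * (Pib b' * Mb b') ≤ N) (hq : 4 ^ b' * (Pib b' * Mb b') ≤ q) :
    |∑ m ∈ range q, Bes.farPhi (rb b) (Mb b) (fun x => bv (w b (cell lev b x))) (0 + m) *
      Bes.farPhi (rb b') (Mb b') (fun x => bv (w b' (cell lev b' x))) (0 + m)| ≤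
      q / (4 * 4 ^ b) := by
  have hMpos : (0 : ℝ) < Mb b' := by exact_mod_cast Mb_pos b'
  have h1 := Bes.farPhi_inner (rb b) (Mb b) (rb b') (Mb b')
    (fun x => bv (w b (cell lev b x))) (fun x => bv (w b' (cell lev b' x)))
    (fun _ => bv_nonneg _) (fun _ => bv_le_one _) (fun _ => bv_nonneg _) (fun _ => bv_le_one _)
    0 q (2 * q / Mb b') (word_tv hO hC (by omega) hB hJ hN hq)
  refine h1.trans ?_
  have hq' : 4 ^ b * (Pib b * Mb b) ≤ q :=
    (Nat.mul_le_mul (Nat.pow_le_pow_right (by norm_num) hbb.le)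
      (Nat.mul_le_mul (Pib_mono hbb.le) (Mb_mono hbb.le))).trans hq
  obtain ⟨_, q2⟩ := q_facts hq'
  have h2 : (100 : ℝ) * 4 ^ b * (rb b * Mb b) ≤ Mb b' := by
    have : 100 * 4 ^ b * (rb b * Mb b) ≤ Mb b' := (Mb_succ b).trans (Mb_mono hbb)
    exact_mod_cast this
  have h4 : (0 : ℝ) < 4 ^ b := by positivity
  have hrM0 : (0 : ℝ) ≤ rb b * Mb b := by positivity
  have hq0 : (0 : ℝ) ≤ q := by positivity
  have e1 : 2 * (rb b : ℝ) * Mb b * (2 + 4 * (2 * q / Mb b')) =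
      4 * (rb b * Mb b) + 16 * ((rb b * Mb b) / Mb b') * q := by
    field_simp; ring
  rw [e1]
  have h5 : (rb b * Mb b : ℝ) / Mb b' ≤ 1 / (100 * 4 ^ b) := by
    rw [div_le_div_iff₀ hMpos (by positivity)]
    linarith
  have h6 : 16 * ((rb b * Mb b : ℝ) / Mb b') * q ≤ 16 * (1 / (100 * 4 ^ b)) * q := by
    gcongr
  have h7 : 4 * (rb b * Mb b : ℝ) ≤ q / (256 * 4 ^ b) := by
    rw [le_div_iff₀ (by positivity)]
    linarith
  have e2 : 16 * (1 / (100 * (4 : ℝ) ^ b)) * q = (16 / 100) * (q / 4 ^ b) := by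
    field_simp
  have e3 : (q : ℝ) / (256 * 4 ^ b) = (1 / 256) * (q / 4 ^ b) := by field_simp
  have e4 : (q : ℝ) / (4 * 4 ^ b) = (1 / 4) * (q / 4 ^ b) := by field_simp
  have h8 : (0 : ℝ) ≤ q / 4 ^ b := by positivity
  rw [e4]
  rw [e2] at h6
  rw [e3] at h7
  linarith

theorem three_mul_le_pow (a : ℕ) : 3 * a ≤ 4 ^ a * 3 := by
  have : a < 4 ^ a := Nat.lt_pow_self (by norm_num)
  omega

/-- (P1): the Bessel selection for one distance class -/
theorem bes_class {w : ℕ → ℕ → Bool} {c e : ℕ → ℝ} {g : ℕ → ℕ} {u : ℤ → ℝ} {lev : ℕ → ℤ → ℕ}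
    {bad : ℕ → Set ℤ} {q N B J : ℕ} (hO : OrbitData w c e g u lev bad)
    (hC : OrbitCounts q N B J lev bad) {a : ℕ} (ha : 1 ≤ a) (hB : B ≤ a) (hJ : 4 * a ≤ J)
    (hN : 2 * (Pib (4 * a) * Mb (4 * a)) ≤ N) (hq : 4 ^ (4 * a) * (Pib (4 * a) * Mb (4 * a)) ≤ q)
    (h : Fin q → ℝ) (h0 : ∀ m, 0 ≤ h m) (h1 : ∀ m, h m ≤ 1) :
    ∃ β, a + 1 ≤ β ∧ β ≤ 4 * a ∧
      ∑ m : Fin q, h m *
        Bes.farPhi (rb β) (Mb β) (fun x => bv (w β (cell lev β x))) ((m : ℕ) : ℤ) ≤
        q * Real.sqrt (5 / (3 * a)) := by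
  classical
  have ha0 : (0 : ℝ) < a := by exact_mod_cast ha
  have : Nonempty (Fin (3 * a)) := ⟨⟨0, by omega⟩⟩
  have hN' : ∀ b, b ≤ 4 * a → 2 * (Pib b * Mb b) ≤ N := fun b hb =>
    (Nat.mul_le_mul_left _ (Nat.mul_le_mul (Pib_mono hb) (Mb_mono hb))).trans hN
  have hq' : ∀ b, b ≤ 4 * a → 4 ^ b * (Pib b * Mb b) ≤ q := fun b hb =>
    (Nat.mul_le_mul (Nat.pow_le_pow_right (by norm_num) hb)
      (Nat.mul_le_mul (Pib_mono hb) (Mb_mono hb))).trans hq
  have hsum : ∀ F : ℤ → ℝ, ∑ m : Fin q, F ((m : ℕ) : ℤ) = ∑ m ∈ range q, F (0 + m) := by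
    intro F
    rw [Finset.sum_range]
    simp
  have key : ∀ b b' : ℕ, a + 1 ≤ b → b < b' → b' ≤ 4 * a →
      |∑ m : Fin q, Bes.farPhi (rb b) (Mb b) (fun x => bv (w b (cell lev b x))) ((m : ℕ) : ℤ) *
        Bes.farPhi (rb b') (Mb b') (fun x => bv (w b' (cell lev b' x))) ((m : ℕ) : ℤ)| ≤
        1 / (3 * a) * q := by
    intro b b' hb hbb hb'
    rw [hsum (fun x => Bes.farPhi (rb b) (Mb b) (fun x => bv (w b (cell lev b x))) x *
        Bes.farPhi (rb b') (Mb b') (fun x => bv (w b' (cell lev b' x))) x)]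
    refine (farPhi_class hO hC (by omega) hbb (by omega) (by omega) (hN' b' hb')
      (hq' b' hb')).trans ?_
    have h5 : (3 * a : ℝ) ≤ 4 * 4 ^ b := by
      have h6 : 3 * a ≤ 4 * 4 ^ b := by
        have := three_mul_le_pow b
        omega
      exact_mod_cast h6
    rw [div_mul_eq_mul_div, one_mul]
    gcongr
  obtain ⟨β, hβ⟩ := Bes.bes (β := Fin (3 * a)) (Finset.univ : Finset (Fin q))
    (fun β m => Bes.farPhi (rb (a + 1 + β)) (Mb (a + 1 + β))
      (fun x => bv (w (a + 1 + β) (cell lev (a + 1 + β) x))) ((m : ℕ) : ℤ))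
    (fun β m _ => Bes.farPhi_abs_le _ _ _ (fun _ => bv_nonneg _) (fun _ => bv_le_one _) _)
    (1 / (3 * a)) (by positivity)
    (by
      intro b b' hbb
      rw [Finset.card_univ, Fintype.card_fin]
      have hb1 := b.2
      have hb2 := b'.2
      rcases lt_or_gt_of_ne (Fin.val_ne_of_ne hbb) with hlt | hlt
      · exact key _ _ (by omega) (by omega) (by omega)
      · have := key (a + 1 + b') (a + 1 + b) (by omega) (by omega) (by omega)
        simpa only [mul_comm] using this)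
    h (fun m _ => h0 m) (fun m _ => h1 m)
  refine ⟨a + 1 + β, by omega, by have := β.2; omega, ?_⟩
  rw [Finset.card_univ, Fintype.card_fin, Fintype.card_fin] at hβ
  refine hβ.trans (le_of_eq ?_)
  congr 2
  push_cast
  field_simp
  norm_num

end Crest.Agent.R113.Orb
end

-- ▼ part R113/FD/OffSep
section

/-!
Row 113, S0149, task T10 (P2): the separation lemma for the cells.  (helper600)
-/

set_option autoImplicit false

namespace Crest.Agent.R113.Orb

open Finset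

variable {w : ℕ → ℕ → Bool} {c e : ℕ → ℝ} {g : ℕ → ℕ} {u : ℤ → ℝ} {lev : ℕ → ℤ → ℕ}
  {bad : ℕ → Set ℤ} {q N B J b0 l D K : ℕ}

/-- number of the ordered separations of `m, m'` by `A` -/
noncomputable def sepN (A : Set ℤ) (m m' : ℤ) : ℝ :=
  ind A m * (1 - ind A m') + (1 - ind A m) * ind A m'

theorem sepN_nonneg (A : Set ℤ) (m m' : ℤ) : 0 ≤ sepN A m m' := by
  unfold sepN
  have h1 := ind_nonneg A m
  have h2 := ind_nonneg A m'
  have h3 := ind_le_one A m
  have h4 := ind_le_one A m'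
  have h5 := mul_nonneg h1 (sub_nonneg.2 h4)
  have h6 := mul_nonneg (sub_nonneg.2 h3) h2
  linarith

theorem sepN_of_ne {A : Set ℤ} {m m' : ℤ} (h : ¬ (m ∈ A ↔ m' ∈ A)) : sepN A m m' = 1 := by
  unfold sepN
  by_cases h1 : m ∈ A
  · have h2 : m' ∉ A := fun h2 => h ⟨fun _ => h2, fun _ => h1⟩
    rw [ind_of_mem h1, ind_of_not_mem h2]; norm_num
  · have h2 : m' ∈ A := by
      by_contra h2
      exact h ⟨fun h3 => absurd h3 h1, fun h3 => absurd h3 h2⟩
    rw [ind_of_not_mem h1, ind_of_mem h2]; norm_num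

/-- the sum of the separations against a symmetric mass is twice the cut -/
theorem sum_sepN {μ : Fin q → Fin q → ℝ} {h : Fin q → ℝ} (hμ : Mass μ h) (A : Set ℤ) :
    ∑ m : Fin q, ∑ m' : Fin q, sepN A ((m : ℕ) : ℤ) ((m' : ℕ) : ℤ) * μ m m' = 2 * cutM μ A := by
  classical
  have h1 : ∑ m : Fin q, ∑ m' : Fin q,
      ind A ((m : ℕ) : ℤ) * (1 - ind A ((m' : ℕ) : ℤ)) * μ m m' = cutM μ A := by
    unfold cutM
    refine Finset.sum_congr rfl fun m _ => Finset.sum_congr rfl fun m' _ => ?_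
    by_cases hm : ((m : ℕ) : ℤ) ∈ A <;> by_cases hm' : ((m' : ℕ) : ℤ) ∈ A
    · rw [if_neg (by tauto), ind_of_mem hm, ind_of_mem hm']; ring
    · rw [if_pos ⟨hm, hm'⟩, ind_of_mem hm, ind_of_not_mem hm']; ring
    · rw [if_neg (by tauto), ind_of_not_mem hm]; ring
    · rw [if_neg (by tauto), ind_of_not_mem hm]; ring
  have h2 : ∑ m : Fin q, ∑ m' : Fin q,
      (1 - ind A ((m : ℕ) : ℤ)) * ind A ((m' : ℕ) : ℤ) * μ m m' = cutM μ A := by
    rw [Finset.sum_comm, ← h1]
    refine Finset.sum_congr rfl fun m _ => Finset.sum_congr rfl fun m' _ => ?_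
    rw [hμ.symm m' m]; ring
  have h3 : ∑ m : Fin q, ∑ m' : Fin q, sepN A ((m : ℕ) : ℤ) ((m' : ℕ) : ℤ) * μ m m' =
      ∑ m : Fin q, ∑ m' : Fin q,
        ind A ((m : ℕ) : ℤ) * (1 - ind A ((m' : ℕ) : ℤ)) * μ m m' +
      ∑ m : Fin q, ∑ m' : Fin q,
        (1 - ind A ((m : ℕ) : ℤ)) * ind A ((m' : ℕ) : ℤ) * μ m m' := by
    rw [← Finset.sum_add_distrib]
    refine Finset.sum_congr rfl fun m _ => ?_
    rw [← Finset.sum_add_distrib]
    refine Finset.sum_congr rfl fun m' _ => ?_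
    unfold sepN
    ring
  rw [h3, h1, h2]; ring

/-- the two far sets number `k` separate two cells if exactly one of `ε(a) = ε(a')`,
`ε(a+k) = ε(a'+k)` holds -/
theorem far_sep (b k : ℕ) (m m' : ℤ)
    (h : (w b (cell lev b m) = w b (cell lev b m') ∧
        w b (cell lev b m + k) ≠ w b (cell lev b m' + k)) ∨
      (w b (cell lev b m) ≠ w b (cell lev b m') ∧
        w b (cell lev b m + k) = w b (cell lev b m' + k))) :
    1 ≤ sepN (far w lev b k true) m m' + sepN (far w lev b k false) m m' := by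
  have key : ¬ (m ∈ far w lev b k true ↔ m' ∈ far w lev b k true) ∨
      ¬ (m ∈ far w lev b k false ↔ m' ∈ far w lev b k false) := by
    rw [mem_far_true, mem_far_true, mem_far_false, mem_far_false]
    revert h
    generalize w b (cell lev b m) = x
    generalize w b (cell lev b m') = x'
    generalize w b (cell lev b m + k) = y
    generalize w b (cell lev b m' + k) = y'
    revert x x' y y'
    decide
  have h1 := sepN_nonneg (far w lev b k true) m m'
  have h2 := sepN_nonneg (far w lev b k false) m m'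
  rcases key with h3 | h3
  · rw [sepN_of_ne h3]; linarith
  · rw [sepN_of_ne h3]; linarith

/-- two cells, different modulo `Π`, are separated by at least `r/64` of the far sets -/
theorem far_sep_count (hw : IsWords w) {b : ℕ} (hb : 1 ≤ b) (m m' : ℤ)
    (h : ¬ cell lev b m ≡ cell lev b m' [MOD Pib b]) :
    (rb b : ℝ) ≤ 64 * ∑ k ∈ Finset.Icc 1 (rb b),
      (sepN (far w lev b k true) m m' + sepN (far w lev b k false) m m') := by
  classical
  have h' : ¬ cell lev b m + 1 ≡ cell lev b m' + 1 [MOD Pib b] :=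
    fun h1 => h (Nat.ModEq.add_right_cancel' 1 h1)
  -- the good indices
  have key : ∀ (P : ℕ → Prop) [DecidablePred P],
      rb b ≤ 64 * ((Finset.range (rb b)).filter P).card →
      (∀ t, P t → 1 ≤ sepN (far w lev b (t + 1) true) m m' +
        sepN (far w lev b (t + 1) false) m m') →
      (rb b : ℝ) ≤ 64 * ∑ k ∈ Finset.Icc 1 (rb b),
        (sepN (far w lev b k true) m m' + sepN (far w lev b k false) m m') := by
    intro P _ hc hP
    have e1 : ∑ k ∈ Finset.Icc 1 (rb b),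
        (sepN (far w lev b k true) m m' + sepN (far w lev b k false) m m') =
        ∑ t ∈ Finset.range (rb b),
        (sepN (far w lev b (t + 1) true) m m' + sepN (far w lev b (t + 1) false) m m') := by
      rw [Finset.range_eq_Ico, Finset.sum_Ico_add' (fun k =>
        (sepN (far w lev b k true) m m' + sepN (far w lev b k false) m m')) 0 (rb b) 1]
      rfl
    rw [e1]
    have e2 : (((Finset.range (rb b)).filter P).card : ℝ) ≤ ∑ t ∈ Finset.range (rb b),
        (sepN (far w lev b (t + 1) true) m m' + sepN (far w lev b (t + 1) false) m m') := by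
      rw [Finset.card_eq_sum_ones, Nat.cast_sum, Finset.sum_filter]
      refine Finset.sum_le_sum fun t _ => ?_
      by_cases ht : P t
      · rw [if_pos ht, Nat.cast_one]; exact hP t ht
      · rw [if_neg ht]
        exact add_nonneg (sepN_nonneg _ _ _) (sepN_nonneg _ _ _)
    have e3 : (rb b : ℝ) ≤ 64 * (((Finset.range (rb b)).filter P).card : ℝ) := by
      exact_mod_cast hc
    linarith
  have comm1 : ∀ a t : ℕ, a + 1 + t = a + (t + 1) := fun a t => by ring
  by_cases he : w b (cell lev b m) = w b (cell lev b m')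
  · refine key _ (hw.sep_ne b hb _ _ h') fun t ht => far_sep b (t + 1) m m' (Or.inl ⟨he, ?_⟩)
    rwa [comm1, comm1] at ht
  · refine key _ (hw.sep_eq b hb _ _ h') fun t ht => far_sep b (t + 1) m m' (Or.inr ⟨he, ?_⟩)
    rwa [comm1, comm1] at ht

/-- (P2) the separation lemma -/
theorem sep_mass (hw : IsWords w) {b : ℕ} (hb : 1 ≤ b) {μ : Fin q → Fin q → ℝ} {h : Fin q → ℝ}
    (hμ : Mass μ h) (R : Fin q → Fin q → Prop) [∀ m m', Decidable (R m m')]
    (hR : ∀ m m', R m m' → ¬ cell lev b ((m : ℕ) : ℤ) ≡ cell lev b ((m' : ℕ) : ℤ) [MOD Pib b]) :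
    (rb b : ℝ) * ∑ m, ∑ m', (if R m m' then μ m m' else 0) ≤
      128 * ∑ k ∈ Finset.Icc 1 (rb b),
        (cutM μ (far w lev b k true) + cutM μ (far w lev b k false)) := by
  have e1 : 128 * ∑ k ∈ Finset.Icc 1 (rb b),
        (cutM μ (far w lev b k true) + cutM μ (far w lev b k false)) =
      ∑ m : Fin q, ∑ m' : Fin q, (64 * ∑ k ∈ Finset.Icc 1 (rb b),
        (sepN (far w lev b k true) ((m : ℕ) : ℤ) ((m' : ℕ) : ℤ) +
          sepN (far w lev b k false) ((m : ℕ) : ℤ) ((m' : ℕ) : ℤ))) * μ m m' := by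
    have e2 : ∀ k, 128 * (cutM μ (far w lev b k true) + cutM μ (far w lev b k false)) =
        ∑ m : Fin q, ∑ m' : Fin q, (64 *
        (sepN (far w lev b k true) ((m : ℕ) : ℤ) ((m' : ℕ) : ℤ) +
          sepN (far w lev b k false) ((m : ℕ) : ℤ) ((m' : ℕ) : ℤ))) * μ m m' := by
      intro k
      have e3 := sum_sepN hμ (far w lev b k true)
      have e4 := sum_sepN hμ (far w lev b k false)
      have e5 : (128 : ℝ) * (cutM μ (far w lev b k true) + cutM μ (far w lev b k false)) =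
        64 * (2 * cutM μ (far w lev b k true)) + 64 * (2 * cutM μ (far w lev b k false)) := by ring
      rw [e5, ← e3, ← e4, Finset.mul_sum, Finset.mul_sum, ← Finset.sum_add_distrib]
      refine Finset.sum_congr rfl fun m _ => ?_
      rw [Finset.mul_sum, Finset.mul_sum, ← Finset.sum_add_distrib]
      refine Finset.sum_congr rfl fun m' _ => ?_
      ring
    rw [Finset.mul_sum, Finset.sum_congr rfl fun k _ => e2 k, Finset.sum_comm]
    refine Finset.sum_congr rfl fun m _ => ?_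
    rw [Finset.sum_comm]
    refine Finset.sum_congr rfl fun m' _ => ?_
    rw [Finset.mul_sum, Finset.sum_mul]
  rw [e1, Finset.mul_sum]
  refine Finset.sum_le_sum fun m _ => ?_
  rw [Finset.mul_sum]
  refine Finset.sum_le_sum fun m' _ => ?_
  by_cases hRm : R m m'
  · rw [if_pos hRm]
    exact mul_le_mul_of_nonneg_right (far_sep_count hw hb _ _ (hR m m' hRm)) (hμ.nonneg m m')
  · rw [if_neg hRm, mul_zero]
    refine mul_nonneg (mul_nonneg (by norm_num) (Finset.sum_nonneg fun k _ => ?_)) (hμ.nonneg m m')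
    exact add_nonneg (sepN_nonneg _ _ _) (sepN_nonneg _ _ _)

end Crest.Agent.R113.Orb
end

-- ▼ part R113/FD/OffBase
section

/-!
Row 113, S0149, task T10, parts (P5), (P5b): the flux of the base sets. (helper909)
-/

set_option autoImplicit false

namespace Crest.Agent.R113.Orb

open Finset

variable {w : ℕ → ℕ → Bool} {c e : ℕ → ℝ} {g : ℕ → ℕ} {u : ℤ → ℝ} {lev : ℕ → ℤ → ℕ}
  {bad : ℕ → Set ℤ} {q N B J b0 l D K : ℕ}

/-- pointwise flux function of the two far sets number `k` -/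
noncomputable def farPhi (w : ℕ → ℕ → Bool) (lev : ℕ → ℤ → ℕ) (b k : ℕ) (m : ℤ) : ℝ :=
  (ind (far w lev b k true) m - ind (far w lev b k true) (m - ((k * Mb b : ℕ) : ℤ))) +
    (ind (far w lev b k false) m - ind (far w lev b k false) (m - ((k * Mb b : ℕ) : ℤ)))

theorem farPhi_abs (b k : ℕ) (m : ℤ) : |farPhi w lev b k m| ≤ 2 := by
  unfold farPhi
  have h1 := ind_nonneg (far w lev b k true) m
  have h2 := ind_nonneg (far w lev b k true) (m - ((k * Mb b : ℕ) : ℤ))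
  have h3 := ind_nonneg (far w lev b k false) m
  have h4 := ind_nonneg (far w lev b k false) (m - ((k * Mb b : ℕ) : ℤ))
  have h5 := ind_le_one (far w lev b k true) m
  have h6 := ind_le_one (far w lev b k true) (m - ((k * Mb b : ℕ) : ℤ))
  have h7 := ind_le_one (far w lev b k false) m
  have h8 := ind_le_one (far w lev b k false) (m - ((k * Mb b : ℕ) : ℤ))
  rw [abs_le]
  constructor <;> linarith

theorem sum_fwd {f : ℕ → Bool} (hf : ∀ s, f (2 * s + 1) = !(f (2 * s))) (a K : ℕ) :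
    |∑ k ∈ Finset.Icc 1 K, bv (f (a + k)) - K / 2| ≤ 1 := by
  have h := bal_avg hf (a + 1) K
  have h1 : ∑ k ∈ Finset.Icc 1 K, bv (f (a + k)) = ∑ k ∈ Finset.range K, bv (f (a + 1 + k)) := by
    rw [sum_Icc_eq_fin K (fun k => bv (f (a + k)))]
    rw [Fin.sum_univ_eq_sum_range (fun i => bv (f (a + (i + 1)))) K]
    refine Finset.sum_congr rfl fun k _ => ?_
    rw [show a + (k + 1) = a + 1 + k by ring]
  rw [h1]
  exact h

theorem sum_bwd {f : ℕ → Bool} (hf : ∀ s, f (2 * s + 1) = !(f (2 * s))) (a K : ℕ) (hK : K ≤ a) :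
    |∑ k ∈ Finset.Icc 1 K, bv (f (a - k)) - K / 2| ≤ 1 := by
  have h := bal_avg hf (a - K) K
  have h1 : ∑ k ∈ Finset.Icc 1 K, bv (f (a - k)) = ∑ k ∈ Finset.range K, bv (f (a - K + k)) := by
    rw [sum_Icc_eq_fin K (fun k => bv (f (a - k)))]
    rw [Fin.sum_univ_eq_sum_range (fun i => bv (f (a - (i + 1)))) K]
    rw [← Finset.sum_range_reflect (fun j => bv (f (a - K + j))) K]
    refine Finset.sum_congr rfl fun k hk => ?_
    have := Finset.mem_range.1 hk
    rw [show a - (k + 1) = a - K + (K - 1 - k) by omega]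
  rw [h1]
  exact h

theorem level_big (hO : OrbitData w c e g u lev bad) (hb : 1 ≤ b0) {m : ℤ} (hm : m ∉ bad b0)
    {k : ℕ} (hk : k ≤ rb b0) : k * Mb b0 ≤ lev b0 m := by
  have h1 := hO.run_low b0 hb m hm
  have h2 := rb_le_Pib b0
  refine le_trans (Nat.mul_le_mul_right _ ?_) h1
  omega

/-- the averages of the far flux functions -/
theorem farPhi_avg (hw : IsWords w) (hO : OrbitData w c e g u lev bad) (hb : 1 ≤ b0) {m : ℤ}
    (hm : m ∉ bad b0) (hK1 : 1 ≤ K) (hK : K ≤ rb b0) :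
    |(1 / (K : ℝ)) * ∑ k ∈ Finset.Icc 1 K, farPhi w lev b0 k m -
      (2 * bv (w b0 (cell lev b0 m)) - 1)| ≤ 2 / K ∧
    |(1 / (K : ℝ)) * ∑ k ∈ Finset.Icc 1 K, farPhi w lev b0 k m -
      (2 * ((1 / (K : ℝ)) * ∑ k ∈ Finset.Icc 1 K, (1 + bv (w b0 (cell lev b0 m)) -
        bv (w b0 (cell lev b0 m + k)))) - 2)| ≤ 2 / K := by
  set a := cell lev b0 m with ha
  have hK0 : (0 : ℝ) < K := by exact_mod_cast hK1
  have haK : K ≤ a := by
    rw [ha]
    unfold cell
    rw [Nat.le_div_iff_mul_le (Mb_pos b0)]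
    exact level_big hO hb hm hK
  have h1 : ∑ k ∈ Finset.Icc 1 K, farPhi w lev b0 k m =
      2 * K * bv (w b0 a) - ∑ k ∈ Finset.Icc 1 K, bv (w b0 (a + k)) -
        ∑ k ∈ Finset.Icc 1 K, bv (w b0 (a - k)) := by
    have : ∀ k ∈ Finset.Icc 1 K, farPhi w lev b0 k m =
        2 * bv (w b0 a) - bv (w b0 (a + k)) - bv (w b0 (a - k)) := by
      intro k hk
      have hk' := (Finset.mem_Icc.1 hk).2
      exact far_phi (steps hO hb) k m (level_big hO hb hm (hk'.trans hK))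
    rw [Finset.sum_congr rfl this, Finset.sum_sub_distrib, Finset.sum_sub_distrib,
      Finset.sum_const, Nat.card_Icc, nsmul_eq_mul]
    simp only [Nat.add_sub_cancel]
    ring
  have h2 := sum_fwd (hw.bal b0) a K
  have h3 := sum_bwd (hw.bal b0) a K haK
  set S1 := ∑ k ∈ Finset.Icc 1 K, bv (w b0 (a + k)) with hS1
  set S2 := ∑ k ∈ Finset.Icc 1 K, bv (w b0 (a - k)) with hS2
  have h4 : ∑ k ∈ Finset.Icc 1 K, (1 + bv (w b0 a) - bv (w b0 (a + k))) =
      K * (1 + bv (w b0 a)) - S1 := by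
    rw [Finset.sum_sub_distrib, Finset.sum_const, Nat.card_Icc, nsmul_eq_mul]
    simp only [Nat.add_sub_cancel]
    rfl
  rw [h1, h4]
  rw [abs_le] at h2 h3
  constructor
  · have e1 : (1 / (K : ℝ)) * (2 * K * bv (w b0 a) - S1 - S2) - (2 * bv (w b0 a) - 1) =
        (1 / (K : ℝ)) * ((K : ℝ) - S1 - S2) := by
      field_simp
      ring
    rw [e1, abs_mul, abs_of_pos (by positivity : (0 : ℝ) < 1 / K), div_eq_mul_one_div (2 : ℝ),
      mul_comm (2 : ℝ)]
    apply mul_le_mul_of_nonneg_left _ (by positivity)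
    rw [abs_le]
    constructor <;> linarith [h2.1, h2.2, h3.1, h3.2]
  · have e1 : (1 / (K : ℝ)) * (2 * K * bv (w b0 a) - S1 - S2) -
        (2 * ((1 / (K : ℝ)) * (K * (1 + bv (w b0 a)) - S1)) - 2) =
        (1 / (K : ℝ)) * (S1 - S2) := by
      field_simp
      ring
    rw [e1, abs_mul, abs_of_pos (by positivity : (0 : ℝ) < 1 / K), div_eq_mul_one_div (2 : ℝ),
      mul_comm (2 : ℝ)]
    apply mul_le_mul_of_nonneg_left _ (by positivity)
    rw [abs_le]
    constructor <;> linarith [h2.1, h2.2, h3.1, h3.2]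

/-- crude bound for averages of far flux functions -/
theorem farPhi_avg_abs (m : ℤ) :
    |(1 / (K : ℝ)) * ∑ k ∈ Finset.Icc 1 K, farPhi w lev b0 k m| ≤ 2 := by
  rcases Nat.eq_zero_or_pos K with rfl | hK
  · simp
  have hK0 : (0 : ℝ) < K := by exact_mod_cast hK
  rw [abs_mul, abs_of_pos (by positivity : (0 : ℝ) < 1 / K)]
  have h1 : |∑ k ∈ Finset.Icc 1 K, farPhi w lev b0 k m| ≤ K * 2 := by
    refine (Finset.abs_sum_le_sum_abs _ _).trans ?_
    refine (Finset.sum_le_sum fun k _ => farPhi_abs b0 k m).trans ?_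
    rw [Finset.sum_const, Nat.card_Icc, nsmul_eq_mul]
    simp only [Nat.add_sub_cancel]
    exact le_refl _
  calc 1 / (K : ℝ) * |∑ k ∈ Finset.Icc 1 K, farPhi w lev b0 k m| ≤ 1 / (K : ℝ) * (K * 2) :=
        mul_le_mul_of_nonneg_left h1 (by positivity)
    _ = 2 := by field_simp

/-- flux as a pointwise sum -/
theorem far_flux_sum (h : Fin q → ℝ) (b K : ℕ) :
    (1 / (K : ℝ)) * ∑ k ∈ Finset.Icc 1 K,
      (flux h (far w lev b k true) (k * Mb b) + flux h (far w lev b k false) (k * Mb b)) =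
    ∑ m : Fin q, h m * ((1 / (K : ℝ)) * ∑ k ∈ Finset.Icc 1 K, farPhi w lev b k ((m : ℕ) : ℤ)) := by
  have h1 : ∀ k, flux h (far w lev b k true) (k * Mb b) + flux h (far w lev b k false) (k * Mb b) =
      ∑ m : Fin q, h m * farPhi w lev b k ((m : ℕ) : ℤ) := by
    intro k
    unfold flux farPhi
    rw [← Finset.sum_add_distrib]
    refine Finset.sum_congr rfl fun m _ => ?_
    ring
  rw [Finset.sum_congr rfl fun k _ => h1 k, Finset.sum_comm, Finset.mul_sum]
  refine Finset.sum_congr rfl fun m _ => ?_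
  rw [← Finset.mul_sum]
  ring

open Classical in
/-- summing a pointwise bound: `x` off the bad set, `y` on the bad set -/
theorem sum_bad (P : Fin q → Prop) (F : Fin q → ℝ) (x y : ℝ) (hx : 0 ≤ x)
    (h1 : ∀ m, ¬ P m → F m ≤ x) (h2 : ∀ m, P m → F m ≤ y) :
    ∑ m : Fin q, F m ≤ x * q + y * ((univ.filter (fun m : Fin q => P m)).card : ℝ) := by
  have h3 : ∀ m : Fin q, F m ≤ x + (if P m then y else 0) := by
    intro m
    by_cases h : P m
    · rw [if_pos h]
      have := h2 m h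
      linarith
    · rw [if_neg h]
      have := h1 m h
      linarith
  refine (Finset.sum_le_sum fun m _ => h3 m).trans ?_
  rw [Finset.sum_add_distrib, Finset.sum_const, ← Finset.sum_filter, Finset.sum_const]
  simp only [nsmul_eq_mul, Finset.card_univ, Fintype.card_fin]
  linarith

open Classical in
theorem base_far_compare (hw : IsWords w) (hO : OrbitData w c e g u lev bad) (hb : 1 ≤ b0)
    (hK1 : 1 ≤ K) (hK : K ≤ rb b0) (h : Fin q → ℝ) (h0 : ∀ m, 0 ≤ h m) (h1 : ∀ m, h m ≤ 1) :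
    (1 / (rb b0 : ℝ)) * ∑ k ∈ Finset.Icc 1 (rb b0),
      (flux h (far w lev b0 k true) (k * Mb b0) + flux h (far w lev b0 k false) (k * Mb b0)) ≤
    (1 / (K : ℝ)) * ∑ k ∈ Finset.Icc 1 K,
      (flux h (far w lev b0 k true) (k * Mb b0) + flux h (far w lev b0 k false) (k * Mb b0)) +
      4 / K * q +
      4 * (((univ : Finset (Fin q)).filter (fun m : Fin q => ((m : ℕ) : ℤ) ∈ bad b0)).card : ℝ) := by
  rw [far_flux_sum, far_flux_sum]
  have hK0 : (0 : ℝ) < K := by exact_mod_cast hK1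
  have hr0 : (0 : ℝ) < rb b0 := by exact_mod_cast rb_pos b0
  have hKr : (K : ℝ) ≤ rb b0 := by exact_mod_cast hK
  have key := sum_bad (q := q) (fun m : Fin q => ((m : ℕ) : ℤ) ∈ bad b0)
    (fun m => h m * ((1 / (rb b0 : ℝ)) * ∑ k ∈ Finset.Icc 1 (rb b0), farPhi w lev b0 k ((m : ℕ) : ℤ))
      - h m * ((1 / (K : ℝ)) * ∑ k ∈ Finset.Icc 1 K, farPhi w lev b0 k ((m : ℕ) : ℤ)))
    (4 / K) 4 (by positivity) ?_ ?_
  · rw [Finset.sum_sub_distrib] at key
    linarith
  · intro m hm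
    have e1 := (farPhi_avg hw hO hb hm (rb_pos b0) le_rfl).1
    have e2 := (farPhi_avg hw hO hb hm hK1 hK).1
    rw [abs_le] at e1 e2
    have e3 : 2 / (rb b0 : ℝ) ≤ 2 / K := div_le_div_of_nonneg_left (by norm_num) hK0 hKr
    rw [← mul_sub]
    have e4 : (1 / (rb b0 : ℝ)) * ∑ k ∈ Finset.Icc 1 (rb b0), farPhi w lev b0 k ((m : ℕ) : ℤ) -
      (1 / (K : ℝ)) * ∑ k ∈ Finset.Icc 1 K, farPhi w lev b0 k ((m : ℕ) : ℤ) ≤ 4 / K := by
      have : (4 : ℝ) / K = 2 / K + 2 / K := by ring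
      rw [this]
      linarith [e1.1, e1.2, e2.1, e2.2]
    calc _ ≤ h m * (4 / K) := mul_le_mul_of_nonneg_left e4 (h0 m)
      _ ≤ 1 * (4 / K) := mul_le_mul_of_nonneg_right (h1 m) (by positivity)
      _ = 4 / K := one_mul _
  · intro m _
    have e1 := farPhi_avg_abs (w := w) (lev := lev) (b0 := b0) (K := rb b0) ((m : ℕ) : ℤ)
    have e2 := farPhi_avg_abs (w := w) (lev := lev) (b0 := b0) (K := K) ((m : ℕ) : ℤ)
    rw [abs_le] at e1 e2
    rw [← mul_sub]
    have e4 : (1 / (rb b0 : ℝ)) * ∑ k ∈ Finset.Icc 1 (rb b0), farPhi w lev b0 k ((m : ℕ) : ℤ) -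
      (1 / (K : ℝ)) * ∑ k ∈ Finset.Icc 1 K, farPhi w lev b0 k ((m : ℕ) : ℤ) ≤ 4 := by
      linarith [e1.1, e1.2, e2.1, e2.2]
    calc _ ≤ h m * 4 := mul_le_mul_of_nonneg_left e4 (h0 m)
      _ ≤ 1 * 4 := mul_le_mul_of_nonneg_right (h1 m) (by positivity)
      _ = 4 := one_mul _

/-- the pointwise base flux function -/
noncomputable def basePsi (w : ℕ → ℕ → Bool) (lev : ℕ → ℤ → ℕ) (b0 l D K : ℕ) (m : ℤ) : ℝ :=
  ∑ j : BIdx D K, bcoef D K j *
    (ind (bset w lev b0 l D K j) m - ind (bset w lev b0 l D K j) (m - (bshift b0 l D K j : ℤ)))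

theorem base_flux_sum (h : Fin q → ℝ) :
    ∑ j : BIdx D K, bcoef D K j * flux h (bset w lev b0 l D K j) (bshift b0 l D K j) =
      ∑ m : Fin q, h m * basePsi w lev b0 l D K ((m : ℕ) : ℤ) := by
  unfold flux basePsi
  simp only [Finset.mul_sum]
  rw [Finset.sum_comm]
  refine Finset.sum_congr rfl fun m _ => Finset.sum_congr rfl fun j _ => ?_
  ring

theorem basePsi_eq (m : ℤ) : basePsi w lev b0 l D K m =
    ∑ i : Fin (D - 1), (ind (near lev b0 l D (i + 1)) m -
      ind (near lev b0 l D (i + 1)) (m - (((i + 1) * l : ℕ) : ℤ))) +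
    (1 / (K : ℝ)) * ∑ k ∈ Finset.Icc 1 K, farPhi w lev b0 k m := by
  unfold basePsi
  rw [sum_bidx]
  congr 1
  · refine Finset.sum_congr rfl fun i _ => ?_
    simp only [bcoef, bset, bshift, one_mul]
  · rw [sum_Icc_eq_fin K (fun k => farPhi w lev b0 k m), Finset.mul_sum]
    refine Finset.sum_congr rfl fun k _ => ?_
    simp only [bcoef, bset, bshift, farPhi]
    ring

/-- error of the base flux function, good positions -/
theorem basePsi_good (hw : IsWords w) (hO : OrbitData w c e g u lev bad) (hb : 1 ≤ b0)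
    (hl : 0 < l) (hlD : D * l = Mb b0) (hK1 : 1 ≤ K) (hK : K ≤ rb b0) {m : ℤ}
    (hm : m ∉ bad b0) :
    |basePsi w lev b0 l D K m - (2 * gfun w lev b0 l K m - (D + 1))| ≤ 2 / K := by
  have h1 := (farPhi_avg hw hO hb hm hK1 hK).2
  have h2 : Mb b0 ≤ lev b0 m := by
    have := level_big hO hb hm (rb_one_le b0)
    omega
  rw [basePsi_eq, near_phi (steps hO hb) hl hlD m h2]
  unfold gfun
  convert h1 using 2
  ring

theorem basePsi_abs (hD : 1 ≤ D) (m : ℤ) : |basePsi w lev b0 l D K m| ≤ D + 1 := by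
  rw [basePsi_eq]
  have h1 : |∑ i : Fin (D - 1), (ind (near lev b0 l D (i + 1)) m -
      ind (near lev b0 l D (i + 1)) (m - (((i + 1) * l : ℕ) : ℤ)))| ≤ ((D - 1 : ℕ) : ℝ) := by
    refine (Finset.abs_sum_le_sum_abs _ _).trans ?_
    have : ∀ i ∈ (Finset.univ : Finset (Fin (D - 1))), |(ind (near lev b0 l D (i + 1)) m -
      ind (near lev b0 l D (i + 1)) (m - (((i + 1) * l : ℕ) : ℤ)))| ≤ (1 : ℝ) := by
      intro i _
      have a1 := ind_nonneg (near lev b0 l D (i + 1)) m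
      have a2 := ind_le_one (near lev b0 l D (i + 1)) m
      have a3 := ind_nonneg (near lev b0 l D (i + 1)) (m - (((i + 1) * l : ℕ) : ℤ))
      have a4 := ind_le_one (near lev b0 l D (i + 1)) (m - (((i + 1) * l : ℕ) : ℤ))
      rw [abs_le]
      constructor <;> linarith
    refine (Finset.sum_le_sum this).trans ?_
    simp
  have h2 := farPhi_avg_abs (w := w) (lev := lev) (b0 := b0) (K := K) m
  have h3 : ((D - 1 : ℕ) : ℝ) = D - 1 := by
    rw [Nat.cast_sub hD, Nat.cast_one]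
  rw [h3] at h1
  refine (abs_add_le _ _).trans ?_
  linarith

theorem basePsi_bad (hlD : D * l = Mb b0) (m : ℤ) :
    |basePsi w lev b0 l D K m - (2 * gfun w lev b0 l K m - (D + 1))| ≤ 2 * (D + 1) := by
  have h1 := basePsi_abs (w := w) (lev := lev) (b0 := b0) (l := l) (K := K) (D_pos hlD) m
  have h2 := gfun_nonneg (w := w) (lev := lev) (b0 := b0) (l := l) (K := K) m
  have h3 := gfun_le (w := w) (lev := lev) (K := K) hlD m
  rw [abs_le] at h1 ⊢
  constructor <;> linarith [h1.1, h1.2]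

theorem bcoef_nonneg (j : BIdx D K) : 0 ≤ bcoef D K j := by
  rcases j with i | ks
  · simp [bcoef]
  · simp only [bcoef]
    positivity

theorem bcoef_sum (hD : 1 ≤ D) (hK1 : 1 ≤ K) : ∑ j : BIdx D K, bcoef D K j = D + 1 := by
  have hK0 : (0 : ℝ) < K := by exact_mod_cast hK1
  rw [sum_bidx]
  simp only [bcoef, Finset.sum_const, Finset.card_univ, Fintype.card_fin, nsmul_eq_mul, mul_one]
  rw [Nat.cast_sub hD, Nat.cast_one]
  field_simp
  ring

/-- base flux bound (`h` = diagonal of the minimiser, `hE` = diagonal of `E`) -/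
theorem base_flux_le (hw : IsWords w) (hO : OrbitData w c e g u lev bad)
    (hC : OrbitCounts q N B J lev bad)
    (hb : 1 ≤ b0) (hB : B ≤ b0) (hJ : b0 ≤ J) (hN : 2 * (Pib b0 * Mb b0) ≤ N)
    (hl : 0 < l) (hlD : D * l = Mb b0) (hK1 : 1 ≤ K) (hK : K ≤ rb b0)
    (h hE : Fin q → ℝ) (h0 : ∀ m, 0 ≤ h m) (h1 : ∀ m, h m ≤ 1) (hE0 : ∀ m, 0 ≤ hE m)
    (hE1 : ∀ m, hE m ≤ 1) (htr : ∑ m, h m = ∑ m, hE m) (θ0 ηf : ℝ)
    (hg : ∑ m : Fin q, h m * gfun w lev b0 l K ((m : ℕ) : ℤ) ≤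
      ∑ m : Fin q, hE m * gfun w lev b0 l K ((m : ℕ) : ℤ) + θ0 * q)
    (hf : ∀ j : BIdx D K, flux hE (bset w lev b0 l D K j) (bshift b0 l D K j) ≤ ηf * q) :
    ∑ j : BIdx D K, bcoef D K j * flux h (bset w lev b0 l D K j) (bshift b0 l D K j) ≤
      (2 * θ0 + 4 / K + (D + 1) * ηf + 4 * (D + 1) * zb b0) * q := by
  classical
  have hK0 : (0 : ℝ) < K := by exact_mod_cast hK1
  have hq0 : (0 : ℝ) ≤ q := by positivity
  have hD0 : (0 : ℝ) ≤ D := by positivity
  have hz := zb_pos b0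
  -- the flux of `hE`
  have hfE : ∑ m : Fin q, hE m * basePsi w lev b0 l D K ((m : ℕ) : ℤ) ≤ (D + 1) * ηf * q := by
    rw [← base_flux_sum]
    calc ∑ j : BIdx D K, bcoef D K j * flux hE (bset w lev b0 l D K j) (bshift b0 l D K j)
        ≤ ∑ j : BIdx D K, bcoef D K j * (ηf * q) :=
          Finset.sum_le_sum fun j _ => mul_le_mul_of_nonneg_left (hf j) (bcoef_nonneg j)
      _ = (D + 1) * ηf * q := by
          rw [← Finset.sum_mul, bcoef_sum (D_pos hlD) hK1]
          ring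
  rw [base_flux_sum]
  -- pointwise error
  have key := sum_bad (q := q) (fun m : Fin q => ((m : ℕ) : ℤ) ∈ bad b0)
    (fun m => (h m - hE m) * (basePsi w lev b0 l D K ((m : ℕ) : ℤ) -
      (2 * gfun w lev b0 l K ((m : ℕ) : ℤ) - (D + 1))))
    (2 / K) (2 * (D + 1)) (by positivity) ?_ ?_
  · have hcb := count_bad' hC hB hJ
    have e1 : ∑ m : Fin q, (h m - hE m) * (basePsi w lev b0 l D K ((m : ℕ) : ℤ) -
      (2 * gfun w lev b0 l K ((m : ℕ) : ℤ) - (D + 1))) =
      ∑ m : Fin q, h m * basePsi w lev b0 l D K ((m : ℕ) : ℤ) -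
      ∑ m : Fin q, hE m * basePsi w lev b0 l D K ((m : ℕ) : ℤ) -
      2 * (∑ m : Fin q, h m * gfun w lev b0 l K ((m : ℕ) : ℤ)) +
      2 * (∑ m : Fin q, hE m * gfun w lev b0 l K ((m : ℕ) : ℤ)) +
      (D + 1) * (∑ m, h m - ∑ m, hE m) := by
      simp only [Finset.mul_sum, ← Finset.sum_sub_distrib, ← Finset.sum_add_distrib]
      refine Finset.sum_congr rfl fun m _ => ?_
      ring
    rw [e1, htr, sub_self, mul_zero, add_zero] at key
    have e2 : 2 * ((D : ℝ) + 1) *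
        (((univ : Finset (Fin q)).filter (fun m : Fin q => ((m : ℕ) : ℤ) ∈ bad b0)).card : ℝ) ≤
        2 * ((D : ℝ) + 1) * (zb b0 * q) := mul_le_mul_of_nonneg_left hcb (by positivity)
    have e3 : 0 ≤ 2 * ((D : ℝ) + 1) * (zb b0 * q) := by positivity
    have e4 : 0 ≤ 2 / (K : ℝ) * q := by positivity
    have e5 : (4 : ℝ) / K = 2 / K + 2 / K := by ring
    rw [e5]
    nlinarith
  · intro m hm
    have a1 := basePsi_good (l := l) (D := D) hw hO hb hl hlD hK1 hK hm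
    have a2 : |h m - hE m| ≤ 1 := by
      rw [abs_le]
      constructor <;> linarith [h0 m, h1 m, hE0 m, hE1 m]
    calc _ ≤ |(h m - hE m) * (basePsi w lev b0 l D K ((m : ℕ) : ℤ) -
      (2 * gfun w lev b0 l K ((m : ℕ) : ℤ) - (D + 1)))| := le_abs_self _
      _ = |h m - hE m| * |basePsi w lev b0 l D K ((m : ℕ) : ℤ) -
      (2 * gfun w lev b0 l K ((m : ℕ) : ℤ) - (D + 1))| := abs_mul _ _
      _ ≤ 1 * (2 / K) := mul_le_mul a2 a1 (abs_nonneg _) (by norm_num)
      _ = 2 / K := one_mul _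
  · intro m _
    have a1 := basePsi_bad (w := w) (lev := lev) (K := K) hlD ((m : ℕ) : ℤ)
    have a2 : |h m - hE m| ≤ 1 := by
      rw [abs_le]
      constructor <;> linarith [h0 m, h1 m, hE0 m, hE1 m]
    calc _ ≤ |(h m - hE m) * (basePsi w lev b0 l D K ((m : ℕ) : ℤ) -
      (2 * gfun w lev b0 l K ((m : ℕ) : ℤ) - (D + 1)))| := le_abs_self _
      _ = |h m - hE m| * |basePsi w lev b0 l D K ((m : ℕ) : ℤ) -
      (2 * gfun w lev b0 l K ((m : ℕ) : ℤ) - (D + 1))| := abs_mul _ _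
      _ ≤ 1 * (2 * (D + 1)) := mul_le_mul a2 a1 (abs_nonneg _) (by norm_num)
      _ = 2 * (D + 1) := one_mul _

end Crest.Agent.R113.Orb
end

-- ▼ part R113/FD/OffFarB
section

/-!
Row 113, S0149, task T10 (P3): far flux of a block against `Bes.farPhi`. (helper292)
-/

set_option autoImplicit false

namespace Crest.Agent.R113.Orb

open Finset

variable {w : ℕ → ℕ → Bool} {c e : ℕ → ℝ} {g : ℕ → ℕ} {u : ℤ → ℝ} {lev : ℕ → ℤ → ℕ}
  {bad : ℕ → Set ℤ} {q N B J b0 l D K : ℕ}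

theorem farPhi_eq_good (hO : OrbitData w c e g u lev bad) {b k : ℕ} (hb : 1 ≤ b) (hk : k ≤ rb b)
    {m : ℤ} (hm : m ∉ bad b) :
    farPhi w lev b k m = 2 * bv (w b (cell lev b m)) - bv (w b (cell lev b (m + k * Mb b))) -
      bv (w b (cell lev b (m - k * Mb b))) := by
  have hM := Mb_pos b
  have h1 := level_big hO hb hm hk
  have h2 : k * Mb b ≤ 2 * Pib b * Mb b := by
    have := rb_le_Pib b
    exact Nat.mul_le_mul_right _ (by omega)
  have h3 := hO.run b hb m hm (k * Mb b) h2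
  have h4 := lev_sub (steps hO hb) m (k * Mb b) h1
  have h5 : cell lev b (m + k * Mb b) = cell lev b m + k := by
    unfold cell
    have : m + (k : ℤ) * (Mb b : ℤ) = m + ((k * Mb b : ℕ) : ℤ) := by push_cast; ring
    rw [this, h3]
    exact Nat.add_mul_div_right _ _ hM
  have h6 : cell lev b (m - k * Mb b) = cell lev b m - k := by
    unfold cell
    have : m - (k : ℤ) * (Mb b : ℤ) = m - ((k * Mb b : ℕ) : ℤ) := by push_cast; ring
    rw [this, h4, mul_comm k, Nat.sub_mul_div]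
  rw [h5, h6]
  unfold farPhi
  exact far_phi (steps hO hb) k m h1

open Classical in
theorem far_flux_le' (hO : OrbitData w c e g u lev bad) {b : ℕ} (hb : 1 ≤ b) (h : Fin q → ℝ)
    (h0 : ∀ m, 0 ≤ h m) (h1 : ∀ m, h m ≤ 1) :
    (1 / (rb b : ℝ)) * ∑ k ∈ Finset.Icc 1 (rb b), (flux h (far w lev b k true) (k * Mb b) +
      flux h (far w lev b k false) (k * Mb b)) ≤
      (∑ m : Fin q, h m * Bes.farPhi (rb b) (Mb b) (fun x => bv (w b (cell lev b x)))
        ((m : ℕ) : ℤ)) +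
      4 * (((univ : Finset (Fin q)).filter (fun m : Fin q => ((m : ℕ) : ℤ) ∈ bad b)).card : ℝ) := by
  rw [far_flux_sum]
  have key := sum_bad (q := q) (fun m : Fin q => ((m : ℕ) : ℤ) ∈ bad b)
    (fun m => h m * ((1 / (rb b : ℝ)) * ∑ k ∈ Finset.Icc 1 (rb b), farPhi w lev b k ((m : ℕ) : ℤ))
      - h m * Bes.farPhi (rb b) (Mb b) (fun x => bv (w b (cell lev b x))) ((m : ℕ) : ℤ))
    0 4 le_rfl ?_ ?_
  · rw [Finset.sum_sub_distrib] at key
    linarith
  · intro m hm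
    have : (1 / (rb b : ℝ)) * ∑ k ∈ Finset.Icc 1 (rb b), farPhi w lev b k ((m : ℕ) : ℤ) =
        Bes.farPhi (rb b) (Mb b) (fun x => bv (w b (cell lev b x))) ((m : ℕ) : ℤ) := by
      unfold Bes.farPhi
      congr 1
      refine Finset.sum_congr rfl fun k hk => ?_
      exact farPhi_eq_good hO hb (Finset.mem_Icc.1 hk).2 hm
    rw [this, sub_self]
  · intro m _
    have e1 := farPhi_avg_abs (w := w) (lev := lev) (b0 := b) (K := rb b) ((m : ℕ) : ℤ)
    have e2 := Bes.farPhi_abs_le (rb b) (Mb b) (fun x => bv (w b (cell lev b x)))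
      (fun _ => bv_nonneg _) (fun _ => bv_le_one _) ((m : ℕ) : ℤ)
    rw [abs_le] at e1 e2
    rw [← mul_sub]
    have e4 : (1 / (rb b : ℝ)) * ∑ k ∈ Finset.Icc 1 (rb b), farPhi w lev b k ((m : ℕ) : ℤ) -
      Bes.farPhi (rb b) (Mb b) (fun x => bv (w b (cell lev b x))) ((m : ℕ) : ℤ) ≤ 4 := by
      linarith [e1.1, e1.2, e2.1, e2.2]
    calc _ ≤ h m * 4 := mul_le_mul_of_nonneg_left e4 (h0 m)
      _ ≤ 1 * 4 := mul_le_mul_of_nonneg_right (h1 m) (by positivity)
      _ = 4 := one_mul _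

end Crest.Agent.R113.Orb
end

-- ▼ part R113/FD/Off
section

/-!
Row 113, S0149, task T10: the Off bound. (helper292)
-/

set_option autoImplicit false

namespace Crest.Agent.R113.Orb

open Finset

variable {w : ℕ → ℕ → Bool} {c e : ℕ → ℝ} {g : ℕ → ℕ} {u : ℤ → ℝ} {lev : ℕ → ℤ → ℕ}
  {bad : ℕ → Set ℤ} {q N B J b0 l D K : ℕ}

/-- far flux of a block, averaged -/
noncomputable def farFlux (w : ℕ → ℕ → Bool) (lev : ℕ → ℤ → ℕ) {q : ℕ} (h : Fin q → ℝ)
    (b r : ℕ) : ℝ :=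
  ∑ k ∈ Finset.Icc 1 r, (flux h (far w lev b k true) (k * Mb b) +
    flux h (far w lev b k false) (k * Mb b))

open Classical in
/-- the pairs in incongruent cells of block `b` -/
theorem blk_le (hw : IsWords w) {b : ℕ} (hb : 1 ≤ b) {μ : Fin q → Fin q → ℝ} {h : Fin q → ℝ}
    (hμ : Mass μ h) {E : ℝ}
    (hfar : ∀ k, 1 ≤ k → k ≤ rb b → ∀ s,
      cutM μ (far w lev b k s) ≤ flux h (far w lev b k s) (k * Mb b) + E) :
    ∑ m : Fin q, ∑ m' : Fin q, (if ¬ cell lev b ((m : ℕ) : ℤ) ≡ cell lev b ((m' : ℕ) : ℤ)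
      [MOD Pib b] then μ m m' else 0) ≤
      128 * ((1 / (rb b : ℝ)) * farFlux w lev h b (rb b) + 2 * E) := by
  have hr : (0 : ℝ) < rb b := by exact_mod_cast rb_pos b
  have h1 := sep_mass (w := w) (lev := lev) hw hb hμ
    (fun m m' => ¬ cell lev b ((m : ℕ) : ℤ) ≡ cell lev b ((m' : ℕ) : ℤ) [MOD Pib b])
    (fun _ _ h => h)
  have h2 : ∑ k ∈ Finset.Icc 1 (rb b), (cutM μ (far w lev b k true) + cutM μ (far w lev b k false))
      ≤ farFlux w lev h b (rb b) + rb b * (2 * E) := by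
    unfold farFlux
    calc _ ≤ ∑ k ∈ Finset.Icc 1 (rb b), ((flux h (far w lev b k true) (k * Mb b) +
        flux h (far w lev b k false) (k * Mb b)) + 2 * E) := by
          refine Finset.sum_le_sum fun k hk => ?_
          have hk' := Finset.mem_Icc.1 hk
          have a1 := hfar k hk'.1 hk'.2 true
          have a2 := hfar k hk'.1 hk'.2 false
          linarith
      _ = _ := by
          rw [Finset.sum_add_distrib, Finset.sum_const, Nat.card_Icc, nsmul_eq_mul]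
          simp
  have h3 : (rb b : ℝ) * (∑ m : Fin q, ∑ m' : Fin q, (if ¬ cell lev b ((m : ℕ) : ℤ) ≡
      cell lev b ((m' : ℕ) : ℤ) [MOD Pib b] then μ m m' else 0)) ≤
      rb b * (128 * ((1 / (rb b : ℝ)) * farFlux w lev h b (rb b) + 2 * E)) := by
    refine h1.trans ?_
    have : (rb b : ℝ) * (128 * ((1 / (rb b : ℝ)) * farFlux w lev h b (rb b) + 2 * E)) =
        128 * (farFlux w lev h b (rb b) + rb b * (2 * E)) := by
      field_simp
    rw [this]
    linarith
  exact le_of_mul_le_mul_left h3 hr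

open Classical in
/-- one far class -/
theorem class_le (hw : IsWords w) (hO : OrbitData w c e g u lev bad)
    (hC : OrbitCounts q N B J lev bad) {b : ℕ} (hb : 1 ≤ b) (hB : B ≤ b) (hJ : b ≤ J)
    {μ : Fin q → Fin q → ℝ} {h : Fin q → ℝ}
    (hμ : Mass μ h) {E : ℝ}
    (hfar : ∀ k, 1 ≤ k → k ≤ rb b → ∀ s,
      cutM μ (far w lev b k s) ≤ flux h (far w lev b k s) (k * Mb b) + E) {Φ : ℝ}
    (hΦ : ∑ m : Fin q, h m * Bes.farPhi (rb b) (Mb b) (fun x => bv (w b (cell lev b x)))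
      ((m : ℕ) : ℤ) ≤ Φ) :
    ∑ m : Fin q, ∑ m' : Fin q, (if ¬ cell lev b ((m : ℕ) : ℤ) ≡ cell lev b ((m' : ℕ) : ℤ)
      [MOD Pib b] then μ m m' else 0) ≤ 128 * (Φ + 4 * zb b * q + 2 * E) := by
  have h1 := blk_le (lev := lev) hw hb hμ hfar
  have h2 := far_flux_le' (w := w) hO hb h hμ.h_nonneg hμ.le_one
  have h3 := count_bad' hC hB hJ
  refine h1.trans ?_
  have h4 : (1 / (rb b : ℝ)) * farFlux w lev h b (rb b) ≤ Φ + 4 * zb b * q := by
    refine h2.trans ?_
    linarith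
  linarith

theorem pow_lin (b0 i : ℕ) (hb : 1 ≤ b0) : b0 + i ≤ 4 ^ i * b0 := by
  induction i with
  | zero => simp
  | succ i ih =>
    have : 4 ^ (i + 1) * b0 = 4 * (4 ^ i * b0) := by ring
    omega

/-- classification of pairs in different windows -/
theorem classify (hO : OrbitData w c e g u lev bad) (hb : 1 ≤ b0) (hlD : D * l = Mb b0)
    (β : ℕ → ℕ) {J' : ℕ} (hβ1 : ∀ i < J', 4 ^ i * b0 + 1 ≤ β i)
    (hβ2 : ∀ i < J', β i ≤ 4 ^ (i + 1) * b0) {m m' : ℤ}
    (hw : win lev b0 l m ≠ win lev b0 l m') :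
    pw lev b0 l m ≠ pw lev b0 l m' ∨
    ((m ∈ bad b0 ∨ m' ∈ bad b0) ∨ ¬ cell lev b0 m ≡ cell lev b0 m' [MOD Pib b0]) ∨
    (∃ i < J', (m ∈ bad (β i) ∨ m' ∈ bad (β i)) ∨
      ¬ cell lev (β i) m ≡ cell lev (β i) m' [MOD Pib (β i)]) ∨
    2 * (Mb (4 ^ (J' + 1) * b0) : ℤ) < |m - m'| := by
  rcases le_total m m' with h | h
  · rcases classify_aux hO hb hlD β hβ1 hβ2 h hw with h1 | (h1 | h1) | ⟨i, hi, h1 | h1⟩ | h1
    · exact Or.inl h1
    · exact Or.inr (Or.inl (Or.inl (Or.inl h1)))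
    · exact Or.inr (Or.inl (Or.inr h1))
    · exact Or.inr (Or.inr (Or.inl ⟨i, hi, Or.inl (Or.inl h1)⟩))
    · exact Or.inr (Or.inr (Or.inl ⟨i, hi, Or.inr h1⟩))
    · refine Or.inr (Or.inr (Or.inr ?_))
      rw [abs_sub_comm]
      exact lt_of_lt_of_le h1 (le_abs_self _)
  · rcases classify_aux hO hb hlD β hβ1 hβ2 h hw.symm with h1 | (h1 | h1) | ⟨i, hi, h1 | h1⟩ | h1
    · exact Or.inl h1.symm
    · exact Or.inr (Or.inl (Or.inl (Or.inr h1)))
    · exact Or.inr (Or.inl (Or.inr fun h' => h1 h'.symm))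
    · exact Or.inr (Or.inr (Or.inl ⟨i, hi, Or.inl (Or.inr h1)⟩))
    · exact Or.inr (Or.inr (Or.inl ⟨i, hi, Or.inr fun h' => h1 h'.symm⟩))
    · exact Or.inr (Or.inr (Or.inr (lt_of_lt_of_le h1 (le_abs_self _))))

set_option maxHeartbeats 1000000 in
open Classical in
/-- the Off bound; blocks up to `4^J' b0` are used -/
theorem off_le (hw : IsWords w) (hO : OrbitData w c e g u lev bad)
    (hC : OrbitCounts q N B J lev bad)
    {J' : ℕ} (hb : 1 ≤ b0) (hB : B ≤ b0) (hJ : 4 ^ J' * b0 ≤ J)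
    (hN : 2 * (Pib (4 ^ J' * b0) * Mb (4 ^ J' * b0)) ≤ N)
    (hq : 4 ^ (4 ^ J' * b0) * (Pib (4 ^ J' * b0) * Mb (4 ^ J' * b0)) ≤ q)
    (hl : 0 < l) (hlD : D * l = Mb b0) (hK1 : 1 ≤ K) (hK : K ≤ rb b0)
    (μ : Fin q → Fin q → ℝ) (h : Fin q → ℝ) (hμ : Mass μ h) (ωb tl E0 : ℝ) (hE0 : 0 ≤ E0)
    (hnear : ∀ j : BIdx D K, cutM μ (bset w lev b0 l D K j) ≤
      flux h (bset w lev b0 l D K j) (bshift b0 l D K j) + E0 * zb b0 * q)
    (hfar : ∀ b, b0 ≤ b → b ≤ 4 ^ J' * b0 → ∀ k, 1 ≤ k → k ≤ rb b → ∀ s,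
      cutM μ (far w lev b k s) ≤ flux h (far w lev b k s) (k * Mb b) + E0 * zb b * q)
    (hbase : ∑ j : BIdx D K, bcoef D K j * flux h (bset w lev b0 l D K j) (bshift b0 l D K j)
      ≤ ωb * q)
    (htail : ∑ m : Fin q, ∑ m' : Fin q,
      (if 2 * (Mb (4 ^ (J' + 1) * b0) : ℤ) < |((m : ℕ) : ℤ) - ((m' : ℕ) : ℤ)| then μ m m' else 0) ≤
        tl * q) :
    ∑ m : Fin q, ∑ m' : Fin q,
      (if win lev b0 l ((m : ℕ) : ℤ) = win lev b0 l ((m' : ℕ) : ℤ) then 0 else μ m m') ≤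
      (130 * ωb + 512 / K + 400 / Real.sqrt b0 + (130 * (D + 1) * E0 + 256 * E0 + 1100) *
        zb b0 + tl) * q := by
  have hq0 : (0 : ℝ) ≤ q := by positivity
  have hz := zb_pos b0
  have hKr : (0 : ℝ) < K := by exact_mod_cast hK1
  have hb0J : b0 ≤ 4 ^ J' * b0 := Nat.le_mul_of_pos_left _ (by positivity)
  have hJ0 : b0 ≤ J := hb0J.trans hJ
  have hmu := hμ.nonneg
  have cut_nonneg : ∀ A : Set ℤ, 0 ≤ cutM μ A := by
    intro A
    unfold cutM
    refine Finset.sum_nonneg fun m _ => Finset.sum_nonneg fun m' _ => ?_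
    split_ifs
    · exact hmu _ _
    · exact le_rfl
  -- split of the base flux
  set FK := farFlux w lev h b0 K with hFK
  set FN := ∑ i : Fin (D - 1), flux h (near lev b0 l D ((i : ℕ) + 1)) (((i : ℕ) + 1) * l) with hFN
  have hsplit : FN + (1 / (K : ℝ)) * FK ≤ ωb * q := by
    refine le_trans (le_of_eq ?_) hbase
    rw [sum_bidx, hFN, hFK]
    congr 1
    · refine Finset.sum_congr rfl fun i _ => ?_
      simp [bcoef, bset, bshift]
    · unfold farFlux
      rw [sum_Icc_eq_fin K (fun k => flux h (far w lev b0 k true) (k * Mb b0) +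
        flux h (far w lev b0 k false) (k * Mb b0)), Finset.mul_sum]
      refine Finset.sum_congr rfl fun k _ => ?_
      simp only [bcoef, bset, bshift]
      ring
  have hE : 0 ≤ E0 * zb b0 * q := by positivity
  -- near fluxes are bounded below
  have hFNlow : -((D : ℝ) - 1) * (E0 * zb b0 * q) ≤ FN := by
    have h1 : ∑ _i : Fin (D - 1), -(E0 * zb b0 * q) ≤ FN := by
      rw [hFN]
      refine Finset.sum_le_sum fun i _ => ?_
      have := hnear (Sum.inl i)
      have h2 := cut_nonneg (bset w lev b0 l D K (Sum.inl i))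
      simp only [bset, bshift] at this h2
      linarith
    rw [Finset.sum_const, Finset.card_univ, Fintype.card_fin, nsmul_eq_mul,
      Nat.cast_sub (D_pos hlD)] at h1
    push_cast at h1
    linarith
  have hFKlow : -(2 : ℝ) * (E0 * zb b0 * q) ≤ (1 / (K : ℝ)) * FK := by
    have h1 : ∑ _k ∈ Finset.Icc 1 K, -(2 * (E0 * zb b0 * q)) ≤ FK := by
      rw [hFK]
      unfold farFlux
      refine Finset.sum_le_sum fun k hk => ?_
      have hk' := Finset.mem_Icc.1 hk
      have a1 := hfar b0 le_rfl hb0J k hk'.1 (hk'.2.trans hK) true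
      have a2 := hfar b0 le_rfl hb0J k hk'.1 (hk'.2.trans hK) false
      have c1 := cut_nonneg (far w lev b0 k true)
      have c2 := cut_nonneg (far w lev b0 k false)
      linarith
    rw [Finset.sum_const, Nat.card_Icc, nsmul_eq_mul, Nat.add_sub_cancel] at h1
    rw [one_div, le_inv_mul_iff₀ hKr]
    linarith
  -- (near)
  have hNear : ∑ m : Fin q, ∑ m' : Fin q,
      (if pw lev b0 l ((m : ℕ) : ℤ) ≠ pw lev b0 l ((m' : ℕ) : ℤ) then μ m m' else 0) ≤
      2 * (ωb * q + (D + 1) * (E0 * zb b0 * q)) := by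
    refine (near_mass hμ hlD).trans ?_
    have h1 : ∑ i : Fin (D - 1), cutM μ (near lev b0 l D ((i : ℕ) + 1)) ≤
        FN + (D - 1) * (E0 * zb b0 * q) := by
      have h2 : ∑ i : Fin (D - 1), cutM μ (near lev b0 l D ((i : ℕ) + 1)) ≤
          ∑ i : Fin (D - 1), (flux h (near lev b0 l D ((i : ℕ) + 1)) (((i : ℕ) + 1) * l) +
            E0 * zb b0 * q) := Finset.sum_le_sum fun i _ => hnear (Sum.inl i)
      refine h2.trans (le_of_eq ?_)
      rw [Finset.sum_add_distrib, Finset.sum_const, Finset.card_univ, Fintype.card_fin,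
        nsmul_eq_mul, Nat.cast_sub (D_pos hlD), hFN]
      push_cast
      ring
    linarith
  -- (base far)
  have hBase : ∑ m : Fin q, ∑ m' : Fin q, (if ¬ cell lev b0 ((m : ℕ) : ℤ) ≡
      cell lev b0 ((m' : ℕ) : ℤ) [MOD Pib b0] then μ m m' else 0) ≤
      128 * (ωb * q + (D + 1) * (E0 * zb b0 * q) + 4 / K * q + 4 * zb b0 * q) := by
    refine (blk_le (lev := lev) hw hb hμ (hfar b0 le_rfl hb0J)).trans ?_
    have h1 := base_far_compare (K := K) hw hO hb hK1 hK h hμ.h_nonneg hμ.le_one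
    have h2 := count_bad' hC hB hJ0
    have h3 : (1 / (rb b0 : ℝ)) * farFlux w lev h b0 (rb b0) ≤
        (1 / (K : ℝ)) * FK + 4 / K * q + 4 * (zb b0 * q) := by
      refine h1.trans ?_
      rw [hFK]
      unfold farFlux
      linarith
    linarith
  have hBad0 : ∑ m : Fin q, ∑ m' : Fin q, (if ((m : ℕ) : ℤ) ∈ bad b0 ∨ ((m' : ℕ) : ℤ) ∈ bad b0
      then μ m m' else 0) ≤ 2 * (zb b0 * q) := by
    refine (mass_either hμ (fun m : Fin q => ((m : ℕ) : ℤ) ∈ bad b0)).trans ?_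
    have := count_bad' hC hB hJ0
    linarith
  -- the classes
  have hcls : ∀ i : ℕ, ∃ β : ℕ, i < J' → (4 ^ i * b0 + 1 ≤ β ∧ β ≤ 4 ^ (i + 1) * b0 ∧
      ∑ m : Fin q, h m * Bes.farPhi (rb β) (Mb β) (fun x => bv (w β (cell lev β x)))
        ((m : ℕ) : ℤ) ≤ q * Real.sqrt (5 / (3 * (4 ^ i * b0 : ℕ)))) := by
    intro i
    by_cases hi : i < J'
    · have hpow : 4 * (4 ^ i * b0) ≤ 4 ^ J' * b0 := by
        have : 4 ^ (i + 1) ≤ 4 ^ J' := Nat.pow_le_pow_right (by norm_num) hi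
        calc 4 * (4 ^ i * b0) = 4 ^ (i + 1) * b0 := by ring
          _ ≤ _ := Nat.mul_le_mul_right _ this
      have hb0i : b0 ≤ 4 ^ i * b0 := Nat.le_mul_of_pos_left _ (by positivity)
      have hmono : Pib (4 * (4 ^ i * b0)) * Mb (4 * (4 ^ i * b0)) ≤
          Pib (4 ^ J' * b0) * Mb (4 ^ J' * b0) := by
        apply Nat.mul_le_mul
        · unfold Pib
          apply Nat.pow_le_pow_right (by norm_num)
          have := Nat.pow_le_pow_left hpow 2
          omega
        · exact Mb_mono hpow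
      obtain ⟨β, h1, h2, h3⟩ := bes_class (w := w) hO hC (a := 4 ^ i * b0) (by omega) (by omega)
        (by omega) ((Nat.mul_le_mul_left _ hmono).trans hN)
        (le_trans (Nat.mul_le_mul (Nat.pow_le_pow_right (by norm_num) hpow) hmono) hq)
        h hμ.h_nonneg hμ.le_one
      refine ⟨β, fun _ => ⟨h1, ?_, h3⟩⟩
      calc β ≤ 4 * (4 ^ i * b0) := h2
        _ = 4 ^ (i + 1) * b0 := by ring
    · exact ⟨0, fun h => absurd h hi⟩
  choose β hβ using hcls
  have hClass : ∀ i < J', ∑ m : Fin q, ∑ m' : Fin q, (if ¬ cell lev (β i) ((m : ℕ) : ℤ) ≡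
      cell lev (β i) ((m' : ℕ) : ℤ) [MOD Pib (β i)] then μ m m' else 0) +
      ∑ m : Fin q, ∑ m' : Fin q, (if ((m : ℕ) : ℤ) ∈ bad (β i) ∨ ((m' : ℕ) : ℤ) ∈ bad (β i)
      then μ m m' else 0) ≤
      ((200 / Real.sqrt b0) * (1 / 2 : ℝ) ^ i + (514 + 256 * E0) * zb b0 * (1 / 2 : ℝ) ^ (i + 1)) *
        q := by
    intro i hi
    obtain ⟨h1, h2, h3⟩ := hβ i hi
    have hpow : 4 ^ (i + 1) * b0 ≤ 4 ^ J' * b0 :=
      Nat.mul_le_mul_right _ (Nat.pow_le_pow_right (by norm_num) hi)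
    have hb0i : b0 + i ≤ 4 ^ i * b0 := pow_lin b0 i hb
    have hβ0 : b0 ≤ β i := by omega
    have h4 := class_le hw hO hC (hb.trans hβ0) (hB.trans hβ0) (by omega) hμ
      (hfar (β i) hβ0 (by omega)) h3
    have h5 : ∑ m : Fin q, ∑ m' : Fin q, (if ((m : ℕ) : ℤ) ∈ bad (β i) ∨ ((m' : ℕ) : ℤ) ∈ bad (β i)
      then μ m m' else 0) ≤ 2 * (zb (β i) * q) := by
      refine (mass_either hμ (fun m : Fin q => ((m : ℕ) : ℤ) ∈ bad (β i))).trans ?_
      have := count_bad' hC (hB.trans hβ0) (b := β i) (by omega)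
      linarith
    have h6 : zb (β i) ≤ zb b0 * (1 / 2 : ℝ) ^ (i + 1) := by
      unfold zb
      rw [← pow_add]
      exact pow_le_pow_of_le_one (by norm_num) (by norm_num) (by omega)
    have h7 : Real.sqrt (5 / (3 * (4 ^ i * b0 : ℕ))) ≤
        (3 / 2) * (1 / Real.sqrt b0) * (1 / 2 : ℝ) ^ i := by
      have hb0r : (0 : ℝ) < b0 := by exact_mod_cast hb
      have hsq : Real.sqrt b0 ^ 2 = b0 := Real.sq_sqrt hb0r.le
      have hs0 : 0 < Real.sqrt b0 := Real.sqrt_pos.2 hb0r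
      apply Real.sqrt_le_iff.2
      refine ⟨by positivity, ?_⟩
      have e1 : ((3 / 2 : ℝ) * (1 / Real.sqrt b0) * (1 / 2 : ℝ) ^ i) ^ 2 =
          (9 / 4) / (b0 * 4 ^ i) := by
        have e2 : (1 / Real.sqrt b0) ^ 2 = 1 / (b0 : ℝ) := by rw [div_pow, one_pow, hsq]
        rw [mul_pow, mul_pow, e2, ← pow_mul, mul_comm i 2, pow_mul]
        have : ((1 / 2 : ℝ) ^ 2) ^ i = 1 / 4 ^ i := by
          rw [← one_div_pow]; norm_num
        rw [this]
        field_simp
        norm_num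
      rw [e1]
      push_cast
      rw [div_le_div_iff₀ (by positivity) (by positivity)]
      have : (0 : ℝ) < 4 ^ i := by positivity
      nlinarith [mul_pos this hb0r]
    have h8 := zb_pos (β i)
    have h9 : (q : ℝ) * Real.sqrt (5 / (3 * (4 ^ i * b0 : ℕ))) ≤
        q * ((3 / 2) * (1 / Real.sqrt b0) * (1 / 2 : ℝ) ^ i) :=
      mul_le_mul_of_nonneg_left h7 hq0
    have h10 : (zb (β i)) * q ≤ zb b0 * (1 / 2 : ℝ) ^ (i + 1) * q :=
      mul_le_mul_of_nonneg_right h6 hq0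
    have h11 : (E0 * (zb (β i)) * q) ≤ E0 * (zb b0 * (1 / 2 : ℝ) ^ (i + 1) * q) := by
      rw [mul_assoc]
      exact mul_le_mul_of_nonneg_left h10 hE0
    have h12 : 0 ≤ (1 / Real.sqrt b0) * (1 / 2 : ℝ) ^ i * q := by positivity
    calc _ ≤ 128 * (q * Real.sqrt (5 / (3 * (4 ^ i * b0 : ℕ))) + 4 * zb (β i) * q +
          2 * (E0 * zb (β i) * q)) + 2 * (zb (β i) * q) := add_le_add h4 h5
      _ ≤ 128 * (q * ((3 / 2) * (1 / Real.sqrt b0) * (1 / 2 : ℝ) ^ i)) +
          514 * (zb b0 * (1 / 2 : ℝ) ^ (i + 1) * q) +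
          256 * (E0 * (zb b0 * (1 / 2 : ℝ) ^ (i + 1) * q)) := by linarith
      _ = 192 * ((1 / Real.sqrt b0) * (1 / 2 : ℝ) ^ i * q) +
          (514 + 256 * E0) * zb b0 * (1 / 2 : ℝ) ^ (i + 1) * q := by ring
      _ ≤ 200 * ((1 / Real.sqrt b0) * (1 / 2 : ℝ) ^ i * q) +
          (514 + 256 * E0) * zb b0 * (1 / 2 : ℝ) ^ (i + 1) * q := by linarith
      _ = _ := by ring
  -- final sum
  have hpt : ∀ m m' : Fin q,
      (if win lev b0 l ((m : ℕ) : ℤ) = win lev b0 l ((m' : ℕ) : ℤ) then 0 else μ m m') ≤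
      (if pw lev b0 l ((m : ℕ) : ℤ) ≠ pw lev b0 l ((m' : ℕ) : ℤ) then μ m m' else 0) +
      ((if ¬ cell lev b0 ((m : ℕ) : ℤ) ≡ cell lev b0 ((m' : ℕ) : ℤ) [MOD Pib b0] then μ m m' else 0)
      + (if ((m : ℕ) : ℤ) ∈ bad b0 ∨ ((m' : ℕ) : ℤ) ∈ bad b0 then μ m m' else 0)) +
      ∑ i ∈ Finset.range J', ((if ¬ cell lev (β i) ((m : ℕ) : ℤ) ≡
        cell lev (β i) ((m' : ℕ) : ℤ) [MOD Pib (β i)] then μ m m' else 0) +
        (if ((m : ℕ) : ℤ) ∈ bad (β i) ∨ ((m' : ℕ) : ℤ) ∈ bad (β i) then μ m m' else 0)) +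
      (if 2 * (Mb (4 ^ (J' + 1) * b0) : ℤ) < |((m : ℕ) : ℤ) - ((m' : ℕ) : ℤ)| then μ m m' else 0) := by
    intro m m'
    have hm := hmu m m'
    have ite_nn : ∀ (P : Prop) [Decidable P], (0 : ℝ) ≤ if P then μ m m' else 0 := by
      intro P _
      split_ifs
      · exact hm
      · exact le_rfl
    have hsum : 0 ≤ ∑ i ∈ Finset.range J', ((if ¬ cell lev (β i) ((m : ℕ) : ℤ) ≡
        cell lev (β i) ((m' : ℕ) : ℤ) [MOD Pib (β i)] then μ m m' else 0) +
        (if ((m : ℕ) : ℤ) ∈ bad (β i) ∨ ((m' : ℕ) : ℤ) ∈ bad (β i) then μ m m' else 0)) :=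
      Finset.sum_nonneg fun i _ => add_nonneg (ite_nn _) (ite_nn _)
    by_cases hwin : win lev b0 l ((m : ℕ) : ℤ) = win lev b0 l ((m' : ℕ) : ℤ)
    · rw [if_pos hwin]
      have a1 := ite_nn (pw lev b0 l ((m : ℕ) : ℤ) ≠ pw lev b0 l ((m' : ℕ) : ℤ))
      have a2 := ite_nn (¬ cell lev b0 ((m : ℕ) : ℤ) ≡ cell lev b0 ((m' : ℕ) : ℤ) [MOD Pib b0])
      have a3 := ite_nn (((m : ℕ) : ℤ) ∈ bad b0 ∨ ((m' : ℕ) : ℤ) ∈ bad b0)
      have a4 := ite_nn (2 * (Mb (4 ^ (J' + 1) * b0) : ℤ) < |((m : ℕ) : ℤ) - ((m' : ℕ) : ℤ)|)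
      linarith
    · rw [if_neg hwin]
      have hcl := classify hO hb hlD β (fun i hi => (hβ i hi).1) (fun i hi => (hβ i hi).2.1) hwin
      have a1 := ite_nn (pw lev b0 l ((m : ℕ) : ℤ) ≠ pw lev b0 l ((m' : ℕ) : ℤ))
      have a2 := ite_nn (¬ cell lev b0 ((m : ℕ) : ℤ) ≡ cell lev b0 ((m' : ℕ) : ℤ) [MOD Pib b0])
      have a3 := ite_nn (((m : ℕ) : ℤ) ∈ bad b0 ∨ ((m' : ℕ) : ℤ) ∈ bad b0)
      have a4 := ite_nn (2 * (Mb (4 ^ (J' + 1) * b0) : ℤ) < |((m : ℕ) : ℤ) - ((m' : ℕ) : ℤ)|)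
      rcases hcl with hc | (hc | hc) | ⟨i, hi, hc⟩ | hc
      · rw [if_pos hc] at a1 ⊢
        linarith
      · rw [if_pos hc] at a3 ⊢
        linarith
      · rw [if_pos hc] at a2 ⊢
        linarith
      · have h1 := Finset.single_le_sum
          (f := fun i => ((if ¬ cell lev (β i) ((m : ℕ) : ℤ) ≡
            cell lev (β i) ((m' : ℕ) : ℤ) [MOD Pib (β i)] then μ m m' else 0) +
            (if ((m : ℕ) : ℤ) ∈ bad (β i) ∨ ((m' : ℕ) : ℤ) ∈ bad (β i) then μ m m' else 0)))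
          (fun i _ => add_nonneg (ite_nn _) (ite_nn _)) (Finset.mem_range.2 hi)
        have b1 := ite_nn (¬ cell lev (β i) ((m : ℕ) : ℤ) ≡
            cell lev (β i) ((m' : ℕ) : ℤ) [MOD Pib (β i)])
        have b2 := ite_nn (((m : ℕ) : ℤ) ∈ bad (β i) ∨ ((m' : ℕ) : ℤ) ∈ bad (β i))
        rcases hc with hc | hc
        · rw [if_pos hc] at h1
          linarith
        · rw [if_pos hc] at h1
          linarith
      · rw [if_pos hc] at a4 ⊢
        linarith
  have hsumall : ∑ m : Fin q, ∑ m' : Fin q,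
      (if win lev b0 l ((m : ℕ) : ℤ) = win lev b0 l ((m' : ℕ) : ℤ) then 0 else μ m m') ≤
      ∑ m : Fin q, ∑ m' : Fin q,
        (if pw lev b0 l ((m : ℕ) : ℤ) ≠ pw lev b0 l ((m' : ℕ) : ℤ) then μ m m' else 0) +
      (∑ m : Fin q, ∑ m' : Fin q, (if ¬ cell lev b0 ((m : ℕ) : ℤ) ≡
        cell lev b0 ((m' : ℕ) : ℤ) [MOD Pib b0] then μ m m' else 0)
      + ∑ m : Fin q, ∑ m' : Fin q,
        (if ((m : ℕ) : ℤ) ∈ bad b0 ∨ ((m' : ℕ) : ℤ) ∈ bad b0 then μ m m' else 0)) +
      ∑ i ∈ Finset.range J', (∑ m : Fin q, ∑ m' : Fin q, (if ¬ cell lev (β i) ((m : ℕ) : ℤ) ≡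
        cell lev (β i) ((m' : ℕ) : ℤ) [MOD Pib (β i)] then μ m m' else 0) +
        ∑ m : Fin q, ∑ m' : Fin q,
        (if ((m : ℕ) : ℤ) ∈ bad (β i) ∨ ((m' : ℕ) : ℤ) ∈ bad (β i) then μ m m' else 0)) +
      ∑ m : Fin q, ∑ m' : Fin q,
      (if 2 * (Mb (4 ^ (J' + 1) * b0) : ℤ) < |((m : ℕ) : ℤ) - ((m' : ℕ) : ℤ)| then μ m m' else 0) := by
    have hswap : ∑ i ∈ Finset.range J', (∑ m : Fin q, ∑ m' : Fin q,
        (if ¬ cell lev (β i) ((m : ℕ) : ℤ) ≡
        cell lev (β i) ((m' : ℕ) : ℤ) [MOD Pib (β i)] then μ m m' else 0) +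
        ∑ m : Fin q, ∑ m' : Fin q,
        (if ((m : ℕ) : ℤ) ∈ bad (β i) ∨ ((m' : ℕ) : ℤ) ∈ bad (β i) then μ m m' else 0)) =
        ∑ m : Fin q, ∑ m' : Fin q, ∑ i ∈ Finset.range J', ((if ¬ cell lev (β i) ((m : ℕ) : ℤ) ≡
        cell lev (β i) ((m' : ℕ) : ℤ) [MOD Pib (β i)] then μ m m' else 0) +
        (if ((m : ℕ) : ℤ) ∈ bad (β i) ∨ ((m' : ℕ) : ℤ) ∈ bad (β i) then μ m m' else 0)) := by
      rw [Finset.sum_congr rfl fun m _ => Finset.sum_comm, Finset.sum_comm]
      refine Finset.sum_congr rfl fun i _ => ?_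
      rw [← Finset.sum_add_distrib]
      refine Finset.sum_congr rfl fun m _ => ?_
      rw [← Finset.sum_add_distrib]
    rw [hswap]
    simp only [← Finset.sum_add_distrib]
    refine Finset.sum_le_sum fun m _ => Finset.sum_le_sum fun m' _ => ?_
    exact hpt m m'
  refine hsumall.trans ?_
  have hgeo : ∀ n : ℕ, ∑ i ∈ Finset.range n, (1 / 2 : ℝ) ^ i ≤ 2 := by
    intro n
    rw [geom_sum_eq (by norm_num)]
    have : (0 : ℝ) ≤ (1 / 2) ^ n := by positivity
    rw [div_le_iff_of_neg (by norm_num)]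
    linarith
  have hclsum : ∑ i ∈ Finset.range J', (∑ m : Fin q, ∑ m' : Fin q,
        (if ¬ cell lev (β i) ((m : ℕ) : ℤ) ≡
        cell lev (β i) ((m' : ℕ) : ℤ) [MOD Pib (β i)] then μ m m' else 0) +
        ∑ m : Fin q, ∑ m' : Fin q,
        (if ((m : ℕ) : ℤ) ∈ bad (β i) ∨ ((m' : ℕ) : ℤ) ∈ bad (β i) then μ m m' else 0)) ≤
      (400 / Real.sqrt b0 + (514 + 256 * E0) * zb b0) * q := by
    calc _ ≤ ∑ i ∈ Finset.range J', ((200 / Real.sqrt b0) * (1 / 2 : ℝ) ^ i +
          (514 + 256 * E0) * zb b0 * (1 / 2 : ℝ) ^ (i + 1)) * q :=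
          Finset.sum_le_sum fun i hi => hClass i (Finset.mem_range.1 hi)
      _ = ((200 / Real.sqrt b0) * q + (514 + 256 * E0) * zb b0 * (1 / 2) * q) *
          ∑ i ∈ Finset.range J', (1 / 2 : ℝ) ^ i := by
          rw [Finset.mul_sum]
          refine Finset.sum_congr rfl fun i _ => ?_
          rw [pow_succ]
          ring
      _ ≤ ((200 / Real.sqrt b0) * q + (514 + 256 * E0) * zb b0 * (1 / 2) * q) * 2 :=
          mul_le_mul_of_nonneg_left (hgeo J') (by positivity)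
      _ = _ := by ring
  have hfin : (2 * (ωb * q + (D + 1) * (E0 * zb b0 * q))) +
      (128 * (ωb * q + (D + 1) * (E0 * zb b0 * q) + 4 / K * q + 4 * zb b0 * q) +
        2 * (zb b0 * q)) + (400 / Real.sqrt b0 + (514 + 256 * E0) * zb b0) * q + tl * q ≤
      (130 * ωb + 512 / K + 400 / Real.sqrt b0 + (130 * (D + 1) * E0 + 256 * E0 + 1100) *
        zb b0 + tl) * q := by
    have hzq : 0 ≤ zb b0 * q := by positivity
    have e1 : (130 * ωb + 512 / K + 400 / Real.sqrt b0 + (130 * (D + 1) * E0 + 256 * E0 + 1100) *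
        zb b0 + tl) * q = (2 * (ωb * q + (D + 1) * (E0 * zb b0 * q))) +
      (128 * (ωb * q + (D + 1) * (E0 * zb b0 * q) + 4 / K * q + 4 * zb b0 * q) +
        2 * (zb b0 * q)) + (400 / Real.sqrt b0 + (514 + 256 * E0) * zb b0) * q + tl * q +
        72 * (zb b0 * q) := by ring
    rw [e1]
    linarith
  linarith

end Crest.Agent.R113.Orb
end

-- ▼ part R113/FD/AOff

/-!
Row 113, S0149, T12 (helper244): flux inequality + base flux bound + Off bound combined.
-/

set_option autoImplicit false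

namespace Crest.Agent.R113.Orb

open Finset

theorem Mb_pos (b : ℕ) : 0 < Mb b := by unfold Mb; positivity
theorem Pib_pos (b : ℕ) : 0 < Pib b := by unfold Pib; positivity

attribute [local irreducible] Mb rb Pib

theorem zb_nonneg (b : ℕ) : 0 ≤ zb b := by unfold zb; positivity

theorem finrank_map_eq {q : ℕ} (E : Submodule ℂ (EuclideanSpace ℂ (Fin q)))
    (a : EuclideanSpace ℂ (Fin q) →ₗ[ℂ] EuclideanSpace ℂ (Fin q)) (κ : ℝ)
    (ha2 : ∀ v, Real.exp (-κ) * ‖v‖ ≤ ‖a v‖) :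
    Module.finrank ℂ (E.map a) = Module.finrank ℂ E := by
  have hinj : Function.Injective a := by
    rw [← LinearMap.ker_eq_bot, LinearMap.ker_eq_bot']
    intro v hv
    have := ha2 v
    rw [hv, norm_zero] at this
    have h0 : ‖v‖ ≤ 0 := by
      by_contra hcon
      push Not at hcon
      have : 0 < Real.exp (-κ) * ‖v‖ := by positivity
      linarith
    exact norm_le_zero_iff.mp h0
  exact (LinearEquiv.finrank_eq (Submodule.equivMapOfInjective a hinj E)).symm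

variable {w : ℕ → ℕ → Bool} {c e : ℕ → ℝ} {g : ℕ → ℕ} {u : ℤ → ℝ} {lev : ℕ → ℤ → ℕ}
  {bad : ℕ → Set ℤ} {q N B J b0 l D K : ℕ}

open Classical in
/-- flux inequality + moving inequality for a set with exceptional set `Bd` -/
theorem flux_isBd (win : Fin q → ℤ) (E : Submodule ℂ (EuclideanSpace ℂ (Fin q))) (u : ℤ → ℝ)
    (n : ℕ) (cs d : ℝ) (hd : 0 ≤ d)
    (hinv : ∃ E' : Submodule ℂ (EuclideanSpace ℂ (Fin q)), AppInv E E' u n (Real.exp (-cs)) d)
    (a : EuclideanSpace ℂ (Fin q) →ₗ[ℂ] EuclideanSpace ℂ (Fin q))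
    (ha : BlockDiag win a)
    (κ : ℝ) (hκ : 0 ≤ κ) (ha1 : ∀ v, ‖a v‖ ≤ ‖v‖) (ha2 : ∀ v, Real.exp (-κ) * ‖v‖ ≤ ‖a v‖)
    (A : Set ℤ) (Bd : Finset (Fin q)) (v0 γ : ℝ) (hv0 : 0 ≤ v0) (hγ0 : 0 < γ)
    (hγ : 8 * κ ≤ γ) (hcs : v0 + 5 * γ + 10 ≤ cs)
    (hBd : IsBd win u n A v0 γ Bd) :
    cutM (fun i j => ‖ent (E.map a) i j‖ ^ 2) A ≤ flux (dg (E.map a)) A n
      + (10 * Real.exp (-γ / 4) * q + d + Bd.card) ∧
    ∀ s : ℝ, 0 ≤ s → s ≤ γ / 4 →
      trOn (E.map a) (fs q A) - trOn ((E.map a).map (scal (fs q A) s)) (fs q A) ≤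
        flux (dg (E.map a)) A n + (10 * Real.exp (-γ / 4) * q + d + Bd.card) := by
  obtain ⟨E', hE'⟩ := hinv
  have h := flux_window win E E' u n cs d hd hE' a ha κ hκ ha1 ha2 A Bd v0 γ hv0 hγ0 hγ hcs
    hBd.cutA hBd.cutB hBd.onA hBd.offA
  rw [cut_fs, flux_fs] at h
  constructor
  · have := h.1
    linarith
  · intro s hs hs'
    have := h.2 s hs hs'
    linarith

theorem bshift_le_N (hlD : D * l = Mb b0) (hK : K ≤ rb b0)
    (hN : 2 * (Pib b0 * Mb b0) ≤ N) (j : BIdx D K) : bshift b0 l D K j ≤ N := by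
  have h1 : 1024 * rb b0 ≤ Pib b0 := rb_le_Pib b0
  have h2 : rb b0 * Mb b0 ≤ Pib b0 * Mb b0 := Nat.mul_le_mul_right _ (by omega)
  have hrp := rb_one_le b0
  have h3 : Mb b0 ≤ rb b0 * Mb b0 := Nat.le_mul_of_pos_left _ (by omega)
  rcases j with i | ks
  · have hi := i.2
    have h4 : (i.1 + 1) * l ≤ D * l := Nat.mul_le_mul_right _ (by omega)
    change (i.1 + 1) * l ≤ N
    omega
  · have hi := ks.1.2
    have h4 : (ks.1.1 + 1) * Mb b0 ≤ rb b0 * Mb b0 := Nat.mul_le_mul_right _ (by omega)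
    change (ks.1.1 + 1) * Mb b0 ≤ N
    omega

/-- error bound for one set -/
theorem err_le (γ η E0 zbb : ℝ) (q : ℕ) (Bd : Finset (Fin q)) (hBd : (Bd.card : ℝ) ≤ 16 * zbb * q)
    (hsm : 10 * Real.exp (-γ / 4) + η ≤ 2 * zbb) (hE : E0 = 18) :
    10 * Real.exp (-γ / 4) * q + η * q + Bd.card ≤ E0 * zbb * q := by
  have hq : (0 : ℝ) ≤ q := Nat.cast_nonneg _
  rw [hE]
  nlinarith

open Classical in
/-- The Off bound for `X = aE`, from the g-flux inequality. -/
theorem off_combined (hw : IsWords w) (hG : IsGrowth c e g) (hO : OrbitData w c e g u lev bad)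
    (hC : OrbitCounts q N B J lev bad)
    {J' : ℕ} (hb : 1 ≤ b0) (hB : B ≤ b0) (hJ : 4 ^ J' * b0 ≤ J)
    (hN : 2 * (Pib (4 ^ J' * b0) * Mb (4 ^ J' * b0)) ≤ N)
    (hq : 4 ^ (4 ^ J' * b0) * (Pib (4 ^ J' * b0) * Mb (4 ^ J' * b0)) ≤ q)
    (hl : 0 < l) (hlD : D * l = Mb b0) (hK1 : 1 ≤ K) (hK : K ≤ rb b0)
    (E : Submodule ℂ (EuclideanSpace ℂ (Fin q))) (cs η : ℝ) (hη : 0 ≤ η)
    (hE3 : ∀ n ≤ N, ∃ E' : Submodule ℂ (EuclideanSpace ℂ (Fin q)),
      AppInv E E' u n (Real.exp (-cs)) (η * q))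
    (a : EuclideanSpace ℂ (Fin q) →ₗ[ℂ] EuclideanSpace ℂ (Fin q))
    (ha : BlockDiag (fun i : Fin q => win lev b0 l ((i : ℕ) : ℤ)) a)
    (κ : ℝ) (hκ : 0 < κ) (ha1 : ∀ v, ‖a v‖ ≤ ‖v‖) (ha2 : ∀ v, Real.exp (-κ) * ‖v‖ ≤ ‖a v‖)
    (θ0 ηf tl : ℝ)
    (hκc : ∀ b, b0 ≤ b → b ≤ 4 ^ J' * b0 → 8 * κ ≤ c b - e b)
    (hcs : ∀ b, b0 ≤ b → b ≤ 4 ^ J' * b0 → (2 * rb b * c b + e b) + 5 * (c b - e b) + 10 ≤ cs)
    (hsm : ∀ b, b0 ≤ b → b ≤ 4 ^ J' * b0 → 10 * Real.exp (-(c b - e b) / 4) + η ≤ 2 * zb b)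
    (hg : ∑ m : Fin q, dg (E.map a) m * gfun w lev b0 l K ((m : ℕ) : ℤ) ≤
      ∑ m : Fin q, dg E m * gfun w lev b0 l K ((m : ℕ) : ℤ) + θ0 * q)
    (hf : ∀ j : BIdx D K, flux (dg E) (bset w lev b0 l D K j) (bshift b0 l D K j) ≤ ηf * q)
    (htail : ∑ m : Fin q, ∑ m' : Fin q,
      (if 2 * (Mb (4 ^ (J' + 1) * b0) : ℤ) < |((m : ℕ) : ℤ) - ((m' : ℕ) : ℤ)| then
        ‖ent (E.map a) m m'‖ ^ 2 else 0) ≤ tl * q) :
    offw (fun i : Fin q => win lev b0 l ((i : ℕ) : ℤ)) (E.map a) ≤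
      (130 * (2 * θ0 + 4 / K + (D + 1) * ηf + 4 * (D + 1) * zb b0) + 512 / K
        + 400 / Real.sqrt b0 + (130 * (D + 1) * 18 + 256 * 18 + 1100) * zb b0 + tl) * q := by
  have hb0J : b0 ≤ 4 ^ J' * b0 := Nat.le_mul_of_pos_left _ (by positivity)
  have hbig : ∀ b, b ≤ 4 ^ J' * b0 → 2 * (Pib b * Mb b) ≤ N ∧ 4 ^ b * (Pib b * Mb b) ≤ q := by
    intro b hbJ
    have h1 := Pib_mono hbJ
    have h2 := Mb_mono hbJ
    have h3 : Pib b * Mb b ≤ Pib (4 ^ J' * b0) * Mb (4 ^ J' * b0) := Nat.mul_le_mul h1 h2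
    have h4 : 4 ^ b ≤ 4 ^ (4 ^ J' * b0) := Nat.pow_le_pow_right (by norm_num) hbJ
    exact ⟨by omega, (Nat.mul_le_mul h4 h3).trans hq⟩
  have hfin := finrank_map_eq E a κ ha2
  have hnear : ∀ j : BIdx D K,
      cutM (fun i j => ‖ent (E.map a) i j‖ ^ 2) (bset w lev b0 l D K j) ≤
        flux (dg (E.map a)) (bset w lev b0 l D K j) (bshift b0 l D K j) + 18 * zb b0 * q := by
    intro j
    obtain ⟨Bd, v0, hv0, hv0', hBd, hcard⟩ := base_isBd hG hO hC hb hB (hb0J.trans hJ)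
      (hbig b0 hb0J).1 (hbig b0 hb0J).2 hl hlD hK j
    have hc1 := hκc b0 le_rfl hb0J
    have h := (flux_isBd (fun i : Fin q => win lev b0 l ((i : ℕ) : ℤ)) E u
      (bshift b0 l D K j) cs (η * q) (by positivity)
      (hE3 _ (bshift_le_N hlD hK (hbig b0 hb0J).1 j)) a ha κ hκ.le ha1 ha2
      (bset w lev b0 l D K j) Bd v0 (c b0 - e b0) hv0 (by linarith) hc1
      (by have := hcs b0 le_rfl hb0J; linarith) hBd).1
    have h2 := err_le (c b0 - e b0) η 18 (zb b0) q Bd hcard (hsm b0 le_rfl hb0J) rfl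
    linarith
  have hfar : ∀ b, b0 ≤ b → b ≤ 4 ^ J' * b0 → ∀ k, 1 ≤ k → k ≤ rb b → ∀ s,
      cutM (fun i j => ‖ent (E.map a) i j‖ ^ 2) (far w lev b k s) ≤
        flux (dg (E.map a)) (far w lev b k s) (k * Mb b) + 18 * zb b * q := by
    intro b hbb hbJ k hk1 hk s
    obtain ⟨Bd, v0, hv0, hv0', hBd, hcard⟩ := far_isBd hG hO hC hb hbb (hB.trans hbb)
      (hbJ.trans hJ) (hbig b hbJ).1 (hbig b hbJ).2 hl hlD hk1 hk s
    have hc1 := hκc b hbb hbJ
    have hkN : k * Mb b ≤ N := by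
      have h1 : 1024 * rb b ≤ Pib b := rb_le_Pib b
      have h2 : k * Mb b ≤ Pib b * Mb b := Nat.mul_le_mul_right _ (by omega)
      have h3 := (hbig b hbJ).1
      omega
    have h := (flux_isBd (fun i : Fin q => win lev b0 l ((i : ℕ) : ℤ)) E u
      (k * Mb b) cs (η * q) (by positivity)
      (hE3 _ hkN) a ha κ hκ.le ha1 ha2
      (far w lev b k s) Bd v0 (c b - e b) hv0 (by linarith) hc1
      (by have := hcs b hbb hbJ; linarith) hBd).1
    have h2 := err_le (c b - e b) η 18 (zb b) q Bd hcard (hsm b hbb hbJ) rfl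
    linarith
  have hbase := base_flux_le hw hO hC hb hB (hb0J.trans hJ) (hbig b0 hb0J).1 hl hlD hK1 hK
    (dg (E.map a)) (dg E) (dg_nonneg _) (dg_le_one _) (dg_nonneg _) (dg_le_one _)
    (by rw [sum_dg, sum_dg, hfin]) θ0 ηf hg hf
  have h := off_le hw hO hC hb hB hJ hN hq hl hlD hK1 hK
    (fun i j => ‖ent (E.map a) i j‖ ^ 2) (dg (E.map a)) (mass_ent _) _ tl 18 (by norm_num)
    hnear hfar hbase htail
  exact h

end Crest.Agent.R113.Orb
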