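import Crest.Agent.R113.FD.Orbit

/-!
Row 113, S0149, task T9, part 2: dynamics of the levels, windows, base sets, the function `g`.
(helper292)
-/

set_option autoImplicit false

namespace Crest.Agent.R113.Orb

open Finset

/-! ### numbers -/

theorem Mb_succ (b : ℕ) : 100 * 4 ^ b * (rb b * Mb b) ≤ Mb (b + 1) := by
  unfold Mb rb
  have h1 : (100 : ℕ) ≤ 2 ^ 7 := by norm_num
  calc 100 * 4 ^ b * (2 ^ (30 * b) * 2 ^ (20 * b ^ 2))
      ≤ 2 ^ 7 * 2 ^ (2 * b) * (2 ^ (30 * b) * 2 ^ (20 * b ^ 2)) := by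
        have : (4 : ℕ) ^ b = 2 ^ (2 * b) := by rw [pow_mul]; norm_num
        rw [this]
        gcongr
    _ = 2 ^ (7 + 2 * b + (30 * b + 20 * b ^ 2)) := by rw [pow_add, pow_add, pow_add]
    _ ≤ 2 ^ (20 * (b + 1) ^ 2) := by
        apply Nat.pow_le_pow_right (by norm_num)
        nlinarith

theorem Mb_mono {b b' : ℕ} (h : b ≤ b') : Mb b ≤ Mb b' := by
  unfold Mb
  apply Nat.pow_le_pow_right (by norm_num)
  nlinarith

theorem rb_one_le (b : ℕ) : 1 ≤ rb b := rb_pos b

theorem rb_le_Pib (b : ℕ) : 1024 * rb b ≤ Pib b := by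
  unfold rb Pib
  calc 1024 * 2 ^ (30 * b) = 2 ^ (10 + 30 * b) := by rw [pow_add]; norm_num
    _ ≤ 2 ^ (6000 * b ^ 2 + 10) := by
        apply Nat.pow_le_pow_right (by norm_num)
        rcases Nat.eq_zero_or_pos b with rfl | hb
        · norm_num
        · nlinarith

theorem Pib_ge (b : ℕ) : 1024 ≤ Pib b := by
  have := rb_le_Pib b
  have := rb_one_le b
  omega

theorem Mb16 {b b' : ℕ} (h : b' ≤ 16 * b) : 4 * Mb b' ≤ (Pib b - 1) * Mb b := by
  have h1 : Mb b' ≤ Mb (16 * b) := Mb_mono h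
  have h2 : 4 * Mb (16 * b) ≤ 2 ^ (6000 * b ^ 2 + 9) * Mb b := by
    unfold Mb
    calc 4 * 2 ^ (20 * (16 * b) ^ 2) = 2 ^ (2 + 20 * (16 * b) ^ 2) := by
          rw [pow_add]; norm_num
      _ ≤ 2 ^ (6000 * b ^ 2 + 9 + 20 * b ^ 2) := by
          apply Nat.pow_le_pow_right (by norm_num)
          nlinarith
      _ = _ := by rw [pow_add]
  have h3 : 2 ^ (6000 * b ^ 2 + 9) ≤ Pib b - 1 := by
    have h4 : Pib b = 2 * 2 ^ (6000 * b ^ 2 + 9) := by
      unfold Pib; rw [← pow_succ']
    have : 1 ≤ 2 ^ (6000 * b ^ 2 + 9) := Nat.one_le_two_pow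
    omega
  calc 4 * Mb b' ≤ 4 * Mb (16 * b) := by omega
    _ ≤ 2 ^ (6000 * b ^ 2 + 9) * Mb b := h2
    _ ≤ _ := Nat.mul_le_mul_right _ h3

/-! ### levels -/

variable {w : ℕ → ℕ → Bool} {c e : ℕ → ℝ} {g : ℕ → ℕ} {u : ℤ → ℝ} {lev : ℕ → ℤ → ℕ}
  {bad : ℕ → Set ℤ} {q N B J b0 l D K : ℕ}

/-- only the step rule of the levels -/
def Steps (lev : ℕ → ℤ → ℕ) (b : ℕ) : Prop :=
  ∀ m, lev b (m + 1) = lev b m + 1 ∨ lev b (m + 1) = 0

theorem steps (hO : OrbitData w c e g u lev bad) {b : ℕ} (hb : 1 ≤ b) : Steps lev b :=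
  fun m => hO.lev_step b m hb

theorem lev_sub {b : ℕ} (hS : Steps lev b) (m : ℤ) (j : ℕ) (hj : j ≤ lev b m) :
    lev b (m - j) = lev b m - j := by
  induction j with
  | zero => simp
  | succ j ih =>
    have h1 := ih (by omega)
    have h2 := hS (m - j - 1)
    have e1 : m - j - 1 + 1 = m - j := by ring
    have e2 : m - ((j + 1 : ℕ) : ℤ) = m - j - 1 := by push_cast; ring
    rw [e1] at h2
    rw [e2]
    rcases h2 with h2 | h2 <;> omega

theorem lev_sub' {b : ℕ} (hS : Steps lev b) {m m' : ℤ} (h : m ≤ m') (hj : m' - m ≤ lev b m') :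
    (lev b m : ℤ) = lev b m' - (m' - m) := by
  obtain ⟨j, hj'⟩ := Int.eq_ofNat_of_zero_le (sub_nonneg.2 h)
  have : m = m' - j := by omega
  rw [this, lev_sub hS m' j (by omega)]
  omega

/-- off `bad` the level is linear in the range `[-2ΠM, 2ΠM]` -/
theorem lev_good (hO : OrbitData w c e g u lev bad) {b : ℕ} (hb : 1 ≤ b) {m : ℤ} (hm : m ∉ bad b)
    {m' : ℤ} (h : |m' - m| ≤ 2 * (Pib b * Mb b : ℕ)) : (lev b m' : ℤ) = lev b m + (m' - m) := by
  have h1 := hO.run_low b hb m hm
  have h2 := hO.run b hb m hm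
  rw [mul_assoc] at h1 h2
  rw [abs_le] at h
  rcases le_total m m' with hmm | hmm
  · obtain ⟨j, hj⟩ := Int.eq_ofNat_of_zero_le (sub_nonneg.2 hmm)
    have : m' = m + j := by omega
    rw [this, h2 j (by omega)]
    omega
  · have := lev_sub' (steps hO hb) hmm (by omega)
    omega

/-! ### windows -/

theorem win_le (hl : 0 < l) (m : ℤ) : win lev b0 l m ≤ m ∧ m < win lev b0 l m + l := by
  unfold win
  have := Nat.mod_lt (lev b0 m) hl
  omega

theorem win_abs (hl : 0 < l) {m m' : ℤ} (h : win lev b0 l m = win lev b0 l m') :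
    |m' - m| < l := by
  have h1 := win_le (lev := lev) (b0 := b0) hl m
  have h2 := win_le (lev := lev) (b0 := b0) hl m'
  rw [abs_lt]
  omega

theorem win_lev_aux (hS : Steps lev b0) (hl : 0 < l) {m m' : ℤ} (hmm : m ≤ m')
    (h : win lev b0 l m = win lev b0 l m') :
    (lev b0 m' : ℤ) = lev b0 m + (m' - m) ∧ lev b0 m' / l = lev b0 m / l := by
  have h0 := h
  unfold win at h
  have h1 := Nat.mod_lt (lev b0 m) hl
  have h2 := Nat.mod_lt (lev b0 m') hl
  have h3 : lev b0 m' % l ≤ lev b0 m' := Nat.mod_le _ _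
  have h4 := lev_sub' hS hmm (by omega)
  refine ⟨by omega, ?_⟩
  have e1 := Nat.div_add_mod (lev b0 m') l
  have e2 : lev b0 m = l * (lev b0 m' / l) + lev b0 m % l := by
    zify
    have e1' : (l : ℤ) * ((lev b0 m' : ℤ) / l) + (lev b0 m' : ℤ) % l = lev b0 m' := by
      exact_mod_cast e1
    push_cast at h
    linarith
  have e3 : lev b0 m / l = (l * (lev b0 m' / l) + lev b0 m % l) / l := by rw [← e2]
  rw [e3, Nat.mul_add_div hl, Nat.div_eq_of_lt h1, add_zero]

/-- windows are intervals, on which `lev` grows by one -/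
theorem win_lev (hO : OrbitData w c e g u lev bad) (hb : 1 ≤ b0) (hl : 0 < l) {m m' : ℤ}
    (h : win lev b0 l m = win lev b0 l m') :
    (lev b0 m' : ℤ) = lev b0 m + (m' - m) ∧ lev b0 m' / l = lev b0 m / l := by
  rcases le_total m m' with hmm | hmm
  · exact win_lev_aux (steps hO hb) hl hmm h
  · have := win_lev_aux (steps hO hb) hl hmm h.symm
    exact ⟨by omega, this.2.symm⟩

/-- converse: same `lev / l` and no reset in between -/
theorem win_eq {m m' : ℤ} (h1 : (lev b0 m' : ℤ) = lev b0 m + (m' - m))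
    (h2 : lev b0 m' / l = lev b0 m / l) : win lev b0 l m = win lev b0 l m' := by
  unfold win
  have e1 := Nat.div_add_mod (lev b0 m') l
  have e2 := Nat.div_add_mod (lev b0 m) l
  rw [h2] at e1
  generalize l * (lev b0 m / l) = z at *
  omega


/-! ### base sets -/

theorem l_le (hlD : D * l = Mb b0) : l ≤ Mb b0 := by
  rw [← hlD]
  rcases Nat.eq_zero_or_pos D with h | h
  · subst h
    have := Mb_pos b0
    omega
  · exact Nat.le_mul_of_pos_left l h

theorem D_pos (hlD : D * l = Mb b0) : 0 < D := by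
  rcases Nat.eq_zero_or_pos D with h | h
  · subst h
    have := Mb_pos b0
    omega
  · exact h

theorem pw_eq (hlD : D * l = Mb b0) (m : ℤ) :
    pw lev b0 l m = (lev b0 m / l) % D := by
  unfold pw
  rw [← hlD, Nat.mod_mul_left_div_self]

theorem pw_lt (hlD : D * l = Mb b0) (m : ℤ) : pw lev b0 l m < D := by
  rw [pw_eq hlD]
  exact Nat.mod_lt _ (D_pos hlD)

theorem cell_eq (hlD : D * l = Mb b0) (m : ℤ) : cell lev b0 m = lev b0 m / l / D := by
  unfold cell
  rw [← hlD, Nat.div_div_eq_div_mul, mul_comm]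

theorem bset_congr (hlD : D * l = Mb b0) {m m' : ℤ} (h : lev b0 m / l = lev b0 m' / l)
    (j : BIdx D K) : (m ∈ bset w lev b0 l D K j ↔ m' ∈ bset w lev b0 l D K j) := by
  rcases j with i | ⟨k, s⟩
  · simp only [bset, near, Set.mem_ofPred_eq, pw_eq hlD, h]
  · simp only [bset, far, Set.mem_ofPred_eq, cell_eq hlD, h]

theorem bset_win (hO : OrbitData w c e g u lev bad) (hb : 1 ≤ b0) (hl : 0 < l)
    (hlD : D * l = Mb b0)
    {m m' : ℤ} (h : win lev b0 l m = win lev b0 l m') (j : BIdx D K) :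
    (m ∈ bset w lev b0 l D K j ↔ m' ∈ bset w lev b0 l D K j) :=
  bset_congr hlD (win_lev hO hb hl h).2.symm j

theorem bshift_dvd (hlD : D * l = Mb b0) (j : BIdx D K) : ∃ z, bshift b0 l D K j = z * l := by
  rcases j with i | ⟨k, s⟩
  · exact ⟨_, rfl⟩
  · exact ⟨(k + 1) * D, by simp only [bshift]; rw [← hlD]; ring⟩

theorem bset_shift_win (hO : OrbitData w c e g u lev bad) (hb : 1 ≤ b0) (hl : 0 < l)
    (hlD : D * l = Mb b0) {m m' : ℤ} (h : win lev b0 l m = win lev b0 l m') (j : BIdx D K)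
    (hm : bshift b0 l D K j ≤ lev b0 m) :
    (m - (bshift b0 l D K j : ℤ) ∈ bset w lev b0 l D K j ↔
      m' - (bshift b0 l D K j : ℤ) ∈ bset w lev b0 l D K j) := by
  obtain ⟨z, hz⟩ := bshift_dvd hlD j
  rw [hz] at hm ⊢
  apply bset_congr hlD
  have h1 := win_lev hO hb hl h
  have h2 : z ≤ lev b0 m / l := (Nat.le_div_iff_mul_le hl).2 hm
  have h3 : z * l ≤ lev b0 m' := (Nat.le_div_iff_mul_le hl).1 (by omega)
  rw [lev_sub (steps hO hb) m _ hm, lev_sub (steps hO hb) m' _ h3]
  rw [mul_comm z l, Nat.sub_mul_div, Nat.sub_mul_div, h1.2]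

/-! ### the function `g` -/

theorem ind_of_mem {A : Set ℤ} {m : ℤ} (h : m ∈ A) : ind A m = 1 := by
  simp [ind, h]

theorem ind_of_not_mem {A : Set ℤ} {m : ℤ} (h : m ∉ A) : ind A m = 0 := by
  simp [ind, h]

theorem ind_nonneg (A : Set ℤ) (m : ℤ) : 0 ≤ ind A m := by
  by_cases h : m ∈ A
  · rw [ind_of_mem h]; norm_num
  · rw [ind_of_not_mem h]

theorem ind_le_one (A : Set ℤ) (m : ℤ) : ind A m ≤ 1 := by
  by_cases h : m ∈ A
  · rw [ind_of_mem h]
  · rw [ind_of_not_mem h]; norm_num

theorem bv_nonneg (x : Bool) : 0 ≤ bv x := by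
  cases x <;> simp [bv]

theorem bv_le_one (x : Bool) : bv x ≤ 1 := by
  cases x <;> simp [bv]

theorem near_sum (p D : ℕ) (hp : p < D) :
    ∑ i : Fin (D - 1), (if D ≤ p + ((i : ℕ) + 1) then (1 : ℝ) else 0) = p := by
  rw [Fin.sum_univ_eq_sum_range (fun i => if D ≤ p + (i + 1) then (1 : ℝ) else 0) (D - 1)]
  rw [← Finset.sum_filter, Finset.sum_const, nsmul_eq_mul, mul_one]
  have : (Finset.range (D - 1)).filter (fun i => D ≤ p + (i + 1)) = Finset.Ico (D - 1 - p) (D - 1) := by
    ext i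
    simp only [Finset.mem_filter, Finset.mem_range, Finset.mem_Ico]
    omega
  rw [this, Nat.card_Ico]
  congr 1
  omega

theorem ind_near (b0 l D i : ℕ) (m : ℤ) :
    ind (near lev b0 l D i) m = if D ≤ pw lev b0 l m + i then (1 : ℝ) else 0 := by
  unfold ind near
  rw [Set.indicator_apply]
  rfl

theorem mem_far_true (b k : ℕ) (m : ℤ) : m ∈ far w lev b k true ↔
    w b (cell lev b m) = true ∧ w b (cell lev b m + k) = false := by
  show (if true = true then w b (cell lev b m) && !(w b (cell lev b m + k))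
    else w b (cell lev b m) || !(w b (cell lev b m + k))) = true ↔ _
  simp

theorem mem_far_false (b k : ℕ) (m : ℤ) : m ∈ far w lev b k false ↔
    w b (cell lev b m) = true ∨ w b (cell lev b m + k) = false := by
  show (if false = true then w b (cell lev b m) && !(w b (cell lev b m + k))
    else w b (cell lev b m) || !(w b (cell lev b m + k))) = true ↔ _
  simp

theorem ind_far_add (b k : ℕ) (m : ℤ) :
    ind (far w lev b k true) m + ind (far w lev b k false) m =
      1 + bv (w b (cell lev b m)) - bv (w b (cell lev b m + k)) := by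
  classical
  have h1 := mem_far_true (w := w) (lev := lev) b k m
  have h2 := mem_far_false (w := w) (lev := lev) b k m
  unfold ind
  rw [Set.indicator_apply, Set.indicator_apply]
  simp only [h1, h2]
  rcases w b (cell lev b m) with _ | _ <;> rcases w b (cell lev b m + k) with _ | _ <;>
    norm_num [bv]

theorem sum_bidx (f : BIdx D K → ℝ) : ∑ j : BIdx D K, f j =
    ∑ i : Fin (D - 1), f (Sum.inl i) +
      ∑ k : Fin K, (f (Sum.inr (k, true)) + f (Sum.inr (k, false))) := by
  rw [Fintype.sum_sum_type, Fintype.sum_prod_type]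
  congr 1
  refine Finset.sum_congr rfl fun k _ => ?_
  rw [Fintype.sum_bool]

theorem sum_Icc_eq_fin (K : ℕ) (f : ℕ → ℝ) :
    ∑ k ∈ Finset.Icc 1 K, f k = ∑ k : Fin K, f (k + 1) := by
  rw [Fin.sum_univ_eq_sum_range (fun i => f (i + 1)) K]
  rw [Finset.range_eq_Ico, Finset.sum_Ico_add' f 0 K 1]
  rfl

theorem gfun_eq_sum (hlD : D * l = Mb b0) (m : ℤ) :
    gfun w lev b0 l K m = ∑ j : BIdx D K, bcoef D K j * ind (bset w lev b0 l D K j) m := by
  rw [sum_bidx]
  unfold gfun
  congr 1
  · rw [← near_sum (pw lev b0 l m) D (pw_lt hlD m)]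
    refine Finset.sum_congr rfl fun i _ => ?_
    simp only [bcoef, bset, one_mul]
    rw [ind_near]
  · rw [sum_Icc_eq_fin, Finset.mul_sum]
    refine Finset.sum_congr rfl fun k _ => ?_
    simp only [bcoef, bset]
    rw [← mul_add, ind_far_add]

theorem gfun_win (hO : OrbitData w c e g u lev bad) (hb : 1 ≤ b0) (hl : 0 < l)
    (hlD : D * l = Mb b0)
    {m m' : ℤ} (h : win lev b0 l m = win lev b0 l m') :
    gfun w lev b0 l K m = gfun w lev b0 l K m' := by
  rw [gfun_eq_sum hlD, gfun_eq_sum hlD]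
  refine Finset.sum_congr rfl fun j _ => ?_
  congr 1
  have := bset_win (w := w) hO hb hl hlD h j
  by_cases hm : m ∈ bset w lev b0 l D K j
  · rw [ind_of_mem hm, ind_of_mem (this.1 hm)]
  · rw [ind_of_not_mem hm, ind_of_not_mem (fun h' => hm (this.2 h'))]

theorem far_avg_nonneg (K : ℕ) (f : ℕ → Bool) (x : Bool) :
    0 ≤ (1 / (K : ℝ)) * ∑ k ∈ Finset.Icc 1 K, (1 + bv x - bv (f k)) := by
  apply mul_nonneg (by positivity)
  apply Finset.sum_nonneg
  intro k _
  have := bv_nonneg x
  have := bv_le_one (f k)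
  linarith

theorem far_avg_le (K : ℕ) (f : ℕ → Bool) (x : Bool) :
    (1 / (K : ℝ)) * ∑ k ∈ Finset.Icc 1 K, (1 + bv x - bv (f k)) ≤ 2 := by
  rcases Nat.eq_zero_or_pos K with rfl | hK
  · simp
  have h1 : ∑ k ∈ Finset.Icc 1 K, (1 + bv x - bv (f k)) ≤ ∑ _k ∈ Finset.Icc 1 K, (2 : ℝ) := by
    apply Finset.sum_le_sum
    intro k _
    have := bv_le_one x
    have := bv_nonneg (f k)
    linarith
  have hK' : (0 : ℝ) < K := by exact_mod_cast hK
  calc _ ≤ (1 / (K : ℝ)) * ∑ _k ∈ Finset.Icc 1 K, (2 : ℝ) :=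
        mul_le_mul_of_nonneg_left h1 (by positivity)
    _ = 2 := by
        rw [Finset.sum_const, Nat.card_Icc, nsmul_eq_mul]
        simp only [Nat.add_sub_cancel]
        field_simp

theorem gfun_nonneg (m : ℤ) : 0 ≤ gfun w lev b0 l K m := by
  unfold gfun
  exact add_nonneg (by positivity) (far_avg_nonneg K _ _)

theorem gfun_le (hlD : D * l = Mb b0) (m : ℤ) : gfun w lev b0 l K m ≤ D + 1 := by
  unfold gfun
  have h1 := far_avg_le K (fun k => w b0 (cell lev b0 m + k)) (w b0 (cell lev b0 m))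
  have h2 : (pw lev b0 l m : ℝ) + 1 ≤ D := by exact_mod_cast pw_lt hlD m
  linarith

/-- `g` is nondecreasing inside a cell -/
theorem gfun_mono {m : ℤ} {n : ℕ}
    (h : lev b0 (m + n) = lev b0 m + n) (hc : cell lev b0 (m + n) = cell lev b0 m) :
    gfun w lev b0 l K m ≤ gfun w lev b0 l K (m + n) := by
  unfold gfun
  rw [hc]
  have h1 : lev b0 m % Mb b0 ≤ lev b0 (m + n) % Mb b0 := by
    unfold cell at hc
    have e1 := Nat.div_add_mod (lev b0 m) (Mb b0)
    have e2 := Nat.div_add_mod (lev b0 (m + n)) (Mb b0)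
    rw [hc] at e2
    generalize Mb b0 * (lev b0 m / Mb b0) = z at *
    omega
  have h2 : pw lev b0 l m ≤ pw lev b0 l (m + n) := Nat.div_le_div_right h1
  have h3 : (pw lev b0 l m : ℝ) ≤ pw lev b0 l (m + n) := by exact_mod_cast h2
  linarith

/-! ### base flux function -/

/-- near part of the flux function: `∑ᵢ (1_{Q_i}(m) - 1_{Q_i}(m - i l)) = 2 p - (D - 1)` -/
theorem near_phi (hS : Steps lev b0) (hl : 0 < l) (hlD : D * l = Mb b0) (m : ℤ)
    (hm : Mb b0 ≤ lev b0 m) :
    ∑ i : Fin (D - 1), (ind (near lev b0 l D (i + 1)) m -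
      ind (near lev b0 l D (i + 1)) (m - (((i + 1) * l : ℕ) : ℤ))) =
      2 * (pw lev b0 l m : ℝ) - (D - 1) := by
  have hp := pw_lt (lev := lev) hlD m
  have hD := D_pos hlD
  rw [Finset.sum_sub_distrib]
  have h1 : ∑ i : Fin (D - 1), ind (near lev b0 l D (i + 1)) m = pw lev b0 l m := by
    rw [← near_sum (pw lev b0 l m) D hp]
    exact Finset.sum_congr rfl fun i _ => ind_near _ _ _ _ _
  have h2 : ∑ i : Fin (D - 1), ind (near lev b0 l D (i + 1)) (m - (((i + 1) * l : ℕ) : ℤ)) =
      ((D - 1 - pw lev b0 l m : ℕ) : ℝ) := by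
    have h3 : ∀ i : Fin (D - 1), ind (near lev b0 l D (i + 1)) (m - (((i + 1) * l : ℕ) : ℤ)) =
        if pw lev b0 l m < (i : ℕ) + 1 then (1 : ℝ) else 0 := by
      intro i
      rw [ind_near]
      have hi := i.2
      have h4 : (i + 1) * l ≤ lev b0 m := by
        refine le_trans ?_ hm
        rw [← hlD]
        exact Nat.mul_le_mul_right _ (by omega)
      have h5 : pw lev b0 l (m - (((i + 1) * l : ℕ) : ℤ)) =
          (lev b0 m / l - (i + 1)) % D := by
        rw [pw_eq hlD, lev_sub hS m _ h4, mul_comm (i.1 + 1) l, Nat.sub_mul_div]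
      rw [h5, pw_eq hlD]
      have h6 : D ≤ lev b0 m / l := by
        rw [Nat.le_div_iff_mul_le hl, hlD]; exact hm
      generalize hT : lev b0 m / l = T at *
      have h7 := Nat.div_add_mod T D
      have h8 := Nat.mod_lt T hD
      by_cases hc : T % D < (i : ℕ) + 1
      · have h9 : (T - (i + 1)) % D = T % D + D - (i + 1) := by
          have h10 : T - (i + 1) = (T % D + D - (i + 1)) + D * (T / D - 1) := by
            have : 1 ≤ T / D := (Nat.le_div_iff_mul_le hD).2 (by omega)
            obtain ⟨z, hz⟩ := Nat.exists_eq_add_of_le this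
            rw [hz] at h7 ⊢
            have : D * (1 + z) = D + D * z := by ring
            rw [this] at h7
            simp only [Nat.add_sub_cancel_left]
            omega
          rw [h10, Nat.add_mul_mod_self_left, Nat.mod_eq_of_lt (by omega)]
        rw [h9, if_pos hc, if_pos (by omega)]
      · have h9 : (T - (i + 1)) % D = T % D - (i + 1) := by
          have h10 : T - (i + 1) = (T % D - (i + 1)) + D * (T / D) := by omega
          rw [h10, Nat.add_mul_mod_self_left, Nat.mod_eq_of_lt (by omega)]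
        rw [h9, if_neg hc, if_neg (by omega)]
    rw [Finset.sum_congr rfl fun i _ => h3 i]
    rw [Fin.sum_univ_eq_sum_range (fun i => if pw lev b0 l m < i + 1 then (1 : ℝ) else 0) (D - 1)]
    rw [← Finset.sum_filter, Finset.sum_const, nsmul_eq_mul, mul_one]
    have : (Finset.range (D - 1)).filter (fun i => pw lev b0 l m < i + 1) =
        Finset.Ico (pw lev b0 l m) (D - 1) := by
      ext i
      simp only [Finset.mem_filter, Finset.mem_range, Finset.mem_Ico]
      omega
    rw [this, Nat.card_Ico]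
  rw [h1, h2]
  have : ((D - 1 - pw lev b0 l m : ℕ) : ℝ) = (D : ℝ) - 1 - pw lev b0 l m := by
    rw [Nat.cast_sub (by omega), Nat.cast_sub (by omega)]
    simp
  rw [this]
  ring

/-- far part of the flux function at a position of high level -/
theorem far_phi {b : ℕ} (hS : Steps lev b) (k : ℕ) (m : ℤ) (hm : k * Mb b ≤ lev b m) :
    (ind (far w lev b k true) m - ind (far w lev b k true) (m - ((k * Mb b : ℕ) : ℤ))) +
    (ind (far w lev b k false) m - ind (far w lev b k false) (m - ((k * Mb b : ℕ) : ℤ))) =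
      2 * bv (w b (cell lev b m)) - bv (w b (cell lev b m + k)) -
        bv (w b (cell lev b m - k)) := by
  have h1 := ind_far_add (w := w) (lev := lev) b k m
  have h2 := ind_far_add (w := w) (lev := lev) b k (m - ((k * Mb b : ℕ) : ℤ))
  have hM := Mb_pos b
  have h3 : cell lev b (m - ((k * Mb b : ℕ) : ℤ)) = cell lev b m - k := by
    unfold cell
    rw [lev_sub hS m _ hm, mul_comm k, Nat.sub_mul_div]
  have h4 : k ≤ cell lev b m := by
    unfold cell
    rw [Nat.le_div_iff_mul_le hM]; exact hm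
  rw [h3] at h2
  have h5 : cell lev b m - k + k = cell lev b m := by omega
  rw [h5] at h2
  linarith

/-- pair balance: every average of `K` consecutive letters is `1/2 + O(1/K)` -/
theorem bal_avg {f : ℕ → Bool} (hf : ∀ s, f (2 * s + 1) = !(f (2 * s))) (a K : ℕ) :
    |∑ k ∈ Finset.range K, bv (f (a + k)) - K / 2| ≤ 1 := by
  -- even start
  have key : ∀ K a, |∑ k ∈ Finset.range K, bv (f (2 * a + k)) - K / 2| ≤ 1 / 2 := by
    intro K
    induction K using Nat.strong_induction_on with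
    | _ K ih =>
      intro a
      match K with
      | 0 => norm_num
      | 1 =>
        simp only [Finset.sum_range_one, Nat.cast_one, add_zero]
        cases f (2 * a) <;> norm_num [bv, abs_le]
      | K + 2 =>
        have h1 := ih K (by omega) (a + 1)
        rw [Finset.sum_range_succ', Finset.sum_range_succ']
        have h2 : ∀ k, 2 * a + (k + 1 + 1) = 2 * (a + 1) + k := fun k => by ring
        simp only [h2, add_zero, zero_add]
        have h3 : bv (f (2 * a + 1)) + bv (f (2 * a)) = 1 := by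
          rw [hf]
          cases f (2 * a) <;> simp [bv]
        have h4 : ((K + 2 : ℕ) : ℝ) = K + 2 := by push_cast; ring
        rw [h4]
        have h5 : ∑ x ∈ Finset.range K, bv (f (2 * (a + 1) + x)) + bv (f (2 * a + 1)) + bv (f (2 * a)) -
            ((K : ℝ) + 2) / 2 = ∑ x ∈ Finset.range K, bv (f (2 * (a + 1) + x)) - K / 2 := by
          linarith
        rw [h5]
        exact h1
  rcases Nat.even_or_odd' a with ⟨a', ha | ha⟩
  · rw [ha]
    exact (key K a').trans (by norm_num)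
  · match K with
    | 0 => norm_num
    | K + 1 =>
      rw [Finset.sum_range_succ']
      have h1 := key K (a' + 1)
      have h2 : ∀ k, a + (k + 1) = 2 * (a' + 1) + k := fun k => by omega
      simp only [h2]
      have h4 : ((K + 1 : ℕ) : ℝ) = K + 1 := by push_cast; ring
      rw [h4]
      have h5 := bv_nonneg (f (a + 0))
      have h6 := bv_le_one (f (a + 0))
      rw [abs_le] at h1 ⊢
      constructor <;> linarith [h1.1, h1.2]

end Crest.Agent.R113.Orb
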