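import Crest.Agent.R113.FD.OrbitA

/-!
Row 113, S0149, task T9, part 3: counting, exceptional sets. (helper292)
-/

set_option autoImplicit false

namespace Crest.Agent.R113.Orb

open Finset

variable {w : ℕ → ℕ → Bool} {c e : ℕ → ℝ} {g : ℕ → ℕ} {u : ℤ → ℝ} {lev : ℕ → ℤ → ℕ}
  {bad : ℕ → Set ℤ} {q N B J b0 l D K : ℕ}

/-! ### counting -/

theorem start_unique {b : ℕ} (hS : Steps lev b) {m m' : ℤ} (h : m' ≤ m) (h1 : m - m' < Mb b)
    (h2 : lev b m % Mb b = 0) (h3 : lev b m ≠ 0) (h4 : lev b m' % Mb b = 0) : m' = m := by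
  have h5 : Mb b ≤ lev b m := Nat.le_of_dvd (Nat.pos_of_ne_zero h3) (Nat.dvd_of_mod_eq_zero h2)
  have h6 := lev_sub' hS h (by omega)
  have h7 : (Mb b : ℤ) ∣ (lev b m : ℤ) := by exact_mod_cast Nat.dvd_of_mod_eq_zero h2
  have h8 : (Mb b : ℤ) ∣ (lev b m' : ℤ) := by exact_mod_cast Nat.dvd_of_mod_eq_zero h4
  have h9 : (Mb b : ℤ) ∣ m - m' := by
    have : m - m' = lev b m - lev b m' := by omega
    rw [this]
    exact dvd_sub h7 h8
  have h10 := Int.eq_zero_of_dvd_of_nonneg_of_lt (by omega) h1 h9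
  omega

/-- cell starts which are no resets are `M`-separated -/
theorem starts_card {b : ℕ} (hS : Steps lev b) (a0 : ℤ) (L : ℕ) :
    Mb b * ((Finset.Ico a0 (a0 + L)).filter
      (fun m => lev b m % Mb b = 0 ∧ lev b m ≠ 0)).card ≤ L + Mb b := by
  have h1 : (((Finset.Ico a0 (a0 + L)).filter
      (fun m => lev b m % Mb b = 0 ∧ lev b m ≠ 0)) ×ˢ Finset.range (Mb b)).card ≤
      (Finset.Ico (a0 - Mb b) (a0 + L)).card := by
    apply Finset.card_le_card_of_injOn (fun x => x.1 - (x.2 : ℤ))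
    · rintro ⟨m, j⟩ hx
      simp only [Finset.coe_product, Set.mem_prod, Finset.mem_coe, Finset.mem_filter,
        Finset.mem_Ico, Finset.mem_range] at hx ⊢
      omega
    · rintro ⟨m, j⟩ hx ⟨m', j'⟩ hx' hxy
      simp only [Finset.coe_product, Set.mem_prod, Finset.mem_coe, Finset.mem_filter,
        Finset.mem_Ico, Finset.mem_range] at hx hx' hxy
      have : m' = m := by
        rcases le_total m' m with h | h
        · exact start_unique hS h (by omega) hx.1.2.1 hx.1.2.2 hx'.1.2.1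
        · exact (start_unique hS h (by omega) hx'.1.2.1 hx'.1.2.2 hx.1.2.1).symm
      subst this
      simp only [Prod.mk.injEq, true_and]
      omega
  rw [Finset.card_product, Finset.card_range, Int.card_Ico] at h1
  rw [mul_comm]
  refine h1.trans ?_
  omega

theorem card_fin_filter (q : ℕ) (P : ℤ → Prop) [DecidablePred P] :
    ((univ : Finset (Fin q)).filter (fun m : Fin q => P ((m : ℕ) : ℤ))).card =
      ((Finset.Ico (0 : ℤ) q).filter P).card := by
  apply Finset.card_bij (fun (m : Fin q) _ => ((m : ℕ) : ℤ))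
  · intro m hm
    simp only [Finset.mem_filter, Finset.mem_univ, true_and, Finset.mem_Ico] at hm ⊢
    exact ⟨⟨by omega, by have := m.2; omega⟩, hm⟩
  · intro m _ m' _ h
    apply Fin.ext
    omega
  · intro m hm
    simp only [Finset.mem_filter, Finset.mem_Ico] at hm
    refine ⟨⟨m.toNat, by omega⟩, ?_, ?_⟩
    · simp only [Finset.mem_filter, Finset.mem_univ, true_and]
      rw [Int.toNat_of_nonneg hm.1.1]
      exact hm.2
    · simp only
      exact Int.toNat_of_nonneg hm.1.1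

theorem zb_pos (b : ℕ) : 0 < zb b := by unfold zb; positivity


/-- the number of all cell starts in an interval inside `[-N, q+N]` -/
theorem starts_total (hO : OrbitData w c e g u lev bad) (hC : OrbitCounts q N B J lev bad) {b : ℕ}
    (hb : 1 ≤ b) (hB : B ≤ b) (hJ : b ≤ J) {a0 : ℤ} {L : ℕ} (h1 : -(N : ℤ) ≤ a0)
    (h2 : a0 + L ≤ q + N) :
    (((Finset.Ico a0 (a0 + L)).filter (fun m => lev b m % Mb b = 0)).card : ℝ) * Mb b ≤
      L + Mb b + zb b * q / Pib b := by
  classical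
  have hP : (0 : ℝ) < Pib b := by exact_mod_cast Pib_pos b
  have h3 : ((Finset.Ico a0 (a0 + L)).filter (fun m => lev b m % Mb b = 0)).card ≤
      ((Finset.Ico a0 (a0 + L)).filter (fun m => lev b m % Mb b = 0 ∧ lev b m ≠ 0)).card +
      ((Finset.Icc (-(N : ℤ)) (q + N)).filter (fun m => lev b m = 0)).card := by
    refine le_trans (Finset.card_le_card ?_) (Finset.card_union_le _ _)
    intro m hm
    simp only [Finset.mem_filter, Finset.mem_Ico, Finset.mem_union, Finset.mem_Icc] at hm ⊢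
    by_cases h : lev b m = 0
    · right; exact ⟨by omega, h⟩
    · left; exact ⟨hm.1, hm.2, h⟩
  have h4 := starts_card (steps hO hb) a0 L
  have h5 := hC.reset_count b hB hJ
  have h3' : (((Finset.Ico a0 (a0 + L)).filter (fun m => lev b m % Mb b = 0)).card : ℝ) ≤
      ((Finset.Ico a0 (a0 + L)).filter (fun m => lev b m % Mb b = 0 ∧ lev b m ≠ 0)).card +
      (((Finset.Icc (-(N : ℤ)) (q + N)).filter (fun m => lev b m = 0)).card : ℝ) := by
    exact_mod_cast h3
  have h4' : (Mb b : ℝ) * ((Finset.Ico a0 (a0 + L)).filter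
      (fun m => lev b m % Mb b = 0 ∧ lev b m ≠ 0)).card ≤ L + Mb b := by exact_mod_cast h4
  have h6 : (((Finset.Icc (-(N : ℤ)) (q + N)).filter (fun m => lev b m = 0)).card : ℝ) * Mb b ≤
      zb b * q / Pib b := by
    rw [le_div_iff₀ hP]
    calc _ = (((Finset.Icc (-(N : ℤ)) (q + N)).filter (fun m => lev b m = 0)).card : ℝ) *
          (Pib b * Mb b) := by ring
      _ ≤ _ := h5
  have hM : (0 : ℝ) ≤ Mb b := by positivity
  nlinarith [mul_le_mul_of_nonneg_right h3' hM]

/-- `m` with phase `< G` -/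
theorem phase_card {b : ℕ} (hS : Steps lev b) (a0 : ℤ) (L G : ℕ) :
    ((Finset.Ico a0 (a0 + L)).filter (fun m => lev b m % Mb b < G)).card ≤
      G * ((Finset.Ico (a0 - G) (a0 + L)).filter (fun m => lev b m % Mb b = 0)).card := by
  have h1 : ((Finset.Ico a0 (a0 + L)).filter (fun m => lev b m % Mb b < G)).card ≤
      (Finset.range G ×ˢ
        ((Finset.Ico (a0 - G) (a0 + L)).filter (fun m => lev b m % Mb b = 0))).card := by
    apply Finset.card_le_card_of_injOn
      (fun m => (lev b m % Mb b, m - ((lev b m % Mb b : ℕ) : ℤ)))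
    · intro m hm
      simp only [Finset.coe_filter, Set.mem_ofPred_eq, Finset.mem_Ico, Finset.coe_product,
        Set.mem_prod, Finset.mem_coe, Finset.mem_range] at hm ⊢
      have h2 := lev_sub hS m (lev b m % Mb b) (Nat.mod_le _ _)
      refine ⟨hm.2, by omega, ?_⟩
      rw [h2]
      exact Nat.sub_mod_eq_zero_of_mod_eq (by simp)
    · intro m _ m' _ h
      simp only [Prod.mk.injEq] at h
      omega
  rwa [Finset.card_product, Finset.card_range] at h1

open Classical in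
/-- positions close to a cell start -/
theorem close_card {b : ℕ} (a0 : ℤ) (L d : ℕ) :
    ((Finset.Ico a0 (a0 + L)).filter
      (fun m => ∃ t : ℤ, |t - m| < d ∧ lev b t % Mb b = 0)).card ≤
      2 * d * ((Finset.Ico (a0 - d) (a0 + L + d)).filter (fun m => lev b m % Mb b = 0)).card := by
  have h1 : ((Finset.Ico a0 (a0 + L)).filter
      (fun m => ∃ t : ℤ, |t - m| < d ∧ lev b t % Mb b = 0)) ⊆
      ((Finset.Ico (a0 - d) (a0 + L + d)).filter (fun m => lev b m % Mb b = 0)).biUnion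
        (fun t => Finset.Ico (t - d) (t + d)) := by
    intro m hm
    simp only [Finset.mem_filter, Finset.mem_Ico, Finset.mem_biUnion] at hm ⊢
    obtain ⟨hm, t, ht, ht2⟩ := hm
    rw [abs_lt] at ht
    exact ⟨t, ⟨by omega, ht2⟩, by omega⟩
  refine (Finset.card_le_card h1).trans (Finset.card_biUnion_le.trans ?_)
  calc _ ≤ ∑ _t ∈ ((Finset.Ico (a0 - d) (a0 + L + d)).filter (fun m => lev b m % Mb b = 0)),
        2 * d := by
        refine Finset.sum_le_sum fun t _ => ?_
        rw [Int.card_Ico]; omega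
    _ = _ := by rw [Finset.sum_const, smul_eq_mul, mul_comm]

/-- if the cell changes there is a cell start -/
theorem exists_start {b : ℕ} (hS : Steps lev b) {m m' : ℤ} (h : m ≤ m')
    (hc : cell lev b m ≠ cell lev b m') : ∃ t, m < t ∧ t ≤ m' ∧ lev b t % Mb b = 0 := by
  by_contra hcon
  push Not at hcon
  apply hc
  obtain ⟨j, hj⟩ := Int.eq_ofNat_of_zero_le (sub_nonneg.2 h)
  have key : ∀ i : ℕ, i ≤ j → cell lev b (m + i) = cell lev b m := by
    intro i
    induction i with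
    | zero => simp
    | succ i ih =>
      intro hi
      have h1 := ih (by omega)
      have h2 := hcon (m + i + 1) (by omega) (by omega)
      rw [← h1]
      have e1 : m + ((i + 1 : ℕ) : ℤ) = m + i + 1 := by push_cast; ring
      rw [e1]
      rcases hS (m + i) with h3 | h3
      · unfold cell
        rw [h3] at h2 ⊢
        rw [Nat.succ_div, if_neg]
        · simp
        · intro hd
          exact h2 (Nat.mod_eq_zero_of_dvd hd)
      · rw [h3] at h2
        simp at h2
  have := key j le_rfl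
  rw [← this]
  congr 1
  omega

/-! ### numerical facts -/

/-- `Π M ≤ q` in the form needed -/
theorem q_facts {b : ℕ} (hq : 4 ^ b * (Pib b * Mb b) ≤ q) :
    1024 * (4 : ℝ) ^ b * Mb b ≤ q ∧ 1024 * (4 : ℝ) ^ b * (rb b * Mb b) ≤ q := by
  have h1 : 4 ^ b * (Pib b * Mb b) = (4 ^ b * Mb b) * Pib b := by ring
  have h2 : (4 ^ b * Mb b) * (1024 * rb b) ≤ q :=
    (Nat.mul_le_mul_left _ (rb_le_Pib b)).trans (h1 ▸ hq)
  have h3 : (4 ^ b * Mb b) * 1024 ≤ q :=
    (Nat.mul_le_mul_left _ (Pib_ge b)).trans (h1 ▸ hq)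
  constructor
  · have : ((4 ^ b * Mb b * 1024 : ℕ) : ℝ) ≤ q := by exact_mod_cast h3
    push_cast at this
    linarith
  · have : ((4 ^ b * Mb b * (1024 * rb b) : ℕ) : ℝ) ≤ q := by exact_mod_cast h2
    push_cast at this
    linarith

/-- all cell starts near `[0,q)`: `# * M ≤ 2 q` -/
theorem starts_le (hO : OrbitData w c e g u lev bad) (hC : OrbitCounts q N B J lev bad) {b : ℕ}
    (hb : 1 ≤ b) (hB : B ≤ b) (hJ : b ≤ J) (hN : 2 * (Pib b * Mb b) ≤ N)
    {x y : ℕ} (hx : x ≤ Mb b) (hy : y ≤ Mb b) :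
    (((Finset.Ico (-(x : ℤ)) ((q : ℤ) + y)).filter (fun m => lev b m % Mb b = 0)).card : ℝ) * Mb b
      ≤ q + 3 * Mb b + zb b * q / Pib b := by
  have hN1 : Mb b ≤ N := by
    have h1 := Pib_ge b
    calc Mb b = 1 * Mb b := (one_mul _).symm
      _ ≤ Pib b * Mb b := Nat.mul_le_mul_right _ (by omega)
      _ ≤ N := by omega
  have e1 : (q : ℤ) + y = -(x : ℤ) + ((x + q + y : ℕ) : ℤ) := by push_cast; ring
  have h2 := starts_total hO hC hb hB hJ (a0 := -(x : ℤ)) (L := x + q + y) (by omega)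
    (by push_cast; omega)
  rw [e1]
  refine h2.trans ?_
  push_cast
  have hx' : (x : ℝ) ≤ Mb b := by exact_mod_cast hx
  have hy' : (y : ℝ) ≤ Mb b := by exact_mod_cast hy
  linarith

theorem zb_le_half {b : ℕ} (hb : 1 ≤ b) : zb b ≤ 1 / 2 := by
  unfold zb
  calc (1 / 2 : ℝ) ^ b ≤ (1 / 2 : ℝ) ^ 1 :=
        pow_le_pow_of_le_one (by norm_num) (by norm_num) hb
    _ = 1 / 2 := by norm_num

theorem starts_le_two (hO : OrbitData w c e g u lev bad) (hC : OrbitCounts q N B J lev bad)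
    {b : ℕ} (hb : 1 ≤ b) (hB : B ≤ b) (hJ : b ≤ J) (hN : 2 * (Pib b * Mb b) ≤ N)
    (hq : 4 ^ b * (Pib b * Mb b) ≤ q) {x y : ℕ} (hx : x ≤ Mb b) (hy : y ≤ Mb b) :
    (((Finset.Ico (-(x : ℤ)) ((q : ℤ) + y)).filter (fun m => lev b m % Mb b = 0)).card : ℝ) * Mb b
      ≤ 2 * q := by
  refine (starts_le hO hC hb hB hJ hN hx hy).trans ?_
  have h1 := (q_facts hq).1
  have h4 : (1 : ℝ) ≤ 4 ^ b := one_le_pow₀ (by norm_num)
  have hM : (0 : ℝ) ≤ Mb b := by positivity
  have h5 : (1024 : ℝ) * Mb b ≤ q := by nlinarith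
  have h6 : zb b * q / Pib b ≤ q / 1024 := by
    have hP : (1024 : ℝ) ≤ Pib b := by exact_mod_cast Pib_ge b
    have hz := zb_le_half hb
    have hz0 := zb_pos b
    have hq0 : (0 : ℝ) ≤ q := by positivity
    rw [div_le_div_iff₀ (by positivity) (by norm_num)]
    nlinarith [mul_nonneg hq0 hz0.le]
  have hq0 : (0 : ℝ) ≤ q := by positivity
  linarith

theorem g_lt (hG : IsGrowth c e g) {b : ℕ} (hb : 1 ≤ b) : g b ≤ Mb b := by
  have := hG.g_le b hb
  have h4 : 1 ≤ 4 ^ b := Nat.one_le_pow _ _ (by norm_num)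
  nlinarith

theorem four_zb (b : ℕ) : zb b * (4 : ℝ) ^ b = 2 ^ b := by
  unfold zb
  rw [one_div, inv_pow]
  have : (4 : ℝ) ^ b = 2 ^ b * 2 ^ b := by rw [← mul_pow]; norm_num
  rw [this]
  field_simp

/-- number of positions in `[0,q)` with small phase -/
theorem phase_le (hG : IsGrowth c e g) (hO : OrbitData w c e g u lev bad)
    (hC : OrbitCounts q N B J lev bad)
    {b : ℕ} (hb : 1 ≤ b) (hB : B ≤ b) (hJ : b ≤ J) (hN : 2 * (Pib b * Mb b) ≤ N)
    (hq : 4 ^ b * (Pib b * Mb b) ≤ q) :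
    (((univ : Finset (Fin q)).filter
      (fun m : Fin q => lev b ((m : ℕ) : ℤ) % Mb b < g b)).card : ℝ) ≤ zb b * q := by
  rw [card_fin_filter q (fun m => lev b m % Mb b < g b)]
  have h1 := phase_card (steps hO hb) 0 q (g b)
  have h2 := starts_le_two hO hC hb hB hJ hN hq (g_lt hG hb) (Nat.zero_le _)
  simp only [zero_add, zero_sub, Nat.cast_zero, add_zero] at h1 h2
  have h3 : (4 : ℝ) ^ b * g b ≤ Mb b := by exact_mod_cast hG.g_le b hb
  have h1' : (((Finset.Ico (0 : ℤ) q).filter (fun m => lev b m % Mb b < g b)).card : ℝ) ≤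
      g b * ((Finset.Ico (-(g b : ℤ)) q).filter (fun m => lev b m % Mb b = 0)).card := by
    exact_mod_cast h1
  refine h1'.trans ?_
  set S : ℝ := (((Finset.Ico (-(g b : ℤ)) q).filter (fun m => lev b m % Mb b = 0)).card : ℝ)
    with hS
  have hS0 : 0 ≤ S := by positivity
  have h5 : (4 : ℝ) ^ b * (g b * S) ≤ 2 * q := by nlinarith
  have h6 : (4 : ℝ) ^ b * (zb b * q) = 2 ^ b * q := by
    rw [← mul_assoc, mul_comm ((4 : ℝ) ^ b), four_zb]
  have h7 : (2 : ℝ) ≤ 2 ^ b := by
    calc (2 : ℝ) = 2 ^ 1 := by norm_num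
      _ ≤ 2 ^ b := pow_le_pow_right₀ (by norm_num) hb
  have h8 : (0 : ℝ) < 4 ^ b := by positivity
  have hq0 : (0 : ℝ) ≤ q := by positivity
  have h9 : (4 : ℝ) ^ b * (g b * S) ≤ (4 : ℝ) ^ b * (zb b * q) := by
    rw [h6]; nlinarith
  exact le_of_mul_le_mul_left h9 h8

open Classical in
theorem count_bad (hC : OrbitCounts q N B J lev bad) {b : ℕ} (hB : B ≤ b) (hJ : b ≤ J) :
    (((univ : Finset (Fin q)).filter (fun m : Fin q => ∃ i : ℤ, |i| ≤ 2 * (Mb b : ℤ) ∧
      (((m : ℕ) : ℤ) + i ∈ bad b))).card : ℝ) ≤ zb b * q := by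
  rw [card_fin_filter q (fun m => ∃ i : ℤ, |i| ≤ 2 * (Mb b : ℤ) ∧ (m + i ∈ bad b))]
  refine le_trans ?_ (hC.bad_count b hB hJ)
  norm_cast
  apply Finset.card_le_card
  apply Finset.filter_subset_filter
  intro m hm
  simp only [Finset.mem_Ico, Finset.mem_Icc] at hm ⊢
  omega

open Classical in
theorem count_bad' (hC : OrbitCounts q N B J lev bad) {b : ℕ} (hB : B ≤ b) (hJ : b ≤ J) :
    (((univ : Finset (Fin q)).filter (fun m : Fin q => ((m : ℕ) : ℤ) ∈ bad b)).card : ℝ) ≤
      zb b * q := by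
  refine le_trans ?_ (count_bad hC hB hJ)
  norm_cast
  apply Finset.card_le_card
  intro m hm
  simp only [Finset.mem_filter, Finset.mem_univ, true_and] at hm ⊢
  exact ⟨0, by simp, by simpa using hm⟩

/-- the windows with given number `p` inside the cell occupy about `q / D` positions -/
theorem count_pw (hO : OrbitData w c e g u lev bad) (hC : OrbitCounts q N B J lev bad)
    (hb : 1 ≤ b0) (hB : B ≤ b0) (hJ : b0 ≤ J) (hN : 2 * (Pib b0 * Mb b0) ≤ N)
    (hq : 4 ^ b0 * (Pib b0 * Mb b0) ≤ q) (hl : 0 < l) (hlD : D * l = Mb b0) (p : ℕ) :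
    (((univ : Finset (Fin q)).filter (fun m : Fin q => pw lev b0 l ((m : ℕ) : ℤ) = p)).card : ℝ) ≤
      (1 / (D : ℝ) + 16 * zb b0) * q := by
  classical
  rw [card_fin_filter q (fun m => pw lev b0 l m = p)]
  -- injection into starts × [p l, p l + l)
  have hM := Mb_pos b0
  have h1 : ((Finset.Ico (0 : ℤ) q).filter (fun m => pw lev b0 l m = p)).card ≤
      (Finset.range l ×ˢ ((Finset.Ico (-(Mb b0 : ℤ)) ((q : ℤ) + (0 : ℕ))).filter
        (fun m => lev b0 m % Mb b0 = 0))).card := by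
    apply Finset.card_le_card_of_injOn
      (fun m => (lev b0 m % Mb b0 - p * l, m - ((lev b0 m % Mb b0 : ℕ) : ℤ)))
    · intro m hm
      simp only [Finset.coe_filter, Set.mem_ofPred_eq, Finset.mem_Ico, Finset.coe_product,
        Set.mem_prod, Finset.mem_coe, Finset.mem_range] at hm ⊢
      have h2 := lev_sub (steps hO hb) m (lev b0 m % Mb b0) (Nat.mod_le _ _)
      have h3 := Nat.mod_lt (lev b0 m) hM
      have h4 : lev b0 m % Mb b0 < (p + 1) * l := by
        rw [← hm.2]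
        unfold pw
        rw [mul_comm]
        exact Nat.lt_mul_div_succ _ hl
      have h5 : (p + 1) * l = p * l + l := by ring
      refine ⟨by omega, by push_cast at *; omega, ?_⟩
      rw [h2]
      exact Nat.sub_mod_eq_zero_of_mod_eq (by simp)
    · intro m hm m' hm' h
      simp only [Finset.coe_filter, Set.mem_ofPred_eq, Finset.mem_Ico] at hm hm'
      simp only [Prod.mk.injEq] at h
      have h6 : p * l ≤ lev b0 m % Mb b0 := by
        rw [← hm.2]; exact Nat.div_mul_le_self _ _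
      have h7 : p * l ≤ lev b0 m' % Mb b0 := by
        rw [← hm'.2]; exact Nat.div_mul_le_self _ _
      omega
  rw [Finset.card_product, Finset.card_range] at h1
  have h2 := starts_le hO hC hb hB hJ hN (le_refl (Mb b0)) (Nat.zero_le _)
  have h3 := (q_facts hq).1
  set S : ℝ := (((Finset.Ico (-(Mb b0 : ℤ)) ((q : ℤ) + (0 : ℕ))).filter
        (fun m => lev b0 m % Mb b0 = 0)).card : ℝ) with hS
  have h1' : (((Finset.Ico (0 : ℤ) q).filter (fun m => pw lev b0 l m = p)).card : ℝ) ≤ l * S := by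
    rw [hS]; exact_mod_cast h1
  refine h1'.trans ?_
  have hD : (0 : ℝ) < D := by exact_mod_cast D_pos hlD
  have hlD' : (D : ℝ) * l = Mb b0 := by exact_mod_cast hlD
  have h4 : (D : ℝ) * (l * S) ≤ q + 3 * Mb b0 + zb b0 * q / Pib b0 := by
    calc (D : ℝ) * (l * S) = S * Mb b0 := by rw [← hlD']; ring
      _ ≤ _ := h2
  have h5 : (1024 : ℝ) * Mb b0 ≤ zb b0 * q := by
    have h8 : (0 : ℝ) < 4 ^ b0 := by positivity
    have h9 := four_zb b0
    have h10 : (1 : ℝ) ≤ 2 ^ b0 := one_le_pow₀ (by norm_num)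
    have hq0 : (0 : ℝ) ≤ q := by positivity
    have : (4 : ℝ) ^ b0 * (1024 * Mb b0) ≤ 4 ^ b0 * (zb b0 * q) := by
      calc (4 : ℝ) ^ b0 * (1024 * Mb b0) = 1024 * 4 ^ b0 * Mb b0 := by ring
        _ ≤ q := h3
        _ ≤ 2 ^ b0 * q := by nlinarith
        _ = 4 ^ b0 * (zb b0 * q) := by rw [← h9]; ring
    exact le_of_mul_le_mul_left this h8
  have h6 : zb b0 * q / Pib b0 ≤ zb b0 * q := by
    have hP : (1 : ℝ) ≤ Pib b0 := by exact_mod_cast Pib_pos b0
    exact div_le_self (mul_nonneg (zb_pos b0).le (by positivity)) hP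
  have hz := mul_nonneg (zb_pos b0).le (by positivity : (0 : ℝ) ≤ q)
  have hD1 : (1 : ℝ) ≤ D := by exact_mod_cast D_pos hlD
  have h7 : (D : ℝ) * (l * S) ≤ D * ((1 / (D : ℝ) + 16 * zb b0) * q) := by
    have : (D : ℝ) * ((1 / (D : ℝ) + 16 * zb b0) * q) = q + D * (16 * (zb b0 * q)) := by
      field_simp
    rw [this]
    nlinarith
  exact le_of_mul_le_mul_left h7 hD

end Crest.Agent.R113.Orb
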