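import Crest.Agent.R113.Fib.Reduce
import Crest.Agent.R113.Glue
import Crest.Agent.R113.GlueMain
import Crest.Agent.R113.Circ.Main_Mg
import Crest.Agent.R113.Defs
import Crest.Agent.R113.FD.Orbit
import Crest.Agent.R113.FD.Final
import Crest.Agent.R113.FD.OrbitB
import Crest.Agent.R113.Basic
import Crest.Agent.R113.FluxLA
import Crest.Agent.R113.NearInv
import Crest.Agent.R113.WL
import Crest.Agent.R113.FD.OrbitA
import Crest.Agent.R113.CS
import Crest.Agent.R113.FD.OffBridge_Mg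

-- ▼ part R113/Fib/SFib
section

/-!
T15 in the form used by `Glue.lean`.
-/

set_option autoImplicit false
open MeasureTheory

namespace Crest.Agent.R113

theorem s_fibres : S_Fibres := by
  intro θ f hf U V p hUV hp hpr hinv
  obtain ⟨P, h1, h2, h3, h4, h5⟩ := Fib.exists_fibres θ f hf U V p hUV hp hpr hinv
  refine ⟨P, ⟨h1, h2, h3, ?_⟩, h5, ?_, ?_⟩
  · intro x T hT
    refine h4 x T ?_
    intro m
    rw [hT m]
    congr 4
    rw [← zsmul_eq_mul, AddCircle.coe_zsmul]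
  · intro hz
    exact Fib.eq_zero_of_dz hUV hp (by simpa using hz)
  · intro ho
    have h6 := Fib.norm_sq_add hpr (Fib.dz ((0, 0) : ℤ × ℤ))
    rw [Fib.norm_dz, one_pow, ho] at h6
    have h7 : ‖(1 - p) (Fib.dz ((0, 0) : ℤ × ℤ))‖ ^ 2 = 0 := by linarith
    have h8 := Fib.eq_zero_of_dz hUV (Fib.one_sub_mem hp) (by simpa using h7)
    exact (sub_eq_zero.1 h8).symm

end Crest.Agent.R113
end

-- ▼ part R113/S0149Main
section

/-! # Row 113: S0149 from the finite dimensional theorem -/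

set_option autoImplicit false

namespace Crest.Agent.R113

open MeasureTheory

theorem s0149_of_fd (hFD : S_FD) (θ : ℝ) (hθ : Irrational θ) :
    ∃ f : ℂ → ℝ, Continuous f ∧ (∀ z : ℂ, ‖z‖ = 1 → 0 ≤ f z ∧ f z ≤ 1) ∧
      (∀ z : ℂ, ‖z‖ = 1 → (f z = 0 ↔ z = 1)) ∧
      (∫⁻ t in Set.Ioc (0 : ℝ) (2 * Real.pi),
          ENNReal.ofReal (- Real.log (f (Complex.exp ((t : ℂ) * Complex.I)))) = ⊤) ∧
      ∀ U V : lp (fun _ : ℤ × ℤ => ℂ) 2 →L[ℂ] lp (fun _ : ℤ × ℤ => ℂ) 2,
        Crest.AnalysisR.RotationRep.IsRotationPair θ U V →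
        ∀ p : lp (fun _ : ℤ × ℤ => ℂ) 2 →L[ℂ] lp (fun _ : ℤ × ℤ => ℂ) 2,
          p ∈ Crest.AnalysisR.RotationRep.vonNeumannGenerated {U, V} → IsStarProjection p →
          (1 - p) * (U * cfc (fun z : ℂ => (f z : ℂ)) V) * p = 0 → p = 0 ∨ p = 1 :=
  s0149_of hFD Transfer.transfer Transfer.counts Circ.exists_design s_fibres θ hθ

end Crest.Agent.R113
end

-- ▼ part R113/FD/AGoodDef
section

/-!
Row 113, S0149, T12: good windows (definition).
A window `[s0, s0+l)` is good if it starts at a level divisible by `l`, its number `p` in the cell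
satisfies `1 ≤ p ≤ D-2`, and `[s0, s0+2l) ⊂ [0,q)` is free of `bad b0`.
-/

set_option autoImplicit false

namespace Crest.Agent.R113.Orb

open Finset

open Classical in
/-- starts of the good windows -/
noncomputable def goodW (lev : ℕ → ℤ → ℕ) (bad : ℕ → Set ℤ) (b0 l D q : ℕ) : Finset ℕ :=
  (range q).filter (fun s0 => s0 + 2 * l ≤ q ∧ lev b0 s0 % l = 0 ∧ 1 ≤ pw lev b0 l s0 ∧
    pw lev b0 l s0 + 2 ≤ D ∧ ∀ i : ℕ, i < 2 * l → ((s0 : ℤ) + i) ∉ bad b0)

end Crest.Agent.R113.Orb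
end

-- ▼ part R113/FD/AGoodCW
section

/-!
Row 113, S0149, T12: costs and weights in good windows (helper205).
-/

set_option autoImplicit false

namespace Crest.Agent.R113.Orb

open Finset

variable {w : ℕ → ℕ → Bool} {c e : ℕ → ℝ} {g : ℕ → ℕ} {u : ℤ → ℝ} {lev : ℕ → ℤ → ℕ}
  {bad : ℕ → Set ℤ} {q N B J b0 l D K : ℕ}

/-- levels in `[s0, s0 + 2l)`, `s0` a good window -/
theorem good_lev (hO : OrbitData w c e g u lev bad) (hb : 1 ≤ b0) (hl : 0 < l)
    (hlD : D * l = Mb b0) {s0 : ℕ} (hs : s0 ∈ goodW lev bad b0 l D q) {j : ℕ} (hj : j < 2 * l) :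
    lev b0 ((s0 : ℤ) + j) = lev b0 s0 + j ∧
      lev b0 ((s0 : ℤ) + j) / Mb b0 = lev b0 s0 / Mb b0 ∧
      lev b0 ((s0 : ℤ) + j) % Mb b0 = lev b0 s0 % Mb b0 + j ∧
      l ≤ lev b0 s0 % Mb b0 ∧ lev b0 s0 % Mb b0 + 2 * l ≤ Mb b0 ∧
      ((s0 : ℤ) + j) ∉ bad b0 := by
  classical
  unfold goodW at hs
  rw [Finset.mem_filter] at hs
  obtain ⟨_, h1, h2, h3, h4, h5⟩ := hs
  have hbad : ((s0 : ℕ) : ℤ) ∉ bad b0 := by
    have := h5 0 (by omega)
    simpa using this
  have hPM : l ≤ Pib b0 * Mb b0 := (l_le hlD).trans (Nat.le_mul_of_pos_left _ (Pib_pos b0))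
  have hlev := lev_good hO hb hbad (m' := (s0 : ℤ) + j) (by
    have : (s0 : ℤ) + j - s0 = j := by ring
    rw [this, abs_of_nonneg (by positivity)]
    have : j ≤ 2 * (Pib b0 * Mb b0) := by omega
    exact_mod_cast this)
  have hlev' : lev b0 ((s0 : ℤ) + j) = lev b0 s0 + j := by omega
  -- phase of s0
  set L := lev b0 (s0 : ℤ) with hL
  have hph : L % Mb b0 = l * pw lev b0 l (s0 : ℤ) := by
    have hd : l ∣ L % Mb b0 := by
      have hlM : l ∣ Mb b0 := ⟨D, by rw [← hlD]; ring⟩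
      exact (Nat.dvd_mod_iff hlM).2 (Nat.dvd_of_mod_eq_zero h2)
    unfold pw
    exact (Nat.mul_div_cancel' hd).symm
  have h6 : l ≤ L % Mb b0 := by
    rw [hph]; exact Nat.le_mul_of_pos_right l (by omega)
  have h7 : L % Mb b0 + 2 * l ≤ Mb b0 := by
    rw [hph, ← hlD]
    calc l * pw lev b0 l (s0 : ℤ) + 2 * l = (pw lev b0 l (s0 : ℤ) + 2) * l := by ring
      _ ≤ D * l := Nat.mul_le_mul_right _ h4
  have hM := Mb_pos b0
  have e0 := Nat.div_add_mod L (Mb b0)
  have h8 : L % Mb b0 + j < Mb b0 := by omega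
  have h9 : L + j = (L % Mb b0 + j) + Mb b0 * (L / Mb b0) := by omega
  refine ⟨hlev', ?_, ?_, h6, h7, h5 j hj⟩
  · rw [hlev', h9, Nat.add_mul_div_left _ _ hM, Nat.div_eq_of_lt h8, zero_add]
  · rw [hlev', h9, Nat.add_mul_mod_self_left, Nat.mod_eq_of_lt h8]

/-- costs inside a good window are at most `e` -/
theorem good_cost_ (hO : OrbitData w c e g u lev bad) (hb : 1 ≤ b0) (hl : 0 < l)
    (hlD : D * l = Mb b0) (hg : g b0 ≤ l) {s0 : ℕ} (hs : s0 ∈ goodW lev bad b0 l D q)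
    (i : ℕ) (hi : i < l) : u ((s0 : ℤ) + i) ≤ e b0 := by
  obtain ⟨a1, a2, a3, a4, a5, a6⟩ := good_lev hO hb hl hlD hs (j := i) (by omega)
  have hM := Mb_pos b0
  set L := lev b0 ((s0 : ℤ) + i) with hL
  have e0 := Nat.div_add_mod L (Mb b0)
  have h8 : L % Mb b0 + 1 < Mb b0 := by omega
  have h9 : L + 1 = (L % Mb b0 + 1) + Mb b0 * (L / Mb b0) := by omega
  have hdiv : (L + 1) / Mb b0 = L / Mb b0 := by
    rw [h9, Nat.add_mul_div_left _ _ hM, Nat.div_eq_of_lt h8, zero_add]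
  have hmod : (L + 1) % Mb b0 = L % Mb b0 + 1 := by
    rw [h9, Nat.add_mul_mod_self_left, Nat.mod_eq_of_lt h8]
  have h1 := hO.cost_high b0 hb ((s0 : ℤ) + i) a6 1 (Nat.mul_pos (rb_pos b0) hM)
    (by rw [← hL]; omega) (by rw [← hL, hmod]; omega)
  have h2 : wsum u ((s0 : ℤ) + i) 1 = u ((s0 : ℤ) + i) := by
    unfold wsum; simp
  have h3 : idealCost w c b0 L 1 = 0 := by
    unfold idealCost
    rw [hdiv]
    ring
  rw [h2, ← hL, h3, zero_add] at h1
  exact h1

/-- `g` does not decrease from a good window to the next one -/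
theorem good_weight_ (hO : OrbitData w c e g u lev bad) (hb : 1 ≤ b0) (hl : 0 < l)
    (hlD : D * l = Mb b0) {n : ℕ} (hn : n < l) {s0 : ℕ} (hs : s0 ∈ goodW lev bad b0 l D q)
    (i : ℕ) (hi : s0 ≤ i) (hi' : i < s0 + l) :
    gfun w lev b0 l K (i : ℤ) ≤ gfun w lev b0 l K ((i : ℤ) + n) := by
  obtain ⟨j, rfl⟩ := Nat.exists_eq_add_of_le hi
  obtain ⟨a1, a2, _⟩ := good_lev hO hb hl hlD hs (j := j) (by omega)
  obtain ⟨b1, b2, _⟩ := good_lev hO hb hl hlD hs (j := j + n) (by omega)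
  have e1 : ((s0 + j : ℕ) : ℤ) = (s0 : ℤ) + j := by push_cast; ring
  have e2 : (s0 : ℤ) + j + n = (s0 : ℤ) + ((j + n : ℕ) : ℤ) := by push_cast; ring
  rw [e1]
  apply gfun_mono
  · rw [e2, b1, a1]; ring
  · unfold cell
    rw [e2, b2, a2]

end Crest.Agent.R113.Orb
end

-- ▼ part R113/FD/AGoodCount
section

/-!
Row 113, S0149, T12 (helper244): the good windows cover almost everything.
-/

set_option autoImplicit false

namespace Crest.Agent.R113.Orb

open Finset

attribute [local irreducible] Mb rb Pib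

variable {w : ℕ → ℕ → Bool} {c e : ℕ → ℝ} {g : ℕ → ℕ} {u : ℤ → ℝ} {lev : ℕ → ℤ → ℕ}
  {bad : ℕ → Set ℤ} {q N B J b0 l D K : ℕ}

theorem good_mem (hO : OrbitData w c e g u lev bad) (hb : 1 ≤ b0) (hl : 0 < l)
    (hlD : D * l = Mb b0) (m : ℕ) (h1 : l ≤ m) (h2 : m + 2 * l ≤ q)
    (h3 : pw lev b0 l (m : ℤ) ≠ 0) (h4 : pw lev b0 l (m : ℤ) ≠ D - 1)
    (h5 : ¬ ∃ i : ℤ, |i| ≤ 2 * (Mb b0 : ℤ) ∧ ((m : ℤ) + i ∈ bad b0)) :
    ∃ s0 ∈ goodW lev bad b0 l D q, s0 ≤ m ∧ m < s0 + l := by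
  classical
  have hx : lev b0 (m : ℤ) % l < l := Nat.mod_lt _ hl
  have hx' : lev b0 (m : ℤ) % l ≤ lev b0 (m : ℤ) := Nat.mod_le _ _
  set x := lev b0 (m : ℤ) % l with hxdef
  have hlM := l_le hlD
  have hs : ((m - x : ℕ) : ℤ) = (m : ℤ) - x := by omega
  have hlev : lev b0 (((m - x : ℕ) : ℤ)) = lev b0 (m : ℤ) - x := by
    rw [hs]; exact lev_sub (steps hO hb) _ _ hx'
  have hdiv : lev b0 (m : ℤ) - x = l * (lev b0 (m : ℤ) / l) := by
    have := Nat.div_add_mod (lev b0 (m : ℤ)) l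
    omega
  have hpw : pw lev b0 l (((m - x : ℕ) : ℤ)) = pw lev b0 l (m : ℤ) := by
    rw [pw_eq hlD, pw_eq hlD, hlev, hdiv, Nat.mul_div_cancel_left _ hl]
  have hlt := pw_lt (lev := lev) hlD (m : ℤ)
  refine ⟨m - x, ?_, by omega, by omega⟩
  unfold goodW
  rw [mem_filter, mem_range]
  refine ⟨by omega, by omega, ?_, ?_, ?_, ?_⟩
  · rw [hlev, hdiv]; exact Nat.mul_mod_right _ _
  · rw [hpw]; omega
  · rw [hpw]; omega
  · intro i hi hbad
    apply h5
    refine ⟨(i : ℤ) - x, ?_, ?_⟩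
    · rw [abs_le]; omega
    · rw [hs] at hbad
      have : (m : ℤ) + ((i : ℤ) - x) = (m : ℤ) - x + i := by ring
      rwa [this]

/-- the good windows cover almost everything -/
theorem good_count' (hO : OrbitData w c e g u lev bad) (hC : OrbitCounts q N B J lev bad)
    (hb : 1 ≤ b0) (hB : B ≤ b0) (hJ : b0 ≤ J) (hN : 2 * (Pib b0 * Mb b0) ≤ N)
    (hq : 4 ^ b0 * (Pib b0 * Mb b0) ≤ q) (hl : 0 < l) (hlD : D * l = Mb b0) :
    (1 - (2 / D + 50 * zb b0)) * q ≤ l * (goodW lev bad b0 l D q).card := by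
  classical
  set S0 := (univ : Finset (Fin q)).filter (fun m : Fin q => pw lev b0 l ((m : ℕ) : ℤ) = 0)
  set S1 := (univ : Finset (Fin q)).filter (fun m : Fin q => pw lev b0 l ((m : ℕ) : ℤ) = D - 1)
  set S2 := (univ : Finset (Fin q)).filter (fun m : Fin q => ∃ i : ℤ, |i| ≤ 2 * (Mb b0 : ℤ) ∧
      (((m : ℕ) : ℤ) + i ∈ bad b0))
  set S3 := (univ : Finset (Fin q)).filter (fun m : Fin q => (m : ℕ) < l)
  set S4 := (univ : Finset (Fin q)).filter (fun m : Fin q => q < (m : ℕ) + 2 * l)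
  set G := (goodW lev bad b0 l D q).biUnion
    (fun s0 => (univ : Finset (Fin q)).filter (fun m : Fin q => s0 ≤ (m : ℕ) ∧ (m : ℕ) < s0 + l))
  have hcov : (univ : Finset (Fin q)) ⊆ S0 ∪ (S1 ∪ (S2 ∪ (S3 ∪ (S4 ∪ G)))) := by
    intro m _
    simp only [mem_union]
    by_cases h0 : m ∈ S0
    · exact Or.inl h0
    by_cases h1 : m ∈ S1
    · exact Or.inr (Or.inl h1)
    by_cases h2 : m ∈ S2
    · exact Or.inr (Or.inr (Or.inl h2))
    by_cases h3 : m ∈ S3
    · exact Or.inr (Or.inr (Or.inr (Or.inl h3)))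
    by_cases h4 : m ∈ S4
    · exact Or.inr (Or.inr (Or.inr (Or.inr (Or.inl h4))))
    right; right; right; right; right
    rw [mem_filter] at h0 h1 h2 h3 h4
    simp only [mem_univ, true_and] at h0 h1 h2 h3 h4
    obtain ⟨s0, hs0, h5, h6⟩ := good_mem (q := q) hO hb hl hlD (m : ℕ) (by omega) (by omega)
      h0 h1 h2
    rw [mem_biUnion]
    exact ⟨s0, hs0, by rw [mem_filter]; exact ⟨mem_univ _, h5, h6⟩⟩
  have c0 : (S0.card : ℝ) ≤ (1 / (D : ℝ) + 16 * zb b0) * q :=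
    count_pw hO hC hb hB hJ hN hq hl hlD 0
  have c1 : (S1.card : ℝ) ≤ (1 / (D : ℝ) + 16 * zb b0) * q :=
    count_pw hO hC hb hB hJ hN hq hl hlD (D - 1)
  have c2 : (S2.card : ℝ) ≤ zb b0 * q := count_bad hC hB hJ
  have c3 : S3.card ≤ l := by
    have : S3.card ≤ (range l).card := by
      apply Finset.card_le_card_of_injOn (fun m : Fin q => (m : ℕ))
      · intro m hm
        have hm' := (mem_filter.mp hm).2
        simpa using hm'
      · intro m _ m' _ h
        exact Fin.ext h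
    simpa using this
  have c4 : S4.card ≤ 2 * l := by
    have : S4.card ≤ (Ico (q - 2 * l) q).card := by
      apply Finset.card_le_card_of_injOn (fun m : Fin q => (m : ℕ))
      · intro m hm
        have hm' := (mem_filter.mp hm).2
        have hm2 := m.2
        simp only [coe_Ico, Set.mem_Ico]
        omega
      · intro m _ m' _ h
        exact Fin.ext h
    rw [Nat.card_Ico] at this
    omega
  have cG : G.card ≤ (goodW lev bad b0 l D q).card * l := by
    apply Finset.card_biUnion_le_card_mul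
    intro s0 _
    have : ((univ : Finset (Fin q)).filter
        (fun m : Fin q => s0 ≤ (m : ℕ) ∧ (m : ℕ) < s0 + l)).card ≤ (Ico s0 (s0 + l)).card := by
      apply Finset.card_le_card_of_injOn (fun m : Fin q => (m : ℕ))
      · intro m hm
        have hm' := (mem_filter.mp hm).2
        simp only [coe_Ico, Set.mem_Ico]
        exact hm'
      · intro m _ m' _ h
        exact Fin.ext h
    simpa using this
  have htot : q ≤ S0.card + (S1.card + (S2.card + (S3.card + (S4.card + G.card)))) := by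
    have h := Finset.card_le_card hcov
    rw [Finset.card_univ, Fintype.card_fin] at h
    refine h.trans ((Finset.card_union_le _ _).trans (Nat.add_le_add_left ?_ _))
    refine (Finset.card_union_le _ _).trans (Nat.add_le_add_left ?_ _)
    refine (Finset.card_union_le _ _).trans (Nat.add_le_add_left ?_ _)
    refine (Finset.card_union_le _ _).trans (Nat.add_le_add_left ?_ _)
    exact Finset.card_union_le _ _
  have hlz : (3 * l : ℝ) ≤ zb b0 * q := by
    have h1 : 1024 ≤ Pib b0 := Pib_ge b0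
    have hlM := l_le hlD
    have h2 : 2 ^ b0 * (3 * l) ≤ q := by
      have h3 : 2 ^ b0 ≤ 4 ^ b0 := Nat.pow_le_pow_left (by norm_num) _
      have h4 : 3 * l ≤ Pib b0 * Mb b0 := by
        calc 3 * l ≤ 1024 * Mb b0 := by omega
          _ ≤ Pib b0 * Mb b0 := Nat.mul_le_mul_right _ h1
      exact (Nat.mul_le_mul h3 h4).trans hq
    have h5 : ((2 : ℝ) ^ b0) * (3 * l) ≤ q := by exact_mod_cast h2
    have h6 : zb b0 * (2 : ℝ) ^ b0 = 1 := by
      unfold zb
      rw [← mul_pow]; norm_num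
    have h7 : 0 ≤ zb b0 := by unfold zb; positivity
    calc (3 * l : ℝ) = zb b0 * ((2 : ℝ) ^ b0 * (3 * l)) := by rw [← mul_assoc, h6, one_mul]
      _ ≤ zb b0 * q := mul_le_mul_of_nonneg_left h5 h7
  have htot' : (q : ℝ) ≤ S0.card + (S1.card + (S2.card + (S3.card + (S4.card + G.card)))) := by
    exact_mod_cast htot
  have c3' : (S3.card : ℝ) ≤ l := by exact_mod_cast c3
  have c4' : (S4.card : ℝ) ≤ 2 * l := by exact_mod_cast c4
  have cG' : (G.card : ℝ) ≤ (goodW lev bad b0 l D q).card * l := by exact_mod_cast cG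
  have hz : 0 ≤ zb b0 * q := by
    have : 0 ≤ zb b0 := by unfold zb; positivity
    positivity
  have e1 : (1 - (2 / (D : ℝ) + 50 * zb b0)) * q =
      q - 2 * ((1 / (D : ℝ) + 16 * zb b0) * q) - 18 * (zb b0 * q) := by ring
  rw [e1]
  linarith

end Crest.Agent.R113.Orb
end

-- ▼ part R113/FD/AGood
section

/-!
Row 113, S0149, T12: good windows (tiling, windows, colouring).
-/

set_option autoImplicit false

namespace Crest.Agent.R113.Orb

open Finset
open Crest.Agent.R113.FD (Tiling)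

variable {w : ℕ → ℕ → Bool} {c e : ℕ → ℝ} {g : ℕ → ℕ} {u : ℤ → ℝ} {lev : ℕ → ℤ → ℕ}
  {bad : ℕ → Set ℤ} {q N B J b0 l D K : ℕ}

theorem goodW_le {s0 : ℕ} (hs : s0 ∈ goodW lev bad b0 l D q) : s0 + 2 * l ≤ q := by
  classical
  unfold goodW at hs
  rw [Finset.mem_filter] at hs
  exact hs.2.1

theorem goodW_mod {s0 : ℕ} (hs : s0 ∈ goodW lev bad b0 l D q) : lev b0 s0 % l = 0 := by
  classical
  unfold goodW at hs
  rw [Finset.mem_filter] at hs
  exact hs.2.2.1

theorem good_tiling (hO : OrbitData w c e g u lev bad) (hb : 1 ≤ b0) (hl : 0 < l)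
    (hlD : D * l = Mb b0) : Tiling q l (goodW lev bad b0 l D q) where
  le s hs := by have := goodW_le hs; omega
  sep s hs t ht hst := by
    by_contra hcon
    obtain ⟨j, rfl⟩ : ∃ j, t = s + j := ⟨t - s, by omega⟩
    have h1 := (good_lev hO hb hl hlD hs (j := j) (by omega)).1
    have h2 := goodW_mod hs
    have h3 := goodW_mod ht
    push_cast at h3
    rw [h1, Nat.add_mod, h2, zero_add, Nat.mod_mod, Nat.mod_eq_of_lt (by omega)] at h3
    omega

theorem good_win (hO : OrbitData w c e g u lev bad) (hb : 1 ≤ b0) (hl : 0 < l)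
    (hlD : D * l = Mb b0) {s0 : ℕ} (hs : s0 ∈ goodW lev bad b0 l D q) : s0 + 2 * l ≤ q ∧
      (∀ i : Fin q, win lev b0 l ((i : ℕ) : ℤ) = s0 ↔ s0 ≤ (i : ℕ) ∧ (i : ℕ) < s0 + l) ∧
      (∀ i : Fin q, win lev b0 l ((i : ℕ) : ℤ) = (s0 + l : ℕ) ↔
        s0 + l ≤ (i : ℕ) ∧ (i : ℕ) < s0 + 2 * l) := by
  refine ⟨goodW_le hs, fun i => ?_, fun i => ?_⟩
  · constructor
    · intro h
      have := win_le (lev := lev) (b0 := b0) hl ((i : ℕ) : ℤ)
      rw [h] at this
      omega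
    · rintro ⟨h1, h2⟩
      obtain ⟨j, hj⟩ : ∃ j, (i : ℕ) = s0 + j := ⟨(i : ℕ) - s0, by omega⟩
      have h3 := (good_lev hO hb hl hlD hs (j := j) (by omega)).1
      have h4 := goodW_mod hs
      have h7 : lev b0 (((s0 + j : ℕ) : ℤ)) % l = j := by
        push_cast
        rw [h3, Nat.add_mod, h4, zero_add, Nat.mod_mod, Nat.mod_eq_of_lt (by omega)]
      unfold win
      rw [hj, h7]
      push_cast
      ring
  · constructor
    · intro h
      have := win_le (lev := lev) (b0 := b0) hl ((i : ℕ) : ℤ)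
      rw [h] at this
      push_cast at this
      omega
    · rintro ⟨h1, h2⟩
      obtain ⟨j, hj⟩ : ∃ j, (i : ℕ) = s0 + (l + j) := ⟨(i : ℕ) - s0 - l, by omega⟩
      have h3 := (good_lev hO hb hl hlD hs (j := l + j) (by omega)).1
      have h4 := goodW_mod hs
      have h7 : lev b0 (((s0 + (l + j) : ℕ) : ℤ)) % l = j := by
        push_cast at h3 ⊢
        rw [h3, Nat.add_mod, h4, zero_add, Nat.mod_mod, Nat.add_mod_left,
          Nat.mod_eq_of_lt (by omega)]
      unfold win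
      rw [hj, h7]
      push_cast
      ring

/-- colouring of windows by the parity of `p` -/
theorem good_col (hO : OrbitData w c e g u lev bad) (hb : 1 ≤ b0) (hl : 0 < l)
    (hlD : D * l = Mb b0) {s0 : ℕ} (hs : s0 ∈ goodW lev bad b0 l D q) :
    decide (pw lev b0 l ((s0 + l : ℕ) : ℤ) % 2 = 1) ≠ decide (pw lev b0 l (s0 : ℤ) % 2 = 1) := by
  have h1 := (good_lev hO hb hl hlD hs (j := l) (by omega)).2.2.1
  have h2 : pw lev b0 l ((s0 + l : ℕ) : ℤ) = pw lev b0 l (s0 : ℤ) + 1 := by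
    unfold pw
    push_cast
    rw [h1, Nat.add_div_right _ hl]
  rw [h2]
  intro h
  rw [decide_eq_decide] at h
  omega

/-- costs inside a good window are at most `e` -/
theorem good_cost (hO : OrbitData w c e g u lev bad) (hb : 1 ≤ b0) (hl : 0 < l)
    (hlD : D * l = Mb b0) (hg : g b0 ≤ l) {s0 : ℕ} (hs : s0 ∈ goodW lev bad b0 l D q)
    (i : ℕ) (hi : i < l) : u ((s0 : ℤ) + i) ≤ e b0 :=
  good_cost_ hO hb hl hlD hg hs i hi

/-- `g` does not decrease from a good window to the next one -/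
theorem good_weight (hO : OrbitData w c e g u lev bad) (hb : 1 ≤ b0) (hl : 0 < l)
    (hlD : D * l = Mb b0) {n : ℕ} (hn : n < l) {s0 : ℕ} (hs : s0 ∈ goodW lev bad b0 l D q)
    (i : ℕ) (hi : s0 ≤ i) (hi' : i < s0 + l) :
    gfun w lev b0 l K (i : ℤ) ≤ gfun w lev b0 l K ((i : ℤ) + n) :=
  good_weight_ hO hb hl hlD hn hs i hi hi'

end Crest.Agent.R113.Orb
end

-- ▼ part R113/FD/ALin
section

/-!
Row 113, S0149, T12 (helper244): linear algebra used in the assembly.
-/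

set_option autoImplicit false

namespace Crest.Agent.R113.FD

open Finset

/-- If `E2 ≤ E1` has small codimension and consists of vectors close to `F`, and `dim F` is not
much larger than `dim E1`, then the diagonals of the projections are `ℓ¹`-close. -/
theorem l1_of_near {q : ℕ} (E1 E2 F : Submodule ℂ (EuclideanSpace ℂ (Fin q))) (W ω : ℝ)
    (hle : E2 ≤ E1) (hF : (Module.finrank ℂ F : ℝ) ≤ Module.finrank ℂ E1 + ω)
    (hE2 : (Module.finrank ℂ E1 : ℝ) ≤ Module.finrank ℂ E2 + ω)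
    (h : ∀ v ∈ E2, ‖v - F.starProjection v‖ ≤ Real.exp (-W) * ‖F.starProjection v‖) :
    ∑ m, |Crest.Agent.R113.dg E1 m - Crest.Agent.R113.dg F m| ≤
      Real.sqrt q * Real.sqrt (3 * ω + 2 * Real.exp (-(2 * W)) * q) := by
  have h0 := abs_dg_sub_le E1 F (Finset.univ : Finset (Fin q))
  rw [Finset.card_univ, Fintype.card_fin] at h0
  refine h0.trans (mul_le_mul_of_nonneg_left (Real.sqrt_le_sqrt ?_) (Real.sqrt_nonneg _))
  rw [hsd_eq_hs, hs_pj_sub_pj]
  have h1 : hs (pj F * pj E2) ≤ hs (pj F * pj E1) := hs_mul_pj_mono hle _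
  have h2 := hs_pj_add F (pj E2)
  rw [hs_pj_eq] at h2
  have h3 : hs ((1 - pj F) * pj E2) ≤ Real.exp (-W) ^ 2 * Module.finrank ℂ E2 := by
    refine hs_mul_pj_le fun v hv => ?_
    refine (h v hv).trans (mul_le_mul_of_nonneg_left ?_ (Real.exp_pos _).le)
    exact norm_pj_le F v
  have h4 : (Module.finrank ℂ E2 : ℝ) ≤ q := by
    have := Submodule.finrank_le E2
    rw [finrank_euclideanSpace_fin] at this
    exact_mod_cast this
  have h5 : Real.exp (-W) ^ 2 = Real.exp (-(2 * W)) := by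
    rw [← Real.exp_nat_mul]; congr 1; push_cast; ring
  rw [h5] at h3
  have h6 : Real.exp (-(2 * W)) * Module.finrank ℂ E2 ≤ Real.exp (-(2 * W)) * q :=
    mul_le_mul_of_nonneg_left h4 (Real.exp_pos _).le
  linarith

/-- the projection onto a block subspace, inside one window -/
theorem dg_winSub {q l s0 : ℕ} (win : Fin q → ℤ) (F : Submodule ℂ (EuclideanSpace ℂ (Fin q)))
    (hF : BlockSub win F) (hs : s0 + l ≤ q)
    (hwin : ∀ i : Fin q, win i = s0 ↔ s0 ≤ (i : ℕ) ∧ (i : ℕ) < s0 + l) (i : Fin l) :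
    Crest.Agent.R113.dg (winSub l s0 F) i = Crest.Agent.R113.dg F ⟨s0 + i, by omega⟩ := by
  classical
  have hcut : ∀ x ∈ F, NI.cutw q l s0 x ∈ F := by
    intro x hx
    have h1 := (BlockSub_eqna win F ▸ hF) (s0 : ℤ) x hx
    have h2 : NI.cutw q l s0 x = restr {i | win i = (s0 : ℤ)} x := by
      ext m
      rw [NI.cutw_apply, restr_apply]
      have := hwin m
      by_cases h : s0 ≤ (m : ℕ) ∧ (m : ℕ) < s0 + l
      · rw [if_pos h, if_pos (show m ∈ {i | win i = (s0 : ℤ)} from this.2 h)]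
      · rw [if_neg h, if_neg (show ¬ m ∈ {i | win i = (s0 : ℤ)} from fun h' => h (this.1 h'))]
    rw [h2]
    exact h1
  have hi := i.2
  set k : Fin q := ⟨s0 + i, by omega⟩ with hk
  have h1 : NI.resw q l s0 (ev k) = ev i := by
    ext j
    have hj := j.2
    rw [NI.resw_apply, dif_pos (by omega)]
    unfold ev
    rw [PiLp.single_apply, PiLp.single_apply]
    congr 1
    rw [hk, Fin.mk.injEq, Fin.ext_iff]
    apply propext
    omega
  have h2 : NI.cutw q l s0 (ev k) = ev k := by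
    ext m
    rw [NI.cutw_apply]
    by_cases h : s0 ≤ (m : ℕ) ∧ (m : ℕ) < s0 + l
    · rw [if_pos h]
    · rw [if_neg h]
      unfold ev
      rw [PiLp.single_apply, if_neg]
      rintro rfl
      apply h
      rw [hk]
      simp
  have h3 := NI.starProjection_resw hs F hcut (ev k)
  rw [h1] at h3
  have h4 := NI.starProjection_cutw F hcut (ev k)
  rw [h2] at h4
  unfold Crest.Agent.R113.dg
  rw [← h3, ← NI.norm_embw q l s0 hs, NI.embw_resw, ← h4]

end Crest.Agent.R113.FD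
end

-- ▼ part R113/FD/AWin
section

/-!
Row 113, S0149, T12: near invariance + window lemma, summed over the good windows.
-/

set_option autoImplicit false

namespace Crest.Agent.R113.Orb

open Finset

variable {w : ℕ → ℕ → Bool} {c e : ℕ → ℝ} {g : ℕ → ℕ} {u : ℤ → ℝ} {lev : ℕ → ℤ → ℕ}
  {bad : ℕ → Set ℤ} {q N B J b0 l D K : ℕ}

/-- diagonal of a projection as a function on `ℕ` -/
noncomputable def hN {q : ℕ} (X : Submodule ℂ (EuclideanSpace ℂ (Fin q))) (m : ℕ) : ℝ :=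
  if h : m < q then dg X ⟨m, h⟩ else 0

theorem windows_bound (hG : IsGrowth c e g) (hO : OrbitData w c e g u lev bad)
    (hC : OrbitCounts q N B J lev bad)
    (hb : 1 ≤ b0) (hB : B ≤ b0) (hJ : b0 ≤ J) (hN' : 2 * (Pib b0 * Mb b0) ≤ N)
    (hq : 4 ^ b0 * (Pib b0 * Mb b0) ≤ q) (hl : 0 < l) (hlD : D * l = Mb b0) (hgl : g b0 ≤ l)
    (E F E2 : Submodule ℂ (EuclideanSpace ℂ (Fin q))) (s W cs η ω : ℝ) (hη : 0 ≤ η)
    (hs : 0 ≤ s) (hW : 0 ≤ W) (hcs : W + s * (D + 1) ≤ cs)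
    (hE3 : ∀ n ≤ N, ∃ E' : Submodule ℂ (EuclideanSpace ℂ (Fin q)),
      AppInv E E' u n (Real.exp (-cs)) (η * q))
    (hF : BlockSub (fun i : Fin q => win lev b0 l ((i : ℕ) : ℤ)) F)
    (hFdim : (Module.finrank ℂ F : ℝ) ≤ Module.finrank ℂ E + 20 * (ω * q))
    (hE2 : E2 ≤ E.map (mulD (fun i : Fin q => Real.exp (-(s * gfun w lev b0 l K ((i : ℕ) : ℤ))))))
    (hE2dim : (Module.finrank ℂ E : ℝ) ≤ Module.finrank ℂ E2 + 20 * (ω * q))
    (hE2F : ∀ v ∈ E2, ‖v - F.starProjection v‖ ≤ Real.exp (-W) * ‖F.starProjection v‖)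
    (hWl : 5 * Real.exp (-W) ≤ Real.exp (-(10 * l * (e b0 + 100 * (l : ℝ) ^ 3)))) :
    ∃ kk : ℕ → ℕ, (∀ s0 ∈ goodW lev bad b0 l D q, kk s0 ≤ l) ∧
      ∑ s0 ∈ goodW lev bad b0 l D q, ∑ i ∈ range l,
        |hN F (s0 + i) - (if l ≤ i + kk s0 then (1 : ℝ) else 0)| ≤
        (2 * Real.sqrt (2 * (60 * ω + η + (2 / D + 50 * zb b0))) + 1 / (4 * l)) * q := by
  classical
  set good := goodW lev bad b0 l D q with hgood
  set ω3 : ℝ := 60 * ω + η + (2 / D + 50 * zb b0) with hω3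
  have hMl : l ≤ Mb b0 := by
    rw [← hlD]
    refine Nat.le_mul_of_pos_left l ?_
    rcases Nat.eq_zero_or_pos D with h | h
    · exfalso
      rw [h, zero_mul] at hlD
      have : 0 < Mb b0 := by rw [Mb_eqna]; positivity
      omega
    · exact h
  have hlN : l ≤ N := by
    have h1 : Mb b0 ≤ Pib b0 * Mb b0 := Nat.le_mul_of_pos_left _ (by rw [Pib_eqna]; positivity)
    omega
  have hGW := fun s0 (hs : s0 ∈ good) => good_win hO hb hl hlD hs
  have hcount := good_count' hO hC hb hB hJ hN' hq hl hlD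
  have hqcard : (good.card : ℝ) * l ≤ q := by
    have h1 : good.card * l ≤ q := (good_tiling hO hb hl hlD).card_mul_le
    exact_mod_cast h1
  -- near invariance for each `n < l`
  have hnear : ∀ n, n < l → ∃ (r : ℕ → ℕ) (F' : ℕ → Submodule ℂ (EuclideanSpace ℂ (Fin l))),
      ((∑ s0 ∈ good, r s0 : ℕ) : ℝ) ≤ 2 * ω3 * q ∧
      ∀ s0 ∈ good, F' s0 ≤ winSub l s0 F ∧
        Module.finrank ℂ (winSub l s0 F) ≤ Module.finrank ℂ (F' s0) + r s0 ∧
        ∀ v ∈ F' s0, ‖shiftN (fun m => u (s0 + m)) n v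
          - (winSub l s0 F).starProjection (shiftN (fun m => u (s0 + m)) n v)‖
            ≤ 5 * Real.exp (-W) * ‖v‖ := by
    intro n hn
    obtain ⟨E', hE'⟩ := hE3 n (by omega)
    obtain ⟨r, F', hr, hF'⟩ := near_inv (fun i : Fin q => win lev b0 l ((i : ℕ) : ℤ)) u n hn E E' F E2
      (fun i : Fin q => gfun w lev b0 l K ((i : ℕ) : ℤ)) s (D + 1) W cs (η * q) (20 * (ω * q)) hs
      (fun i => gfun_nonneg _) (fun i => gfun_le hlD _)
      (fun i j hij => gfun_win hO hb hl hlD hij) hW hcs hE' hF hFdim hE2 hE2dim hE2F good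
      (fun s0 => decide (pw lev b0 l (s0 : ℤ) % 2 = 1)) (fun s0 hs0 => hGW s0 hs0)
      (fun s0 hs0 => good_col hO hb hl hlD hs0) (by
        intro s0 hs0 i j hi1 hi2 hj
        have h1 : 0 ≤ wsum u ((i : ℕ) : ℤ) n := by
          rw [wsum_eqna]
          exact Finset.sum_nonneg fun k _ => hO.u_nonneg _
        have h2 := good_weight (w := w) (K := K) hO hb hl hlD hn hs0 i hi1 hi2
        have h3 : ((j : ℕ) : ℤ) = ((i : ℕ) : ℤ) + n := by omega
        simp only [h3]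
        have := mul_nonneg hs (sub_nonneg.2 h2)
        linarith)
    refine ⟨r, F', hr.trans ?_, hF'⟩
    rw [hω3]
    nlinarith
  choose! r F' hr hF' using hnear
  refine ⟨fun s0 => Module.finrank ℂ (winSub l s0 F), fun s0 _ => ?_, ?_⟩
  · have := Submodule.finrank_le (winSub l s0 F)
    rwa [finrank_euclideanSpace_fin] at this
  -- one window
  have hone : ∀ s0 ∈ good, ∑ i ∈ range l,
      |hN F (s0 + i) - (if l ≤ i + Module.finrank ℂ (winSub l s0 F) then (1 : ℝ) else 0)| ≤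
        2 * (Real.sqrt (∑ n ∈ Finset.Ico 1 l, (r n s0 : ℝ)) + 1 / 8) := by
    intro s0 hs0
    set X := winSub l s0 F with hX
    set k := Module.finrank ℂ X with hk
    have hkl : k ≤ l := by
      have := Submodule.finrank_le X
      rwa [finrank_euclideanSpace_fin] at this
    have hW1 := window_lemma (l := l) hl (fun m => u ((s0 : ℤ) + m)) (e b0)
      (fun m _ _ => hO.u_nonneg _)
      (fun m hm0 hml => by
        have h1 := good_cost hO hb hl hlD hgl hs0 m.toNat (by omega)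
        have h2 : ((m.toNat : ℕ) : ℤ) = m := Int.toNat_of_nonneg hm0
        rw [h2] at h1
        exact h1) X (fun n => F' n s0) (fun n => r n s0) (5 * Real.exp (-W)) hWl
      (fun n _ hn => (hF' n hn s0 hs0).1) (fun n _ hn => (hF' n hn s0 hs0).2.1)
      (fun n _ hn => (hF' n hn s0 hs0).2.2)
    have h2 : ∑ i ∈ range l, |hN F (s0 + i) - (if l ≤ i + k then (1 : ℝ) else 0)| =
        ∑ i : Fin l, |dg X i - (if l ≤ (i : ℕ) + k then (1 : ℝ) else 0)| := by
      rw [Finset.sum_range]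
      refine Finset.sum_congr rfl fun i _ => ?_
      have hi := i.2
      have hq2 := (hGW s0 hs0).1
      rw [hN, dif_pos (by omega), hX, FD.dg_winSub (fun i : Fin q => win lev b0 l ((i : ℕ) : ℤ)) F hF
        (by omega) (hGW s0 hs0).2.1]
    rw [h2, ← Finset.sum_filter_add_sum_filter_not Finset.univ (fun i : Fin l => l ≤ (i : ℕ) + k)]
    have h3 : ∑ i ∈ Finset.univ.filter (fun i : Fin l => l ≤ (i : ℕ) + k),
        |dg X i - (if l ≤ (i : ℕ) + k then (1 : ℝ) else 0)| = k - trOn X (tailF l k) := by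
      have h4 : ((Finset.univ.filter (fun i : Fin l => l ≤ (i : ℕ) + k)).card : ℝ) = k := by
        have h5 : (Finset.univ.filter (fun i : Fin l => l ≤ (i : ℕ) + k)).card = k := by
          have h6 : (Finset.univ.filter (fun i : Fin l => l ≤ (i : ℕ) + k)) =
              (Finset.Ico (l - k) l).attachFin (fun m hm => (Finset.mem_Ico.1 hm).2) := by
            ext i
            simp only [Finset.mem_filter, Finset.mem_univ, true_and, Finset.mem_attachFin,
              Finset.mem_Ico]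
            have := i.2
            omega
          rw [h6, Finset.card_attachFin, Nat.card_Ico]
          omega
        exact_mod_cast h5
      rw [trOn_eqna, tailF_eqna, ← h4, Finset.card_eq_sum_ones]
      push_cast
      rw [← Finset.sum_sub_distrib]
      refine Finset.sum_congr rfl fun i hi => ?_
      rw [if_pos (Finset.mem_filter.1 hi).2, abs_sub_comm, abs_of_nonneg]
      linarith [dg_le_one X i]
    have h4 : ∑ i ∈ Finset.univ.filter (fun i : Fin l => ¬ l ≤ (i : ℕ) + k),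
        |dg X i - (if l ≤ (i : ℕ) + k then (1 : ℝ) else 0)| = k - trOn X (tailF l k) := by
      have h5 := sum_dg X
      rw [← Finset.sum_filter_add_sum_filter_not Finset.univ (fun i : Fin l => l ≤ (i : ℕ) + k)]
        at h5
      rw [trOn_eqna, tailF_eqna]
      have h6 : ∑ i ∈ Finset.univ.filter (fun i : Fin l => ¬ l ≤ (i : ℕ) + k),
          |dg X i - (if l ≤ (i : ℕ) + k then (1 : ℝ) else 0)| =
          ∑ i ∈ Finset.univ.filter (fun i : Fin l => ¬ l ≤ (i : ℕ) + k), dg X i := by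
        refine Finset.sum_congr rfl fun i hi => ?_
        rw [if_neg (Finset.mem_filter.1 hi).2, sub_zero, abs_of_nonneg (dg_nonneg X i)]
      rw [h6]
      linarith
    rw [h3, h4]
    linarith
  refine (Finset.sum_le_sum hone).trans ?_
  rw [← Finset.mul_sum, Finset.sum_add_distrib, Finset.sum_const, nsmul_eq_mul]
  -- Cauchy–Schwarz
  have hω3q : 0 ≤ 2 * ω3 * q := le_trans (Nat.cast_nonneg _) (hr 0 hl)
  have hI : ∑ s0 ∈ good, ∑ n ∈ Finset.Ico 1 l, (r n s0 : ℝ) ≤ l * (2 * ω3 * q) := by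
    rw [Finset.sum_comm]
    calc ∑ n ∈ Finset.Ico 1 l, ∑ s0 ∈ good, (r n s0 : ℝ)
        ≤ ∑ n ∈ Finset.Ico 1 l, 2 * ω3 * q := by
          refine Finset.sum_le_sum fun n hn => ?_
          have := hr n (Finset.mem_Ico.1 hn).2
          push_cast at this
          exact this
      _ = ((l - 1 : ℕ) : ℝ) * (2 * ω3 * q) := by
          rw [Finset.sum_const, nsmul_eq_mul, Nat.card_Ico]
      _ ≤ l * (2 * ω3 * q) := by
          refine mul_le_mul_of_nonneg_right ?_ hω3q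
          exact_mod_cast Nat.sub_le _ _
  have hCS : ∑ s0 ∈ good, Real.sqrt (∑ n ∈ Finset.Ico 1 l, (r n s0 : ℝ)) ≤
      q * Real.sqrt (2 * ω3) := by
    have h1 : (∑ s0 ∈ good, Real.sqrt (∑ n ∈ Finset.Ico 1 l, (r n s0 : ℝ))) ^ 2 ≤
        good.card * ∑ s0 ∈ good, (Real.sqrt (∑ n ∈ Finset.Ico 1 l, (r n s0 : ℝ))) ^ 2 :=
      sq_sum_le_card_mul_sum_sq
    have h2 : ∑ s0 ∈ good, (Real.sqrt (∑ n ∈ Finset.Ico 1 l, (r n s0 : ℝ))) ^ 2 =
        ∑ s0 ∈ good, ∑ n ∈ Finset.Ico 1 l, (r n s0 : ℝ) := by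
      refine Finset.sum_congr rfl fun s0 _ => ?_
      exact Real.sq_sqrt (Finset.sum_nonneg fun n _ => Nat.cast_nonneg _)
    rw [h2] at h1
    have h3 : (good.card : ℝ) * ∑ s0 ∈ good, ∑ n ∈ Finset.Ico 1 l, (r n s0 : ℝ) ≤
        q * (2 * ω3 * q) := by
      calc (good.card : ℝ) * ∑ s0 ∈ good, ∑ n ∈ Finset.Ico 1 l, (r n s0 : ℝ)
          ≤ good.card * (l * (2 * ω3 * q)) :=
            mul_le_mul_of_nonneg_left hI (Nat.cast_nonneg _)
        _ = (good.card * l) * (2 * ω3 * q) := by ring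
        _ ≤ q * (2 * ω3 * q) := mul_le_mul_of_nonneg_right hqcard hω3q
    have h4 : (∑ s0 ∈ good, Real.sqrt (∑ n ∈ Finset.Ico 1 l, (r n s0 : ℝ))) ≤
        Real.sqrt (q * (2 * ω3 * q)) := Real.le_sqrt_of_sq_le (h1.trans h3)
    have h5 : (q : ℝ) * (2 * ω3 * q) = (q : ℝ) ^ 2 * (2 * ω3) := by ring
    rw [h5, Real.sqrt_mul (by positivity), Real.sqrt_sq (Nat.cast_nonneg _)] at h4
    exact h4
  have hlpos : (0 : ℝ) < l := by exact_mod_cast hl
  have h8 : (good.card : ℝ) * (1 / 8) ≤ q / (8 * l) := by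
    rw [le_div_iff₀ (by positivity)]
    nlinarith
  have h9 : (q : ℝ) / (8 * l) * 2 = 1 / (4 * l) * q := by
    field_simp
    ring
  have h10 : 2 * (∑ s0 ∈ good, Real.sqrt (∑ n ∈ Finset.Ico 1 l, (r n s0 : ℝ)) +
      (good.card : ℝ) * (1 / 8)) ≤ 2 * (q * Real.sqrt (2 * ω3)) + q / (8 * l) * 2 := by
    linarith
  rw [h9] at h10
  refine h10.trans (le_of_eq ?_)
  ring

end Crest.Agent.R113.Orb
end

-- ▼ part R113/Loc
section

/-! # T03: locality of `P_{aE}` — blueprint 6835 (LOC) -/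

set_option autoImplicit false

namespace Crest.Agent.R113

open scoped BigOperators

namespace LocAux

/-- Hilbert-Schmidt norm of a composition `B ∘ S`. -/
theorem sum_comp_le {V W U : Type*} [NormedAddCommGroup V] [InnerProductSpace ℂ V]
    [FiniteDimensional ℂ V] [NormedAddCommGroup W] [InnerProductSpace ℂ W] [FiniteDimensional ℂ W]
    [NormedAddCommGroup U] [InnerProductSpace ℂ U] [FiniteDimensional ℂ U]
    {k l m : Type*} [Fintype k] [Fintype l] [Fintype m]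
    (v : OrthonormalBasis k ℂ V) (w : OrthonormalBasis l ℂ W) (u : OrthonormalBasis m ℂ U)
    (S : V →ₗ[ℂ] W) (B : W →ₗ[ℂ] U) (M : ℝ) (hM : 0 ≤ M) (hS : ∀ x, ‖S x‖ ≤ M * ‖x‖) :
    ∑ i, ‖B (S (v i))‖ ^ 2 ≤ M ^ 2 * ∑ j, ‖B (w j)‖ ^ 2 := by
  classical
  have hadj : ∀ y, ‖LinearMap.adjoint S y‖ ≤ M * ‖y‖ := by
    intro y
    rcases eq_or_ne (LinearMap.adjoint S y) 0 with h0 | h0
    · rw [h0, norm_zero]; positivity
    · have h1 : ‖LinearMap.adjoint S y‖ ^ 2 ≤ ‖LinearMap.adjoint S y‖ * (M * ‖y‖) := by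
        have h2 : (‖LinearMap.adjoint S y‖ ^ 2 : ℝ) =
            RCLike.re (inner ℂ (LinearMap.adjoint S y) (LinearMap.adjoint S y)) :=
          norm_sq_eq_re_inner _
        rw [h2, LinearMap.adjoint_inner_left]
        calc RCLike.re (inner ℂ y (S (LinearMap.adjoint S y)))
            ≤ ‖inner ℂ y (S (LinearMap.adjoint S y))‖ := RCLike.re_le_norm _
          _ ≤ ‖y‖ * ‖S (LinearMap.adjoint S y)‖ := norm_inner_le_norm _ _
          _ ≤ ‖y‖ * (M * ‖LinearMap.adjoint S y‖) := by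
              gcongr; exact hS _
          _ = ‖LinearMap.adjoint S y‖ * (M * ‖y‖) := by ring
      have hpos : 0 < ‖LinearMap.adjoint S y‖ := norm_pos_iff.mpr h0
      rw [sq] at h1
      exact le_of_mul_le_mul_left h1 hpos
  have e1 : ∑ i, ‖B (S (v i))‖ ^ 2 = ∑ j, ‖LinearMap.adjoint S (LinearMap.adjoint B (u j))‖ ^ 2 := by
    have h1 : ∀ i, ‖B (S (v i))‖ ^ 2 = ∑ j, ‖inner ℂ (u j) (B (S (v i)))‖ ^ 2 := fun i =>
      (u.sum_sq_norm_inner_right _).symm
    have h2 : ∀ j, ‖LinearMap.adjoint S (LinearMap.adjoint B (u j))‖ ^ 2 =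
        ∑ i, ‖inner ℂ (v i) (LinearMap.adjoint S (LinearMap.adjoint B (u j)))‖ ^ 2 := fun j =>
      (v.sum_sq_norm_inner_right _).symm
    rw [Finset.sum_congr rfl fun i _ => h1 i, Finset.sum_congr rfl fun j _ => h2 j,
      Finset.sum_comm]
    refine Finset.sum_congr rfl fun j _ => Finset.sum_congr rfl fun i _ => ?_
    rw [LinearMap.adjoint_inner_right, LinearMap.adjoint_inner_right, norm_inner_symm]
  have e2 : ∑ j, ‖B (w j)‖ ^ 2 = ∑ j, ‖LinearMap.adjoint B (u j)‖ ^ 2 := by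
    have h1 : ∀ i, ‖B (w i)‖ ^ 2 = ∑ j, ‖inner ℂ (u j) (B (w i))‖ ^ 2 := fun i =>
      (u.sum_sq_norm_inner_right _).symm
    have h2 : ∀ j, ‖LinearMap.adjoint B (u j)‖ ^ 2 =
        ∑ i, ‖inner ℂ (w i) (LinearMap.adjoint B (u j))‖ ^ 2 := fun j =>
      (w.sum_sq_norm_inner_right _).symm
    rw [Finset.sum_congr rfl fun i _ => h1 i, Finset.sum_congr rfl fun j _ => h2 j,
      Finset.sum_comm]
    refine Finset.sum_congr rfl fun j _ => Finset.sum_congr rfl fun i _ => ?_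
    rw [LinearMap.adjoint_inner_right, norm_inner_symm]
  rw [e1, e2, Finset.mul_sum]
  refine Finset.sum_le_sum fun j _ => ?_
  rw [← mul_pow]
  exact pow_le_pow_left₀ (norm_nonneg _) (hadj _) 2

variable {ι : Type*} [Fintype ι]

theorem norm_sub_starProjection_le (Y : Submodule ℂ (EuclideanSpace ℂ ι))
    (x y : EuclideanSpace ℂ ι) (hy : y ∈ Y) : ‖x - Y.starProjection x‖ ≤ ‖x - y‖ := by
  rw [Submodule.starProjection_minimal]
  exact ciInf_le ⟨0, by rintro _ ⟨z, rfl⟩; exact norm_nonneg _⟩ (⟨y, hy⟩ : Y)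

theorem norm_sq_split (Y : Submodule ℂ (EuclideanSpace ℂ ι)) (x : EuclideanSpace ℂ ι) :
    ‖x‖ ^ 2 = ‖Y.starProjection x‖ ^ 2 + ‖x - Y.starProjection x‖ ^ 2 := by
  rw [Y.norm_sq_eq_add_norm_sq_starProjection x, Submodule.starProjection_orthogonal_val]

variable [DecidableEq ι]

theorem hsd_eq_two (X Y : Submodule ℂ (EuclideanSpace ℂ ι)) {κ : Type*} [Fintype κ]
    (b : OrthonormalBasis κ ℂ X) (hdim : Module.finrank ℂ X = Module.finrank ℂ Y) :
    hsd X Y = 2 * ∑ k, ‖(b k : EuclideanSpace ℂ ι) - Y.starProjection (b k)‖ ^ 2 := by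
  rw [hsd_eq X Y b, ← hdim]
  have h1 : ∀ k, ‖(b k : EuclideanSpace ℂ ι) - Y.starProjection (b k)‖ ^ 2 =
      1 - ‖Y.starProjection (b k : EuclideanSpace ℂ ι)‖ ^ 2 := by
    intro k
    have h2 := norm_sq_split Y (b k : EuclideanSpace ℂ ι)
    have h3 : ‖(b k : EuclideanSpace ℂ ι)‖ = 1 := b.norm_eq_one k
    rw [h3] at h2
    linarith
  rw [Finset.sum_congr rfl fun k _ => h1 k, Finset.sum_sub_distrib]
  have h4 : (∑ _k : κ, (1 : ℝ)) = Module.finrank ℂ X := by
    rw [Module.finrank_eq_card_basis b.toBasis]; simp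
  rw [h4]
  ring

/-- unitary diagonal operator -/
noncomputable def zeq (z : ι → ℂ) (hz : ∀ i, ‖z i‖ = 1) :
    EuclideanSpace ℂ ι ≃ₗᵢ[ℂ] EuclideanSpace ℂ ι where
  toFun v := WithLp.toLp 2 (fun i => z i * v i)
  invFun v := WithLp.toLp 2 (fun i => (starRingEnd ℂ) (z i) * v i)
  map_add' v w := by ext i; simp [mul_add]
  map_smul' r v := by ext i; simp [mul_left_comm]
  left_inv v := by
    ext i
    have h : (starRingEnd ℂ) (z i) * z i = 1 := by
      rw [mul_comm, Complex.mul_conj, Complex.normSq_eq_norm_sq, hz i]; simp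
    simp only [WithLp.ofLp_toLp]
    rw [← mul_assoc, h, one_mul]
  right_inv v := by
    ext i
    have h : z i * (starRingEnd ℂ) (z i) = 1 := by
      rw [Complex.mul_conj, Complex.normSq_eq_norm_sq, hz i]; simp
    simp only [WithLp.ofLp_toLp]
    rw [← mul_assoc, h, one_mul]
  norm_map' v := by
    rw [EuclideanSpace.norm_eq, EuclideanSpace.norm_eq]
    congr 1
    refine Finset.sum_congr rfl fun i _ => ?_
    simp [hz i]

theorem zeq_apply (z : ι → ℂ) (hz : ∀ i, ‖z i‖ = 1) (v : EuclideanSpace ℂ ι) (i : ι) :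
    zeq z hz v i = z i * v i := rfl

theorem zeq_symm_apply (z : ι → ℂ) (hz : ∀ i, ‖z i‖ = 1) (v : EuclideanSpace ℂ ι) (i : ι) :
    (zeq z hz).symm v i = (starRingEnd ℂ) (z i) * v i := rfl

/-- entries of the projection onto `Z X` -/
theorem ent_map_zeq (z : ι → ℂ) (hz : ∀ i, ‖z i‖ = 1) (X : Submodule ℂ (EuclideanSpace ℂ ι))
    (i j : ι) :
    ent (X.map ((zeq z hz).toLinearEquiv : EuclideanSpace ℂ ι →ₗ[ℂ] EuclideanSpace ℂ ι)) i j =
      z i * (starRingEnd ℂ) (z j) * ent X i j := by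
  have h1 : (zeq z hz).symm (ev j) = (starRingEnd ℂ) (z j) • ev j := by
    ext k
    rw [zeq_symm_apply]
    by_cases hk : k = j
    · subst hk; simp [ev]
    · simp [ev, hk]
  have h2 : ∀ v : EuclideanSpace ℂ ι, inner ℂ (ev i) (zeq z hz v) = z i * inner ℂ (ev i) v := by
    intro v
    simp [ev, EuclideanSpace.inner_single_left, zeq_apply]
  unfold ent
  rw [Submodule.starProjection_map_apply, h1, map_smul, map_smul, inner_smul_right, h2]
  ring

/-- the phase average -/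
noncomputable def J (δ : ℝ) : ℝ := ∫ t in (0 : ℝ)..4, (2 - 2 * Real.cos (t * δ))

theorem phase_cont (δ : ℝ) : Continuous fun t : ℝ => 2 - 2 * Real.cos (t * δ) := by
  fun_prop

theorem J_nonneg (δ : ℝ) : 0 ≤ J δ := by
  refine intervalIntegral.integral_nonneg (by norm_num) fun t _ => ?_
  linarith [Real.cos_le_one (t * δ)]

theorem J_le (δ : ℝ) : J δ ≤ 64 * min 1 (δ ^ 2) := by
  have h1 : J δ ≤ ∫ _t in (0 : ℝ)..4, 16 * min 1 (δ ^ 2) := by
    refine intervalIntegral.integral_mono_on (by norm_num)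
      ((phase_cont δ).intervalIntegrable _ _) (by simp) fun t ht => ?_
    have h2 := Real.one_sub_sq_div_two_le_cos (x := t * δ)
    have h3 := Real.neg_one_le_cos (t * δ)
    rcases le_total 1 (δ ^ 2) with h | h
    · rw [min_eq_left h]; linarith
    · rw [min_eq_right h]
      have h4 : (t * δ) ^ 2 ≤ 16 * δ ^ 2 := by
        rw [mul_pow]
        have : t ^ 2 ≤ 16 := by nlinarith [ht.1, ht.2]
        nlinarith [sq_nonneg δ]
      linarith
  rw [intervalIntegral.integral_const, smul_eq_mul] at h1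
  linarith

theorem J_ge (δ : ℝ) (h : 1 ≤ |δ|) : 4 ≤ J δ := by
  have hδ : δ ≠ 0 := by
    rintro rfl
    rw [abs_zero] at h
    linarith
  have h1 : J δ = 8 - 2 * (δ⁻¹ * Real.sin (4 * δ)) := by
    unfold J
    rw [intervalIntegral.integral_sub (by simp)
      ((by fun_prop : Continuous fun t : ℝ => 2 * Real.cos (t * δ)).intervalIntegrable _ _),
      intervalIntegral.integral_const, intervalIntegral.integral_const_mul,
      intervalIntegral.integral_comp_mul_right (fun x => Real.cos x) hδ, integral_cos]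
    simp
    norm_num
  rw [h1]
  have h2 : |δ⁻¹ * Real.sin (4 * δ)| ≤ 1 := by
    rw [abs_mul, abs_inv]
    have h3 : |δ|⁻¹ ≤ 1 := inv_le_one_of_one_le₀ h
    have h4 : |Real.sin (4 * δ)| ≤ 1 := Real.abs_sin_le_one _
    calc |δ|⁻¹ * |Real.sin (4 * δ)| ≤ 1 * 1 :=
          mul_le_mul h3 h4 (abs_nonneg _) (by norm_num)
      _ = 1 := by norm_num
  have := (abs_le.mp h2).2
  linarith

/-- a block diagonal map commutes with window-constant diagonal unitaries -/
theorem blockDiag_comm {κ : Type*} [DecidableEq κ] (win : ι → κ)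
    (a : EuclideanSpace ℂ ι →ₗ[ℂ] EuclideanSpace ℂ ι) (ha : BlockDiag win a) (z : κ → ℂ)
    (hz : ∀ c, ‖z c‖ = 1) (v : EuclideanSpace ℂ ι) :
    a (zeq (fun i => z (win i)) (fun i => hz _) v) =
      zeq (fun i => z (win i)) (fun i => hz _) (a v) := by
  ext i
  rw [zeq_apply]
  have h1 : ∀ u : EuclideanSpace ℂ ι, (restr {j | win j = win i} u) i = u i := by
    intro u; simp
  have h2 : restr {j | win j = win i} (zeq (fun i => z (win i)) (fun i => hz _) v) =
      z (win i) • restr {j | win j = win i} v := by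
    ext j
    by_cases hj : win j = win i
    · simp [hj, zeq_apply]
    · simp [hj]
  rw [← h1 (a _), ← ha (win i), h2, map_smul, ha (win i)]
  simp

end LocAux

open LocAux in
/-- Lipschitz dependence of `P_{aE}` on `E`. -/
theorem hsd_map_le {ι : Type*} [Fintype ι] [DecidableEq ι]
    (E E2 : Submodule ℂ (EuclideanSpace ℂ ι)) (hdim : Module.finrank ℂ E = Module.finrank ℂ E2)
    (a : EuclideanSpace ℂ ι →ₗ[ℂ] EuclideanSpace ℂ ι) (κ : ℝ)
    (ha1 : ∀ v, ‖a v‖ ≤ ‖v‖) (ha2 : ∀ v, Real.exp (-κ) * ‖v‖ ≤ ‖a v‖) :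
    hsd (E.map a) (E2.map a) ≤ Real.exp (2 * κ) * hsd E E2 := by
  have hinj : Function.Injective a := by
    rw [← LinearMap.ker_eq_bot, LinearMap.ker_eq_bot']
    intro v hv
    have h1 := ha2 v
    rw [hv, norm_zero] at h1
    have h2 := Real.exp_pos (-κ)
    have h3 : ‖v‖ ≤ 0 := by
      by_contra h
      push Not at h
      nlinarith [mul_pos h2 h]
    exact norm_le_zero_iff.mp h3
  have hd1 : Module.finrank ℂ (E.map a) = Module.finrank ℂ E :=
    (Submodule.equivMapOfInjective a hinj E).finrank_eq.symm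
  have hd2 : Module.finrank ℂ (E2.map a) = Module.finrank ℂ E2 :=
    (Submodule.equivMapOfInjective a hinj E2).finrank_eq.symm
  set v := stdOrthonormalBasis ℂ (E.map a)
  set w := stdOrthonormalBasis ℂ E
  set S : (E.map a) →ₗ[ℂ] E := (Submodule.equivMapOfInjective a hinj E).symm.toLinearMap with hS
  set Bm : E →ₗ[ℂ] EuclideanSpace ℂ ι :=
    E.subtype - (E2.starProjection : EuclideanSpace ℂ ι →ₗ[ℂ] EuclideanSpace ℂ ι) ∘ₗ E.subtype
    with hBm
  have haS : ∀ x : (E.map a), a (S x : EuclideanSpace ℂ ι) = x := by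
    intro x
    have := (Submodule.equivMapOfInjective a hinj E).apply_symm_apply x
    rw [← Submodule.coe_equivMapOfInjective_apply (i := hinj) (p := E)]
    exact congrArg Subtype.val this
  have hSn : ∀ x, ‖S x‖ ≤ Real.exp κ * ‖x‖ := by
    intro x
    have h1 := ha2 (S x : EuclideanSpace ℂ ι)
    rw [haS] at h1
    have h2 : Real.exp κ * (Real.exp (-κ) * ‖(S x : EuclideanSpace ℂ ι)‖) ≤
        Real.exp κ * ‖(x : EuclideanSpace ℂ ι)‖ :=
      mul_le_mul_of_nonneg_left h1 (Real.exp_pos _).le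
    rw [← mul_assoc, ← Real.exp_add, add_neg_cancel, Real.exp_zero, one_mul] at h2
    exact h2
  rw [hsd_eq_two (E.map a) (E2.map a) v (by rw [hd1, hd2, hdim]), hsd_eq_two E E2 w hdim]
  have hkey := sum_comp_le v w (EuclideanSpace.basisFun ι ℂ) S Bm (Real.exp κ)
    (Real.exp_pos _).le hSn
  have hexp : Real.exp κ ^ 2 = Real.exp (2 * κ) := by
    rw [← Real.exp_nat_mul]; norm_num
  have h1 : ∀ k, ‖(v k : EuclideanSpace ℂ ι) - (E2.map a).starProjection (v k)‖ ^ 2 ≤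
      ‖Bm (S (v k))‖ ^ 2 := by
    intro k
    refine pow_le_pow_left₀ (norm_nonneg _) ?_ 2
    set e : EuclideanSpace ℂ ι := (S (v k) : EuclideanSpace ℂ ι) with he
    have h2 : (v k : EuclideanSpace ℂ ι) = a e := (haS _).symm
    have h3 : Bm (S (v k)) = e - E2.starProjection e := rfl
    rw [h3, h2]
    refine (norm_sub_starProjection_le (E2.map a) (a e) (a (E2.starProjection e))
      (Submodule.mem_map_of_mem (Submodule.starProjection_apply_mem _ _))).trans ?_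
    rw [← map_sub]
    exact ha1 _
  calc 2 * ∑ k, ‖(v k : EuclideanSpace ℂ ι) - (E2.map a).starProjection (v k)‖ ^ 2
      ≤ 2 * ∑ k, ‖Bm (S (v k))‖ ^ 2 :=
        mul_le_mul_of_nonneg_left (Finset.sum_le_sum fun k _ => h1 k) (by norm_num)
    _ ≤ 2 * (Real.exp κ ^ 2 * ∑ j, ‖Bm (w j)‖ ^ 2) := by gcongr
    _ = Real.exp (2 * κ) * (2 * ∑ k, ‖(w k : EuclideanSpace ℂ ι) -
        E2.starProjection (w k)‖ ^ 2) := by
        rw [hexp]
        have : ∀ j, Bm (w j) = (w j : EuclideanSpace ℂ ι) - E2.starProjection (w j) :=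
          fun _ => rfl
        simp only [this]
        ring

open LocAux in
/-- Locality. Windows are labelled by integers `st i` (their starting points). -/
theorem loc {q : ℕ} (st : Fin q → ℤ) (E : Submodule ℂ (EuclideanSpace ℂ (Fin q)))
    (a : EuclideanSpace ℂ (Fin q) →ₗ[ℂ] EuclideanSpace ℂ (Fin q)) (ha : BlockDiag st a)
    (κ : ℝ) (ha1 : ∀ v, ‖a v‖ ≤ ‖v‖) (ha2 : ∀ v, Real.exp (-κ) * ‖v‖ ≤ ‖a v‖)
    (R : ℝ) (hR : 0 < R) :
    ∑ i, ∑ j, (if R ≤ |((st i - st j : ℤ) : ℝ)| then ‖ent (E.map a) i j‖ ^ 2 else 0) ≤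
      16 * Real.exp (2 * κ) *
        ∑ i, ∑ j, min 1 ((((st i - st j : ℤ) : ℝ) / R) ^ 2) * ‖ent E i j‖ ^ 2 := by
  set δ : Fin q → Fin q → ℝ := fun i j => ((st i - st j : ℤ) : ℝ) / R with hδ
  -- the unitaries
  set z : ℝ → ℤ → ℂ := fun t c => Complex.exp (((t * c / R : ℝ) : ℂ) * Complex.I) with hz
  have hz1 : ∀ t c, ‖z t c‖ = 1 := fun t c => Complex.norm_exp_ofReal_mul_I _
  have hzz : ∀ t (i j : Fin q), z t (st i) * (starRingEnd ℂ) (z t (st j)) =
      Complex.exp (((t * δ i j : ℝ) : ℂ) * Complex.I) := by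
    intro t i j
    rw [hz]
    simp only
    rw [← Complex.exp_conj, ← Complex.exp_add]
    congr 1
    rw [map_mul, Complex.conj_ofReal, Complex.conj_I, hδ]
    push_cast
    ring
  have hphase : ∀ x : ℝ, ‖(1 : ℂ) - Complex.exp ((x : ℂ) * Complex.I)‖ ^ 2 =
      2 - 2 * Real.cos x := by
    intro x
    rw [← Complex.normSq_eq_norm_sq, Complex.exp_ofReal_mul_I, Complex.normSq_apply]
    simp [Complex.cos_ofReal_re, Complex.sin_ofReal_re]
    nlinarith [Real.sin_sq_add_cos_sq x]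
  -- distance between `X` and `Z X`
  have hdist : ∀ (X : Submodule ℂ (EuclideanSpace ℂ (Fin q))) (t : ℝ),
      hsd X (X.map ((zeq (fun i => z t (st i)) (fun i => hz1 t _)).toLinearEquiv :
        EuclideanSpace ℂ (Fin q) →ₗ[ℂ] EuclideanSpace ℂ (Fin q))) =
      ∑ i, ∑ j, (2 - 2 * Real.cos (t * δ i j)) * ‖ent X i j‖ ^ 2 := by
    intro X t
    unfold hsd
    refine Finset.sum_congr rfl fun i _ => Finset.sum_congr rfl fun j _ => ?_
    rw [ent_map_zeq, hzz, ← hphase]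
    rw [show ent X i j - Complex.exp (((t * δ i j : ℝ) : ℂ) * Complex.I) * ent X i j =
      (1 - Complex.exp (((t * δ i j : ℝ) : ℂ) * Complex.I)) * ent X i j by ring, norm_mul, mul_pow]
  -- the pointwise inequality
  have hpt : ∀ t : ℝ, ∑ i, ∑ j, (2 - 2 * Real.cos (t * δ i j)) * ‖ent (E.map a) i j‖ ^ 2 ≤
      Real.exp (2 * κ) * ∑ i, ∑ j, (2 - 2 * Real.cos (t * δ i j)) * ‖ent E i j‖ ^ 2 := by
    intro t
    rw [← hdist, ← hdist]
    set Z : EuclideanSpace ℂ (Fin q) →ₗ[ℂ] EuclideanSpace ℂ (Fin q) :=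
      ((zeq (fun i => z t (st i)) (fun i => hz1 t _)).toLinearEquiv :
        EuclideanSpace ℂ (Fin q) →ₗ[ℂ] EuclideanSpace ℂ (Fin q)) with hZ
    have hcomm : (E.map a).map Z = (E.map Z).map a := by
      rw [← Submodule.map_comp, ← Submodule.map_comp]
      congr 1
      ext1 v
      exact (blockDiag_comm st a ha (z t) (hz1 t) v).symm
    rw [hcomm]
    refine hsd_map_le E (E.map Z) ?_ a κ ha1 ha2
    exact (LinearEquiv.finrank_map_eq _ E).symm
  -- integrate
  have hcont : ∀ (X : Submodule ℂ (EuclideanSpace ℂ (Fin q))),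
      Continuous fun t : ℝ => ∑ i, ∑ j, (2 - 2 * Real.cos (t * δ i j)) * ‖ent X i j‖ ^ 2 := by
    intro X
    refine continuous_finset_sum _ fun i _ => continuous_finset_sum _ fun j _ => ?_
    exact (phase_cont _).mul continuous_const
  have hint : ∀ (X : Submodule ℂ (EuclideanSpace ℂ (Fin q))),
      ∫ t in (0 : ℝ)..4, (∑ i, ∑ j, (2 - 2 * Real.cos (t * δ i j)) * ‖ent X i j‖ ^ 2) =
      ∑ i, ∑ j, J (δ i j) * ‖ent X i j‖ ^ 2 := by
    intro X
    rw [intervalIntegral.integral_finset_sum]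
    · refine Finset.sum_congr rfl fun i _ => ?_
      rw [intervalIntegral.integral_finset_sum]
      · refine Finset.sum_congr rfl fun j _ => ?_
        rw [intervalIntegral.integral_mul_const]
        rfl
      · intro j _
        exact ((phase_cont _).mul continuous_const).intervalIntegrable _ _
    · intro i _
      exact (continuous_finset_sum _ fun j _ =>
        (phase_cont _).mul continuous_const).intervalIntegrable _ _
  have h1 : ∑ i, ∑ j, J (δ i j) * ‖ent (E.map a) i j‖ ^ 2 ≤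
      Real.exp (2 * κ) * ∑ i, ∑ j, J (δ i j) * ‖ent E i j‖ ^ 2 := by
    rw [← hint, ← hint, ← intervalIntegral.integral_const_mul]
    exact intervalIntegral.integral_mono_on (by norm_num) ((hcont _).intervalIntegrable _ _)
      ((continuous_const.mul (hcont _)).intervalIntegrable _ _) fun t _ => hpt t
  have h2 : 4 * ∑ i, ∑ j, (if R ≤ |((st i - st j : ℤ) : ℝ)| then ‖ent (E.map a) i j‖ ^ 2 else 0) ≤
      ∑ i, ∑ j, J (δ i j) * ‖ent (E.map a) i j‖ ^ 2 := by
    rw [Finset.mul_sum]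
    refine Finset.sum_le_sum fun i _ => ?_
    rw [Finset.mul_sum]
    refine Finset.sum_le_sum fun j _ => ?_
    split_ifs with h
    · refine mul_le_mul_of_nonneg_right (J_ge _ ?_) (sq_nonneg _)
      rw [hδ]
      simp only
      rw [abs_div, abs_of_pos hR, one_le_div hR]
      exact h
    · rw [mul_zero]
      exact mul_nonneg (J_nonneg _) (sq_nonneg _)
  have h3 : ∑ i, ∑ j, J (δ i j) * ‖ent E i j‖ ^ 2 ≤
      64 * ∑ i, ∑ j, min 1 ((((st i - st j : ℤ) : ℝ) / R) ^ 2) * ‖ent E i j‖ ^ 2 := by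
    rw [Finset.mul_sum]
    refine Finset.sum_le_sum fun i _ => ?_
    rw [Finset.mul_sum]
    refine Finset.sum_le_sum fun j _ => ?_
    rw [← mul_assoc]
    exact mul_le_mul_of_nonneg_right (J_le _) (sq_nonneg _)
  have h4 := mul_le_mul_of_nonneg_left h3 (Real.exp_pos (2 * κ)).le
  nlinarith [h1, h2, h4]

end Crest.Agent.R113
end

-- ▼ part R113/FD/ATail
section

/-!
# Row 113 / S0149, T12: the tail lemma (helper16)

Mass of `P_{aE}` at distances `> 2 (R1 + l)` from the hard cutoff `(E4)` for `P_E`.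
-/

set_option autoImplicit false

namespace Crest.Agent.R113

open scoped BigOperators

/-- total mass of the projection -/
theorem sum_ent_sq_le {q : ℕ} (E : Submodule ℂ (EuclideanSpace ℂ (Fin q))) :
    ∑ i : Fin q, ∑ j : Fin q, ‖ent E i j‖ ^ 2 ≤ q := by
  have h1 : ∀ j : Fin q, ∑ i : Fin q, ‖ent E i j‖ ^ 2 ≤ 1 := by
    intro j
    have h2 : ∀ i : Fin q, ‖ent E i j‖ ^ 2 = ‖(E.starProjection (ev j) : EuclideanSpace ℂ (Fin q)) i‖ ^ 2 := by
      intro i
      simp [ent, ev, EuclideanSpace.inner_single_left]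
    rw [Finset.sum_congr rfl fun i _ => h2 i, ← EuclideanSpace.norm_sq_eq]
    have h3 : ‖E.starProjection (ev j)‖ ≤ ‖(ev j : EuclideanSpace ℂ (Fin q))‖ :=
      E.norm_starProjection_apply_le _
    have h4 : ‖(ev j : EuclideanSpace ℂ (Fin q))‖ = 1 := by simp [ev]
    rw [h4] at h3
    exact pow_le_one₀ (norm_nonneg _) h3
  rw [Finset.sum_comm]
  calc ∑ j : Fin q, ∑ i : Fin q, ‖ent E i j‖ ^ 2 ≤ ∑ _j : Fin q, (1 : ℝ) :=
        Finset.sum_le_sum fun j _ => h1 j
    _ = q := by simp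

/-- **Tail lemma.** `st` = start of the window of a position, windows have length at most `l`. -/
theorem tail_mass {q : ℕ} (st : Fin q → ℤ) (l : ℕ)
    (hst : ∀ i : Fin q, st i ≤ ((i : ℕ) : ℤ) ∧ ((i : ℕ) : ℤ) < st i + l)
    (E : Submodule ℂ (EuclideanSpace ℂ (Fin q)))
    (a : EuclideanSpace ℂ (Fin q) →ₗ[ℂ] EuclideanSpace ℂ (Fin q)) (ha : BlockDiag st a)
    (κ : ℝ) (ha1 : ∀ v, ‖a v‖ ≤ ‖v‖) (ha2 : ∀ v, Real.exp (-κ) * ‖v‖ ≤ ‖a v‖)
    (R : ℕ) (etap : ℝ)
    (hE4 : (∑ i : Fin q, ∑ j : Fin q,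
      if (R : ℤ) ≤ |((i : ℕ) : ℤ) - ((j : ℕ) : ℤ)| then ‖ent E i j‖ ^ 2 else 0) ≤ etap * q)
    (R1 : ℕ) (hR1 : 1 ≤ R1) :
    (∑ i : Fin q, ∑ j : Fin q,
      if (R1 + l : ℤ) ≤ |((i : ℕ) : ℤ) - ((j : ℕ) : ℤ)| then ‖ent (E.map a) i j‖ ^ 2 else 0) ≤
      16 * Real.exp (2 * κ) * (etap + (((R : ℝ) + l) / R1) ^ 2) * q := by
  have hR1' : (0 : ℝ) < R1 := by exact_mod_cast hR1
  have hloc := loc st E a ha κ ha1 ha2 R1 hR1'
  have h1 : (∑ i : Fin q, ∑ j : Fin q,
      if (R1 + l : ℤ) ≤ |((i : ℕ) : ℤ) - ((j : ℕ) : ℤ)| then ‖ent (E.map a) i j‖ ^ 2 else 0) ≤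
      ∑ i, ∑ j, (if (R1 : ℝ) ≤ |((st i - st j : ℤ) : ℝ)| then ‖ent (E.map a) i j‖ ^ 2 else 0) := by
    refine Finset.sum_le_sum fun i _ => Finset.sum_le_sum fun j _ => ?_
    split_ifs with h2 h3 h3
    · exact le_rfl
    · exfalso
      apply h3
      have hi := hst i
      have hj := hst j
      have h4 : (R1 : ℤ) ≤ |st i - st j| := by
        rcases abs_cases (((i : ℕ) : ℤ) - ((j : ℕ) : ℤ)) with h | h <;>
          rcases abs_cases (st i - st j) with h' | h' <;> omega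
      have h5 : ((R1 : ℤ) : ℝ) ≤ ((|st i - st j| : ℤ) : ℝ) := by exact_mod_cast h4
      rw [Int.cast_abs] at h5
      simpa using h5
    · positivity
    · exact le_rfl
  have h2 : (∑ i, ∑ j, min 1 ((((st i - st j : ℤ) : ℝ) / R1) ^ 2) * ‖ent E i j‖ ^ 2) ≤
      (etap + (((R : ℝ) + l) / R1) ^ 2) * q := by
    have h3 : (∑ i, ∑ j, min 1 ((((st i - st j : ℤ) : ℝ) / R1) ^ 2) * ‖ent E i j‖ ^ 2) ≤
        (∑ i : Fin q, ∑ j : Fin q,
          if (R : ℤ) ≤ |((i : ℕ) : ℤ) - ((j : ℕ) : ℤ)| then ‖ent E i j‖ ^ 2 else 0) +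
        ∑ i : Fin q, ∑ j : Fin q, (((R : ℝ) + l) / R1) ^ 2 * ‖ent E i j‖ ^ 2 := by
      rw [← Finset.sum_add_distrib]
      refine Finset.sum_le_sum fun i _ => ?_
      rw [← Finset.sum_add_distrib]
      refine Finset.sum_le_sum fun j _ => ?_
      have hp : 0 ≤ ‖ent E i j‖ ^ 2 := by positivity
      split_ifs with h4
      · have h5 : min 1 ((((st i - st j : ℤ) : ℝ) / R1) ^ 2) * ‖ent E i j‖ ^ 2 ≤
            1 * ‖ent E i j‖ ^ 2 := mul_le_mul_of_nonneg_right (min_le_left _ _) hp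
        have h6 : 0 ≤ (((R : ℝ) + l) / R1) ^ 2 * ‖ent E i j‖ ^ 2 := by positivity
        linarith
      · have hi := hst i
        have hj := hst j
        have h5 : |st i - st j| ≤ (R : ℤ) + l := by
          push Not at h4
          rcases abs_cases (((i : ℕ) : ℤ) - ((j : ℕ) : ℤ)) with h | h <;>
            rcases abs_cases (st i - st j) with h' | h' <;> omega
        have h6 : |((st i - st j : ℤ) : ℝ)| ≤ (R : ℝ) + l := by
          have : ((|st i - st j| : ℤ) : ℝ) ≤ (((R : ℤ) + l : ℤ) : ℝ) := by exact_mod_cast h5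
          rw [Int.cast_abs] at this
          simpa using this
        have h7 : (((st i - st j : ℤ) : ℝ) / R1) ^ 2 ≤ (((R : ℝ) + l) / R1) ^ 2 := by
          rw [div_pow, div_pow]
          refine div_le_div_of_nonneg_right ?_ (by positivity)
          rw [← sq_abs]
          exact pow_le_pow_left₀ (abs_nonneg _) h6 2
        have h8 := mul_le_mul_of_nonneg_right ((min_le_right 1 _).trans h7) hp
        linarith
    have h4 : ∑ i : Fin q, ∑ j : Fin q, (((R : ℝ) + l) / R1) ^ 2 * ‖ent E i j‖ ^ 2 ≤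
        (((R : ℝ) + l) / R1) ^ 2 * q := by
      simp_rw [← Finset.mul_sum]
      exact mul_le_mul_of_nonneg_left (sum_ent_sq_le E) (by positivity)
    calc _ ≤ _ := h3
      _ ≤ etap * q + (((R : ℝ) + l) / R1) ^ 2 * q := add_le_add hE4 h4
      _ = _ := by ring
  calc _ ≤ _ := h1
    _ ≤ _ := hloc
    _ ≤ 16 * Real.exp (2 * κ) * ((etap + (((R : ℝ) + l) / R1) ^ 2) * q) :=
        mul_le_mul_of_nonneg_left h2 (by positivity)
    _ = _ := by ring

end Crest.Agent.R113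
end

-- ▼ part R113/FD/AParamsDefs
section

/-!
Row 113, S0149, T12: definitions for the choice of the parameters of the base block.
`D = 2^d`, `l = M_{b0}/D`, `lh = l/2^ν`, `W = l^6 (1+e b0)`, `κ = W + (W/θ0)(D+1)`,
`ηf = 2η1 + 2/2^ν + 40 zb b0`.
-/

set_option autoImplicit false

namespace Crest.Agent.R113.Orb

/-- `W = l^6 (1 + e)` -/
noncomputable def WW (e : ℕ → ℝ) (b0 l : ℕ) : ℝ := (l : ℝ) ^ 6 * (1 + e b0)

/-- `κ = W + (W/θ0)(D+1)` -/
noncomputable def KK (e : ℕ → ℝ) (b0 l : ℕ) (θ0 D : ℝ) : ℝ := WW e b0 l + WW e b0 l / θ0 * (D + 1)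

/-- bound for the fluxes of the base sets at `E` -/
noncomputable def etaf (η1 : ℝ) (ν b0 : ℕ) : ℝ := 2 * η1 + 2 / 2 ^ ν + 40 * zb b0

/-- `ε₃`: share of the positions outside the good windows -/
noncomputable def eps3 (D : ℝ) (b0 : ℕ) : ℝ := 2 / D + 50 * zb b0

/-- `ε₂`: the `ℓ¹` distance of `diag P_E` and the union of tails -/
noncomputable def eps2 (η1 ω W D : ℝ) (K d ν b0 l : ℕ) : ℝ :=
  2 * 3 ^ (2 ^ d - 1 + 2 * K) * (etaf η1 ν b0 + 18 * zb b0)
    + Real.sqrt (60 * ω + 2 * Real.exp (-(2 * W)))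
    + (2 * Real.sqrt (2 * (60 * ω + ω + eps3 D b0)) + 1 / (4 * l))

end Crest.Agent.R113.Orb
end

-- ▼ part R113/FD/AParamsG
section

/-!
Row 113, S0149, T12 (helper244): the growth part of the choice of the parameters: the base block
`b0` is a near-minimiser of `e` on a half line.
-/

set_option autoImplicit false

namespace Crest.Agent.R113.Orb

theorem exists_near_min (e : ℕ → ℝ) (h0 : ∀ b, 0 ≤ e b) (B : ℕ) :
    ∃ b0, B ≤ b0 ∧ ∀ b, B ≤ b → e b0 ≤ e b + 1 := by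
  have hne : (e '' Set.Ici B).Nonempty := ⟨e B, B, le_refl B, rfl⟩
  have hbd : BddBelow (e '' Set.Ici B) := ⟨0, by rintro _ ⟨b, _, rfl⟩; exact h0 b⟩
  obtain ⟨_, ⟨b0, hb0, rfl⟩, hlt⟩ := exists_lt_of_csInf_lt hne
    (show sInf (e '' Set.Ici B) < sInf (e '' Set.Ici B) + 1 by linarith)
  refine ⟨b0, hb0, fun b hb => ?_⟩
  have := csInf_le hbd ⟨b, hb, rfl⟩
  linarith

theorem params_growth {c e : ℕ → ℝ} {g : ℕ → ℕ} (hG : IsGrowth c e g) (θ0 : ℝ) (hθ : 0 < θ0)
    (d B1 : ℕ) : ∃ b0, B1 ≤ b0 ∧ ∀ l, 2 ^ d * l = Mb b0 → (g b0 ≤ l ∧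
      (∀ b, b0 ≤ b → 8 * KK e b0 l θ0 (2 ^ d) ≤ c b - e b) ∧
      (∀ b, b0 ≤ b → 10 * Real.exp (-(c b - e b) / 4) ≤ zb b) ∧
      5 * Real.exp (-WW e b0 l) ≤ Real.exp (-(10 * l * (e b0 + 100 * (l : ℝ) ^ 3)))) := by
  obtain ⟨T, hT⟩ := pow_unbounded_of_one_lt (17 + 16 * ((2 : ℝ) ^ d + 1) / θ0)
    (show (1 : ℝ) < 4 by norm_num)
  obtain ⟨b0, hb0, hmin⟩ := exists_near_min e hG.e_nonneg (max (max B1 T) (d + 5))
  have hB1 : B1 ≤ b0 := (le_max_left _ _).trans ((le_max_left _ _).trans hb0)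
  have hTb : T ≤ b0 := (le_max_right _ _).trans ((le_max_left _ _).trans hb0)
  have hd : d + 5 ≤ b0 := (le_max_right _ _).trans hb0
  have he0 : 0 ≤ e b0 := hG.e_nonneg b0
  refine ⟨b0, hB1, fun l hl => ?_⟩
  have hD : (0 : ℝ) < 2 ^ d := by positivity
  -- `l ≥ 32`
  have hl32 : 32 ≤ l := by
    by_contra hcon
    have h1 : l ≤ 31 := by omega
    have h2 : 2 ^ d * l ≤ 2 ^ d * 31 := Nat.mul_le_mul_left _ h1
    have h3 : 2 ^ (d + 5) ≤ Mb b0 := by
      unfold Mb
      apply Nat.pow_le_pow_right (by norm_num)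
      nlinarith
    have h4 : 2 ^ (d + 5) = 2 ^ d * 32 := by rw [pow_add]; norm_num
    have h5 : 0 < 2 ^ d := by positivity
    omega
  have hl32' : (32 : ℝ) ≤ l := by exact_mod_cast hl32
  have hlpos : (0 : ℝ) < l := by linarith
  -- common bound
  have hcom : ∀ b, b0 ≤ b → 16 * (l : ℝ) ^ 6 * (1 + ((2 : ℝ) ^ d + 1) / θ0) ≤
      4 ^ b * (Mb b : ℝ) ^ 20 - 1 := by
    intro b hb
    have hMb : (1 : ℝ) ≤ Mb b := by
      have : 0 < Mb b := by unfold Mb; positivity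
      exact_mod_cast this
    have hlM : (l : ℝ) ≤ Mb b := by
      have h1 : l ≤ 2 ^ d * l := Nat.le_mul_of_pos_left _ (by positivity)
      have h2 : Mb b0 ≤ Mb b := by
        unfold Mb
        apply Nat.pow_le_pow_right (by norm_num)
        nlinarith
      have : l ≤ Mb b := by omega
      exact_mod_cast this
    have h1 : (l : ℝ) ^ 6 ≤ (Mb b : ℝ) ^ 20 :=
      (pow_le_pow_left₀ hlpos.le hlM 6).trans (pow_le_pow_right₀ hMb (by norm_num))
    have h2 : (17 + 16 * ((2 : ℝ) ^ d + 1) / θ0) ≤ 4 ^ b :=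
      hT.le.trans (pow_le_pow_right₀ (by norm_num) (hTb.trans hb))
    have h3 : (1 : ℝ) ≤ (Mb b : ℝ) ^ 20 := one_le_pow₀ hMb
    have h4 : 0 ≤ 16 * (1 + ((2 : ℝ) ^ d + 1) / θ0) := by positivity
    have h5 : 16 * (1 + ((2 : ℝ) ^ d + 1) / θ0) + 1 ≤ 4 ^ b := by
      have : 16 * (1 + ((2 : ℝ) ^ d + 1) / θ0) + 1 = 17 + 16 * ((2 : ℝ) ^ d + 1) / θ0 := by ring
      rw [this]; exact h2
    calc 16 * (l : ℝ) ^ 6 * (1 + ((2 : ℝ) ^ d + 1) / θ0)
        = 16 * (1 + ((2 : ℝ) ^ d + 1) / θ0) * (l : ℝ) ^ 6 := by ring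
      _ ≤ 16 * (1 + ((2 : ℝ) ^ d + 1) / θ0) * (Mb b : ℝ) ^ 20 :=
          mul_le_mul_of_nonneg_left h1 h4
      _ ≤ 4 ^ b * (Mb b : ℝ) ^ 20 - 1 := by nlinarith
  have hc : ∀ b, b0 ≤ b → (4 ^ b * (Mb b : ℝ) ^ 20 - 1) * (1 + e b) ≤ c b - e b := by
    intro b hb
    have h1 := hG.c_ge b (by omega)
    have h2 := hG.e_nonneg b
    nlinarith
  have hpos : ∀ b, b0 ≤ b → 0 ≤ 4 ^ b * (Mb b : ℝ) ^ 20 - 1 := by
    intro b hb
    refine le_trans ?_ (hcom b hb)
    positivity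
  refine ⟨?_, ?_, ?_, ?_⟩
  · -- g
    have h1 := hG.g_le b0 (by omega)
    rw [← hl] at h1
    have h2 : 2 ^ d ≤ 4 ^ b0 := by
      have : (4 : ℕ) ^ b0 = 2 ^ (2 * b0) := by rw [pow_mul]; norm_num
      rw [this]
      exact Nat.pow_le_pow_right (by norm_num) (by omega)
    have h3 : 4 ^ b0 * g b0 ≤ 4 ^ b0 * l := h1.trans (Nat.mul_le_mul_right _ h2)
    exact Nat.le_of_mul_le_mul_left h3 (by positivity)
  · -- cost
    intro b hb
    have hbm : max (max B1 T) (d + 5) ≤ b := hb0.trans hb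
    have h1 := hmin b hbm
    have h2 : (1 + e b0) / 2 ≤ 1 + e b := by
      have := hG.e_nonneg b
      linarith
    have h3 : 8 * KK e b0 l θ0 (2 ^ d) =
        (16 * (l : ℝ) ^ 6 * (1 + ((2 : ℝ) ^ d + 1) / θ0)) * ((1 + e b0) / 2) := by
      unfold KK WW
      ring
    rw [h3]
    refine (mul_le_mul (hcom b hb) h2 (by positivity) (hpos b hb)).trans (hc b hb)
  · -- exponential error
    intro b hb
    have h1 := hc b hb
    have h2 := hG.e_nonneg b
    have h3 : 4 ^ b * (Mb b : ℝ) ^ 20 - 1 ≤ c b - e b := by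
      have := hpos b hb
      nlinarith
    have hM : (2 : ℝ) ^ 20 ≤ (Mb b : ℝ) ^ 20 := by
      apply pow_le_pow_left₀ (by norm_num)
      have : 2 ≤ Mb b := by
        unfold Mb
        calc 2 = 2 ^ 1 := by norm_num
          _ ≤ 2 ^ (20 * b ^ 2) := by
            apply Nat.pow_le_pow_right (by norm_num)
            have : 1 ≤ b := by omega
            nlinarith
      exact_mod_cast this
    have h4 : (2 : ℝ) ^ b ≤ 4 ^ b := pow_le_pow_left₀ (by norm_num) (by norm_num) _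
    have h5 : (1 : ℝ) ≤ 2 ^ b := one_le_pow₀ (by norm_num)
    have h6 : 10 * (2 : ℝ) ^ b ≤ (c b - e b) / 4 := by
      have h7 : (2 : ℝ) ^ b * 2 ^ 20 ≤ 4 ^ b * (Mb b : ℝ) ^ 20 :=
        mul_le_mul h4 hM (by positivity) (by positivity)
      norm_num at h7
      linarith
    have h8 : (c b - e b) / 4 ≤ Real.exp ((c b - e b) / 4) := by
      have := Real.add_one_le_exp ((c b - e b) / 4)
      linarith
    have h9 : -(c b - e b) / 4 = -((c b - e b) / 4) := by ring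
    rw [h9, Real.exp_neg]
    have h10 : 10 * (2 : ℝ) ^ b ≤ Real.exp ((c b - e b) / 4) := h6.trans h8
    have h11 : zb b = ((2 : ℝ) ^ b)⁻¹ := by
      unfold zb; rw [one_div, inv_pow]
    rw [h11]
    have h12 : (Real.exp ((c b - e b) / 4))⁻¹ ≤ (10 * (2 : ℝ) ^ b)⁻¹ :=
      inv_anti₀ (by positivity) h10
    calc 10 * (Real.exp ((c b - e b) / 4))⁻¹ ≤ 10 * (10 * (2 : ℝ) ^ b)⁻¹ := by
          apply mul_le_mul_of_nonneg_left h12 (by norm_num)
      _ = ((2 : ℝ) ^ b)⁻¹ := by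
          rw [mul_inv]; ring
  · -- window lemma exponent
    have h5 : (5 : ℝ) ≤ Real.exp 2 := by
      have := Real.add_one_le_exp (1 : ℝ)
      have h1 : Real.exp 2 = Real.exp 1 * Real.exp 1 := by rw [← Real.exp_add]; norm_num
      have h2 := Real.exp_one_gt_d9
      rw [h1]
      nlinarith
    have h6 : 10 * (l : ℝ) * (e b0 + 100 * (l : ℝ) ^ 3) + 2 ≤ WW e b0 l := by
      unfold WW
      have h7 : (1024 : ℝ) * (l : ℝ) ^ 4 ≤ (l : ℝ) ^ 6 := by
        have : (1024 : ℝ) ≤ (l : ℝ) ^ 2 := by nlinarith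
        calc (1024 : ℝ) * (l : ℝ) ^ 4 ≤ (l : ℝ) ^ 2 * (l : ℝ) ^ 4 := by gcongr
          _ = (l : ℝ) ^ 6 := by ring
      have h8 : (1 : ℝ) ≤ (l : ℝ) ^ 4 := one_le_pow₀ (by linarith)
      have h9 : 10 * (l : ℝ) ≤ (l : ℝ) ^ 6 := by
        have h10 : (l : ℝ) ≤ (l : ℝ) ^ 4 := by
          calc (l : ℝ) = (l : ℝ) ^ 1 := by ring
            _ ≤ (l : ℝ) ^ 4 := pow_le_pow_right₀ (by linarith) (by norm_num)
        linarith
      nlinarith
    calc 5 * Real.exp (-WW e b0 l) ≤ Real.exp 2 * Real.exp (-WW e b0 l) := by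
          apply mul_le_mul_of_nonneg_right h5 (Real.exp_pos _).le
      _ = Real.exp (2 - WW e b0 l) := by rw [← Real.exp_add]; ring_nf
      _ ≤ _ := Real.exp_le_exp.mpr (by linarith)

end Crest.Agent.R113.Orb
end

-- ▼ part R113/FD/AParamsS
section

/-!
Row 113, S0149, T12 (helper244): the real inequalities of the choice of the parameters.
-/

set_option autoImplicit false

namespace Crest.Agent.R113.Orb

/-- (S1) as a real inequality. -/
theorem ineq1 {ω θ0 k P x z r : ℝ} (hω : 0 < ω) (hP : 1 ≤ P) (hθ : θ0 = ω / 3000)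
    (hk : 10320 / ω ≤ k) (hx : x ≤ ω / (2600 * P)) (hz0 : 0 ≤ z) (hz : z ≤ ω / (140000 * P))
    (hr : r ≤ ω / 4000) :
    130 * (2 * θ0 + 4 / k + P * (x + 40 * z) + 4 * P * z) + 512 / k + 400 * r
      + (130 * P * 18 + 256 * 18 + 1100) * z + ω / 10 ≤ ω := by
  have hP0 : 0 < P := by linarith
  have hk0 : 0 < k := lt_of_lt_of_le (by positivity) hk
  have h1 : 1 / k ≤ ω / 10320 := by
    rw [div_le_iff₀ hk0]
    rw [div_le_iff₀ hω] at hk
    linarith
  have h4 : 4 / k = 4 * (1 / k) := by ring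
  have h5 : 512 / k = 512 * (1 / k) := by ring
  have h2 : P * x ≤ ω / 2600 := by
    calc P * x ≤ P * (ω / (2600 * P)) := mul_le_mul_of_nonneg_left hx hP0.le
      _ = ω / 2600 := by field_simp
  have h3 : P * z ≤ ω / 140000 := by
    calc P * z ≤ P * (ω / (140000 * P)) := mul_le_mul_of_nonneg_left hz hP0.le
      _ = ω / 140000 := by field_simp
  have h6 : z ≤ P * z := by nlinarith
  have e1 : 130 * (2 * θ0 + 4 / k + P * (x + 40 * z) + 4 * P * z) + 512 / k + 400 * r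
      + (130 * P * 18 + 256 * 18 + 1100) * z + ω / 10 =
      260 * θ0 + 1032 * (1 / k) + 130 * (P * x) + 8060 * (P * z) + 400 * r + 5708 * z + ω / 10 := by
    rw [h4, h5]; ring
  rw [e1, hθ]
  linarith

/-- (S2) as a real inequality; `A = 3^L`. -/
theorem ineq2 {μ ω A x z y D r η1 ν' : ℝ} (hμ : 0 < μ) (hμ1 : μ ≤ 1 / 2)
    (hω : ω = μ ^ 2 / 250000) (hA : 1 ≤ A) (hx : x ≤ μ / (200 * A)) (hz0 : 0 ≤ z)
    (hz : z ≤ μ / (11600 * A)) (hz2 : z ≤ μ ^ 2 / 100000) (hηx : 2 * η1 + 2 * ν' = x)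
    (hD : 2 / D ≤ μ ^ 2 / 2000) (hy : y ≤ μ ^ 2 / 1000) (hr : r ≤ μ / 40) :
    2 * (η1 + ν' + (2 * A * (x + 40 * z + 18 * z) + Real.sqrt (60 * ω + 2 * y)
      + (2 * Real.sqrt (2 * (60 * ω + ω + (2 / D + 50 * z))) + r))) <
      μ * (1 - (2 / D + 50 * z)) / 2 := by
  have hA0 : 0 < A := by linarith
  have h1 : A * x ≤ μ / 200 := by
    calc A * x ≤ A * (μ / (200 * A)) := mul_le_mul_of_nonneg_left hx hA0.le
      _ = μ / 200 := by field_simp
  have h2 : A * z ≤ μ / 11600 := by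
    calc A * z ≤ A * (μ / (11600 * A)) := mul_le_mul_of_nonneg_left hz hA0.le
      _ = μ / 11600 := by field_simp
  have h3 : x ≤ μ / 200 := by
    refine hx.trans ?_
    apply div_le_div_of_nonneg_left hμ.le (by norm_num) (by linarith)
  have h4 : Real.sqrt (60 * ω + 2 * y) ≤ μ / 20 := by
    apply Real.sqrt_le_iff.mpr
    refine ⟨by positivity, ?_⟩
    rw [hω]
    nlinarith
  have h5 : Real.sqrt (2 * (60 * ω + ω + (2 / D + 50 * z))) ≤ μ / 20 := by
    apply Real.sqrt_le_iff.mpr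
    refine ⟨by positivity, ?_⟩
    rw [hω]
    nlinarith
  have h6 : 2 / D + 50 * z ≤ 1 / 100 := by nlinarith
  have h7 : μ * (99 / 100) / 2 ≤ μ * (1 - (2 / D + 50 * z)) / 2 := by
    have : μ * (99 / 100) ≤ μ * (1 - (2 / D + 50 * z)) :=
      mul_le_mul_of_nonneg_left (by linarith) hμ.le
    linarith
  refine lt_of_lt_of_le ?_ h7
  have e1 : 2 * (η1 + ν' + (2 * A * (x + 40 * z + 18 * z) + Real.sqrt (60 * ω + 2 * y)
      + (2 * Real.sqrt (2 * (60 * ω + ω + (2 / D + 50 * z))) + r))) =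
      (2 * η1 + 2 * ν') + 4 * (A * x) + 232 * (A * z) + 2 * Real.sqrt (60 * ω + 2 * y)
      + 4 * Real.sqrt (2 * (60 * ω + ω + (2 / D + 50 * z))) + 2 * r := by ring
  rw [e1, hηx]
  linarith

theorem exists_zb_le {z0 : ℝ} (hz0 : 0 < z0) : ∃ T : ℕ, ∀ b, T ≤ b → zb b ≤ z0 := by
  obtain ⟨T, hT⟩ := exists_pow_lt_of_lt_one hz0 (show (1 / 2 : ℝ) < 1 by norm_num)
  refine ⟨T, fun b hb => ?_⟩
  unfold zb
  exact (pow_le_pow_of_le_one (by norm_num) (by norm_num) hb).trans hT.le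

theorem params1 {c e : ℕ → ℝ} {g : ℕ → ℕ} (hG : IsGrowth c e g) {μ : ℝ} (hμ : 0 < μ)
    (hμ1 : μ ≤ 1 / 2) :
    ∃ (θ0 ω η1 : ℝ) (K d ν : ℕ), 0 < θ0 ∧ 0 < ω ∧ 0 < η1 ∧ 1 ≤ K ∧ 1 ≤ d ∧ 1 ≤ ν ∧
      ∀ l0 : ℕ, ∃ b0 l lh : ℕ, 10 ≤ b0 ∧ K ≤ rb b0 ∧ 2 ^ d * l = Mb b0 ∧ 2 ^ ν * lh = l ∧
        l0 ≤ lh ∧ 1 ≤ lh ∧ g b0 ≤ l ∧
        (∀ b, b0 ≤ b → 8 * KK e b0 l θ0 (2 ^ d) ≤ c b - e b) ∧
        (∀ b, b0 ≤ b → 10 * Real.exp (-(c b - e b) / 4) ≤ zb b) ∧
        5 * Real.exp (-WW e b0 l) ≤ Real.exp (-(10 * l * (e b0 + 100 * (l : ℝ) ^ 3))) ∧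
        130 * (2 * θ0 + 4 / K + ((2 : ℝ) ^ d + 1) * etaf η1 ν b0 + 4 * ((2 : ℝ) ^ d + 1) * zb b0)
          + 512 / K + 400 / Real.sqrt b0
          + (130 * ((2 : ℝ) ^ d + 1) * 18 + 256 * 18 + 1100) * zb b0 + ω / 10 ≤ ω ∧
        2 * (η1 + 1 / 2 ^ ν + eps2 η1 ω (WW e b0 l) (2 ^ d) K d ν b0 l) <
          μ * (1 - eps3 (2 ^ d) b0) / 2 := by
  obtain ⟨ω, hω⟩ : ∃ ω : ℝ, ω = μ ^ 2 / 250000 := ⟨_, rfl⟩
  have hω0 : 0 < ω := by rw [hω]; positivity
  obtain ⟨K0, hK0⟩ := exists_nat_ge (10320 / ω)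
  obtain ⟨d0, hd0⟩ := exists_pow_lt_of_lt_one (show 0 < μ ^ 2 / 4000 by positivity)
    (show (1 / 2 : ℝ) < 1 by norm_num)
  set K := max K0 1 with hK
  set d := max d0 1 with hd
  have hKr : 10320 / ω ≤ (K : ℝ) := hK0.trans (by rw [hK]; exact_mod_cast le_max_left _ _)
  have hdr : 2 / (2 : ℝ) ^ d ≤ μ ^ 2 / 2000 := by
    have h1 : (1 / 2 : ℝ) ^ d ≤ (1 / 2 : ℝ) ^ d0 :=
      pow_le_pow_of_le_one (by norm_num) (by norm_num) (le_max_left _ _)
    have h2 : 2 / (2 : ℝ) ^ d = 2 * (1 / 2 : ℝ) ^ d := by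
      rw [one_div, inv_pow]; ring
    rw [h2]
    linarith
  set P : ℝ := 2 ^ d + 1 with hP
  set A : ℝ := 3 ^ (2 ^ d - 1 + 2 * K) with hA
  have hP1 : 1 ≤ P := by rw [hP]; have : (0 : ℝ) < 2 ^ d := by positivity
                         linarith
  have hA1 : 1 ≤ A := by rw [hA]; exact one_le_pow₀ (by norm_num)
  have hP0 : 0 < P := by linarith
  have hA0 : 0 < A := by linarith
  obtain ⟨x0, hx0⟩ : ∃ x0 : ℝ, x0 = min (ω / (2600 * P)) (μ / (200 * A)) := ⟨_, rfl⟩
  have hx00 : 0 < x0 := by rw [hx0]; exact lt_min (by positivity) (by positivity)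
  obtain ⟨ν0, hν0⟩ := exists_pow_lt_of_lt_one (show 0 < x0 / 4 by positivity)
    (show (1 / 2 : ℝ) < 1 by norm_num)
  set ν := max ν0 1 with hν
  have hνr : 1 / (2 : ℝ) ^ ν ≤ x0 / 4 := by
    have h1 : (1 / 2 : ℝ) ^ ν ≤ (1 / 2 : ℝ) ^ ν0 :=
      pow_le_pow_of_le_one (by norm_num) (by norm_num) (le_max_left _ _)
    have h2 : 1 / (2 : ℝ) ^ ν = (1 / 2 : ℝ) ^ ν := by
      rw [one_div, one_div, inv_pow]
    rw [h2]
    linarith
  have hx : 2 * (x0 / 4) + 2 / 2 ^ ν ≤ x0 := by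
    have : 2 / (2 : ℝ) ^ ν = 2 * (1 / 2 ^ ν) := by ring
    rw [this]; linarith
  obtain ⟨z0, hz0⟩ : ∃ z0 : ℝ, z0 = min (ω / (140000 * P)) (min (μ / (11600 * A))
    (μ ^ 2 / 100000)) := ⟨_, rfl⟩
  have hz00 : 0 < z0 := by
    rw [hz0]; exact lt_min (by positivity) (lt_min (by positivity) (by positivity))
  obtain ⟨T1, hT1⟩ := exists_zb_le hz00
  obtain ⟨T2, hT2⟩ := exists_nat_ge ((4000 / ω) ^ 2)
  obtain ⟨T3, hT3⟩ := exists_nat_ge (1000 / μ ^ 2)
  refine ⟨ω / 3000, ω, x0 / 4, K, d, ν, by positivity, hω0, by positivity, le_max_right _ _,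
    le_max_right _ _, le_max_right _ _, fun l0 => ?_⟩
  obtain ⟨b0, hb0, hgrow⟩ := params_growth hG (ω / 3000) (by positivity) d
    (10 + K + (d + ν + l0) + T1 + T2 + T3)
  have hsq : b0 ≤ b0 ^ 2 := by nlinarith
  have hE : b0 + (d + ν) ≤ 20 * b0 ^ 2 := by omega
  obtain ⟨E, hE'⟩ : ∃ E, 20 * b0 ^ 2 = d + (ν + E) := ⟨20 * b0 ^ 2 - (d + ν), by omega⟩
  have hbE : b0 ≤ E := by omega
  have hb0E : b0 ≤ 2 ^ E := by
    have h1 : E < 2 ^ E := Nat.lt_two_pow_self
    omega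
  have hMb : 2 ^ d * (2 ^ ν * 2 ^ E) = Mb b0 := by
    unfold Mb
    rw [hE', pow_add, pow_add]
  obtain ⟨hgl, hg1, hg2, hg3⟩ := hgrow (2 ^ ν * 2 ^ E) hMb
  have hb0pos : (0 : ℝ) < b0 := by
    have : 0 < b0 := by omega
    exact_mod_cast this
  have hlb : (b0 : ℝ) ≤ ((2 ^ ν * 2 ^ E : ℕ) : ℝ) := by
    have : b0 ≤ 2 ^ ν * 2 ^ E := hb0E.trans (Nat.le_mul_of_pos_left _ (by positivity))
    exact_mod_cast this
  have hlpos : (0 : ℝ) < ((2 ^ ν * 2 ^ E : ℕ) : ℝ) := lt_of_lt_of_le hb0pos hlb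
  have hT1' := hT1 b0 (by omega)
  have hT2' : (4000 / ω) ^ 2 ≤ (b0 : ℝ) := hT2.trans (by exact_mod_cast (by omega : T2 ≤ b0))
  have hT3' : 1000 / μ ^ 2 ≤ (b0 : ℝ) := hT3.trans (by exact_mod_cast (by omega : T3 ≤ b0))
  have hzz : 0 ≤ zb b0 := by unfold zb; positivity
  have hz1 : zb b0 ≤ ω / (140000 * P) := hT1'.trans (by rw [hz0]; exact min_le_left _ _)
  have hz2 : zb b0 ≤ μ / (11600 * A) :=
    hT1'.trans (by rw [hz0]; exact (min_le_right _ _).trans (min_le_left _ _))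
  have hz3 : zb b0 ≤ μ ^ 2 / 100000 :=
    hT1'.trans (by rw [hz0]; exact (min_le_right _ _).trans (min_le_right _ _))
  have hlinv : 1 / ((2 ^ ν * 2 ^ E : ℕ) : ℝ) ≤ μ ^ 2 / 1000 := by
    have h1 : 1 / ((2 ^ ν * 2 ^ E : ℕ) : ℝ) ≤ 1 / b0 :=
      div_le_div_of_nonneg_left (by norm_num) hb0pos hlb
    have h2 : 1 / (b0 : ℝ) ≤ μ ^ 2 / 1000 := by
      rw [div_le_iff₀ hb0pos]
      rw [div_le_iff₀ (by positivity)] at hT3'
      linarith
    exact h1.trans h2
  refine ⟨b0, 2 ^ ν * 2 ^ E, 2 ^ E, by omega, ?_, hMb, rfl, by omega, by omega, hgl, hg1, hg2,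
    hg3, ?_, ?_⟩
  · have h1 : b0 < 2 ^ b0 := Nat.lt_two_pow_self
    have h2 : 2 ^ b0 ≤ rb b0 := by
      unfold rb
      exact Nat.pow_le_pow_right (by norm_num) (by omega)
    omega
  · have hr : 1 / Real.sqrt b0 ≤ ω / 4000 := by
      have h1 : 4000 / ω ≤ Real.sqrt b0 := Real.le_sqrt_of_sq_le hT2'
      have h2 : 0 < 4000 / ω := by positivity
      have h3 : 0 < Real.sqrt b0 := lt_of_lt_of_le h2 h1
      rw [div_le_iff₀ h3]
      rw [div_le_iff₀ hω0] at h1
      linarith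
    have h := ineq1 (ω := ω) (θ0 := ω / 3000) (k := K) (P := P)
      (x := 2 * (x0 / 4) + 2 / 2 ^ ν) (z := zb b0) (r := 1 / Real.sqrt b0) hω0 hP1 rfl hKr
      (hx.trans (by rw [hx0]; exact min_le_left _ _)) hzz hz1 hr
    have e1 : 400 / Real.sqrt b0 = 400 * (1 / Real.sqrt b0) := by ring
    rw [e1]
    unfold etaf
    exact h
  · have hy : Real.exp (-(2 * WW e b0 (2 ^ ν * 2 ^ E))) ≤ μ ^ 2 / 1000 := by
      refine le_trans ?_ hlinv
      have h1 : ((2 ^ ν * 2 ^ E : ℕ) : ℝ) ≤ 2 * WW e b0 (2 ^ ν * 2 ^ E) := by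
        unfold WW
        have h2 := hG.e_nonneg b0
        have hl1 : (1 : ℝ) ≤ ((2 ^ ν * 2 ^ E : ℕ) : ℝ) := by
          have : 1 ≤ 2 ^ ν * 2 ^ E := Nat.one_le_iff_ne_zero.mpr (by positivity)
          exact_mod_cast this
        have h3 : ((2 ^ ν * 2 ^ E : ℕ) : ℝ) ≤ ((2 ^ ν * 2 ^ E : ℕ) : ℝ) ^ 6 := by
          calc ((2 ^ ν * 2 ^ E : ℕ) : ℝ) = ((2 ^ ν * 2 ^ E : ℕ) : ℝ) ^ 1 := by ring
            _ ≤ _ := pow_le_pow_right₀ hl1 (by norm_num)
        nlinarith
      have h4 : ((2 ^ ν * 2 ^ E : ℕ) : ℝ) ≤ Real.exp (2 * WW e b0 (2 ^ ν * 2 ^ E)) := by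
        have := Real.add_one_le_exp (2 * WW e b0 (2 ^ ν * 2 ^ E))
        linarith
      rw [Real.exp_neg, one_div]
      exact inv_anti₀ hlpos h4
    have hrr : 1 / (4 * ((2 ^ ν * 2 ^ E : ℕ) : ℝ)) ≤ μ / 40 := by
      have h1 : 1 / (4 * ((2 ^ ν * 2 ^ E : ℕ) : ℝ)) = (1 / ((2 ^ ν * 2 ^ E : ℕ) : ℝ)) / 4 := by
        field_simp
      rw [h1]
      nlinarith
    have h := ineq2 (μ := μ) (ω := ω) (A := A) (x := 2 * (x0 / 4) + 2 / 2 ^ ν) (z := zb b0)
      (y := Real.exp (-(2 * WW e b0 (2 ^ ν * 2 ^ E)))) (D := 2 ^ d)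
      (r := 1 / (4 * ((2 ^ ν * 2 ^ E : ℕ) : ℝ))) (η1 := x0 / 4) (ν' := 1 / 2 ^ ν) hμ hμ1 hω hA1
      (hx.trans (by rw [hx0]; exact min_le_right _ _)) hzz hz2 hz3 (by ring) hdr hy hrr
    unfold eps2 etaf eps3
    rw [← hA]
    have e2 : 2 * A * (2 * (x0 / 4) + 2 / 2 ^ ν + 40 * zb b0 + 18 * zb b0) =
      2 * A * (2 * (x0 / 4) + 2 / 2 ^ ν + 40 * zb b0 + 18 * zb b0) := rfl
    exact h

end Crest.Agent.R113.Orb
end

-- ▼ part R113/Seq
section

/-! # T11: iterated two-valued scalings (SEQ) — blueprint 6835 (SEQ) -/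

set_option autoImplicit false

namespace Crest.Agent.R113

open scoped BigOperators

variable {ι : Type*} [Fintype ι] [DecidableEq ι]

/-- Two-valued scaling, `ℓ¹` distance of the diagonals. -/
theorem sum_abs_dg_scal (X : Submodule ℂ (EuclideanSpace ℂ ι)) (A : Finset ι) {s : ℝ}
    (hs : 0 ≤ s) : ∑ i, |dg (X.map (scal A s)) i - dg X i| ≤
      2 * (trOn X A - trOn (X.map (scal A s)) A) := by
  classical
  have h1 : ∑ i ∈ A, |dg (X.map (scal A s)) i - dg X i| =
      trOn X A - trOn (X.map (scal A s)) A := by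
    unfold trOn
    rw [← Finset.sum_sub_distrib]
    refine Finset.sum_congr rfl fun i hi => ?_
    rw [abs_sub_comm, abs_of_nonneg (sub_nonneg.2 (cs_on X A hs hi))]
  have h2 : ∑ i ∈ Aᶜ, |dg (X.map (scal A s)) i - dg X i| =
      trOn (X.map (scal A s)) Aᶜ - trOn X Aᶜ := by
    unfold trOn
    rw [← Finset.sum_sub_distrib]
    refine Finset.sum_congr rfl fun i hi => ?_
    rw [abs_of_nonneg (sub_nonneg.2 (cs_off X A hs (Finset.mem_compl.1 hi)))]
  have h3 := cs_abs X A Aᶜ hs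
  have h4 := le_abs_self (trOn (X.map (scal A s)) Aᶜ - trOn X Aᶜ)
  rw [← Finset.sum_add_sum_compl A, h1, h2]
  linarith

theorem seq_scal (L : ℕ) (X : ℕ → Submodule ℂ (EuclideanSpace ℂ ι)) (A B : ℕ → Finset ι)
    (s : ℕ → ℝ) (ηf err : ℝ) (hη : 0 ≤ ηf + err) (hs : ∀ j < L, 0 ≤ s j)
    (hX : ∀ j < L, X (j + 1) = (X j).map (scal (A j) (s j)))
    (h0 : ∀ j < L, trOn (X 0) (A j) - trOn (X 0) (B j) ≤ ηf)
    (hMI : ∀ j < L, trOn (X j) (A j) - trOn (X (j + 1)) (A j) ≤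
      trOn (X j) (A j) - trOn (X j) (B j) + err) :
    (∀ j < L, trOn (X j) (A j) - trOn (X (j + 1)) (A j) ≤ 3 ^ j * (ηf + err)) ∧
    ∑ i, |dg (X L) i - dg (X 0) i| ≤ 3 ^ L * (ηf + err) ∧
    Real.sqrt (hsd (X L) (X 0)) ≤ 3 ^ L * Real.sqrt (2 * (ηf + err)) := by
  set mv : ℕ → ℝ := fun j => trOn (X j) (A j) - trOn (X (j + 1)) (A j) with hmv
  have hmv0 : ∀ j < L, 0 ≤ mv j := by
    intro j hj
    have := cs_abs (X j) (A j) (A j) (hs j hj)
    rw [← hX j hj] at this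
    exact (abs_nonneg _).trans this
  -- traces of arbitrary sets along the sequence
  have htr : ∀ (C : Finset ι) (j : ℕ), j ≤ L →
      |trOn (X j) C - trOn (X 0) C| ≤ ∑ i ∈ Finset.range j, mv i := by
    intro C j
    induction j with
    | zero => intro _; simp
    | succ j ih =>
      intro hj
      have h1 := cs_abs (X j) (A j) C (hs j (by omega))
      rw [← hX j (by omega)] at h1
      rw [Finset.sum_range_succ]
      calc |trOn (X (j + 1)) C - trOn (X 0) C|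
          = |(trOn (X (j + 1)) C - trOn (X j) C) + (trOn (X j) C - trOn (X 0) C)| := by ring_nf
        _ ≤ |trOn (X (j + 1)) C - trOn (X j) C| + |trOn (X j) C - trOn (X 0) C| := abs_add_le _ _
        _ ≤ _ := by linarith [ih (by omega)]
  have hbound : ∀ j < L, mv j ≤ 3 ^ j * (ηf + err) := by
    intro j
    induction j using Nat.strong_induction_on with
    | _ j ih =>
      intro hj
      have h1 := hMI j hj
      have h2 := abs_le.1 (htr (A j) j hj.le)
      have h3 := abs_le.1 (htr (B j) j hj.le)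
      have h4 := h0 j hj
      have h5 : ∑ i ∈ Finset.range j, mv i ≤ ∑ i ∈ Finset.range j, 3 ^ i * (ηf + err) := by
        refine Finset.sum_le_sum fun i hi => ?_
        have := Finset.mem_range.1 hi
        exact ih i this (by omega)
      have h6 : ∑ i ∈ Finset.range j, (3 : ℝ) ^ i * (ηf + err) = (3 ^ j - 1) / 2 * (ηf + err) := by
        rw [← Finset.sum_mul, geom_sum_eq (by norm_num)]
        norm_num
      rw [h6] at h5
      have h7 : mv j ≤ trOn (X j) (A j) - trOn (X j) (B j) + err := h1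
      nlinarith
  refine ⟨hbound, ?_, ?_⟩
  · have h1 : ∀ j ≤ L, ∑ i, |dg (X j) i - dg (X 0) i| ≤ ∑ k ∈ Finset.range j, 2 * mv k := by
      intro j
      induction j with
      | zero => intro _; simp
      | succ j ih =>
        intro hj
        have h2 := sum_abs_dg_scal (X j) (A j) (hs j (by omega))
        rw [← hX j (by omega)] at h2
        rw [Finset.sum_range_succ]
        calc ∑ i, |dg (X (j + 1)) i - dg (X 0) i|
            ≤ ∑ i, (|dg (X (j + 1)) i - dg (X j) i| + |dg (X j) i - dg (X 0) i|) := by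
              refine Finset.sum_le_sum fun i _ => ?_
              exact abs_sub_le _ _ _
          _ = ∑ i, |dg (X (j + 1)) i - dg (X j) i| + ∑ i, |dg (X j) i - dg (X 0) i| :=
              Finset.sum_add_distrib
          _ ≤ _ := by linarith [ih (by omega)]
    refine (h1 L le_rfl).trans ?_
    have h2 : ∑ k ∈ Finset.range L, 2 * mv k ≤ ∑ k ∈ Finset.range L, 2 * (3 ^ k * (ηf + err)) := by
      refine Finset.sum_le_sum fun k hk => ?_
      linarith [hbound k (Finset.mem_range.1 hk)]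
    refine h2.trans ?_
    rw [← Finset.mul_sum, ← Finset.sum_mul, geom_sum_eq (by norm_num)]
    norm_num
    nlinarith
  · have h1 : ∀ j ≤ L, Real.sqrt (hsd (X j) (X 0)) ≤
        ∑ k ∈ Finset.range j, Real.sqrt (2 * mv k) := by
      intro j
      induction j with
      | zero =>
        intro _
        have : hsd (X 0) (X 0) = 0 := by
          unfold hsd; simp
        rw [this]; simp
      | succ j ih =>
        intro hj
        have h2 := cs_hsd (X j) (A j) (hs j (by omega))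
        rw [← hX j (by omega)] at h2
        rw [Finset.sum_range_succ]
        have h3 := hsd_triangle (X (j + 1)) (X j) (X 0)
        have h4 := Real.sqrt_le_sqrt h2
        linarith [ih (by omega)]
    refine (h1 L le_rfl).trans ?_
    have h2 : ∀ k ∈ Finset.range L, Real.sqrt (2 * mv k) ≤
        2 * 3 ^ k * Real.sqrt (2 * (ηf + err)) := by
      intro k hk
      have h3 : 2 * mv k ≤ (2 * 3 ^ k) ^ 2 * (2 * (ηf + err)) := by
        have h4 := hbound k (Finset.mem_range.1 hk)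
        have h5 : (1 : ℝ) ≤ 3 ^ k := one_le_pow₀ (by norm_num)
        nlinarith [mul_nonneg (show (0 : ℝ) ≤ 3 ^ k by positivity) hη]
      calc Real.sqrt (2 * mv k) ≤ Real.sqrt ((2 * 3 ^ k) ^ 2 * (2 * (ηf + err))) :=
            Real.sqrt_le_sqrt h3
        _ = _ := by rw [Real.sqrt_mul (by positivity), Real.sqrt_sq (by positivity)]
    refine (Finset.sum_le_sum h2).trans ?_
    rw [← Finset.sum_mul, ← Finset.mul_sum, geom_sum_eq (by norm_num)]
    have := Real.sqrt_nonneg (2 * (ηf + err))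
    nlinarith

end Crest.Agent.R113
end

-- ▼ part R113/FluxE
section

/-!
# T12/A2 (helper251), part 1: the fluxes of window-constant sets at `E` are small (from E5)
-/

set_option autoImplicit false

namespace Crest.Agent.R113.FluxE

open Finset
open Crest.Agent.R113.FD (Tiling tile_sum)
open Crest.Agent.R113.Orb (ind flux)

section Tile

/-- sum over a function which is constant on the tiles, up to an uncovered set `U` -/
theorem tile_bound {q l : ℕ} {W G : Finset ℕ} (hW : Tiling q l W) (hG : G ⊆ W) (x ψ : ℕ → ℝ)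
    (hx : ∀ m, |x m| ≤ 1) (hψ : ∀ m, |ψ m| ≤ 1)
    (hconst : ∀ s ∈ G, ∀ i < l, ψ (s + i) = ψ s) (U : Finset ℕ)
    (hcov : ∀ m < q, m ∉ U → ∃ s ∈ G, s ≤ m ∧ m < s + l) :
    |∑ m ∈ range q, x m * ψ m| ≤ ∑ s ∈ W, |∑ i ∈ range l, x (s + i)| + U.card := by
  classical
  set V : Finset ℕ := G.biUnion (fun s => Ico s (s + l)) with hV
  have hVq : V ⊆ range q := by
    intro m hm
    rw [hV, mem_biUnion] at hm
    obtain ⟨s, hs, hm⟩ := hm
    rw [mem_Ico] at hm
    rw [mem_range]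
    have := hW.le s (hG hs)
    omega
  have hdis : (G : Set ℕ).PairwiseDisjoint (fun s => Ico s (s + l)) := by
    intro s hs t ht hst
    have h2 := hW.sep s (hG hs) t (hG ht)
    have h3 := hW.sep t (hG ht) s (hG hs)
    change Disjoint (Ico s (s + l)) (Ico t (t + l))
    rw [Finset.disjoint_left]
    intro m hm hm'
    rw [mem_Ico] at hm hm'
    rcases lt_or_gt_of_ne hst with h | h
    · have := h2 h; omega
    · have := h3 h; omega
  have h1 : ∑ m ∈ V, x m * ψ m = ∑ s ∈ G, ψ s * ∑ i ∈ range l, x (s + i) := by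
    rw [hV, Finset.sum_biUnion hdis]
    refine Finset.sum_congr rfl fun s hs => ?_
    rw [Finset.sum_Ico_eq_sum_range, Finset.mul_sum]
    simp only [add_tsub_cancel_left]
    refine Finset.sum_congr rfl fun i hi => ?_
    rw [hconst s hs i (mem_range.mp hi), mul_comm]
  have h2 : |∑ m ∈ V, x m * ψ m| ≤ ∑ s ∈ W, |∑ i ∈ range l, x (s + i)| := by
    rw [h1]
    refine (Finset.abs_sum_le_sum_abs _ _).trans ?_
    refine le_trans ?_ (Finset.sum_le_sum_of_subset_of_nonneg hG (fun _ _ _ => abs_nonneg _))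
    refine Finset.sum_le_sum fun s _ => ?_
    rw [abs_mul]
    exact mul_le_of_le_one_left (abs_nonneg _) (hψ s)
  have h3 : |∑ m ∈ range q \ V, x m * ψ m| ≤ U.card := by
    refine (Finset.abs_sum_le_sum_abs _ _).trans ?_
    have h4 : ∀ m ∈ range q \ V, |x m * ψ m| ≤ 1 := by
      intro m _
      rw [abs_mul]
      exact mul_le_one₀ (hx m) (abs_nonneg _) (hψ m)
    refine (Finset.sum_le_card_nsmul _ _ 1 h4).trans ?_
    rw [nsmul_eq_mul, mul_one]
    have : range q \ V ⊆ U := by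
      intro m hm
      rw [mem_sdiff, mem_range] at hm
      by_contra hmU
      obtain ⟨s, hs, h5, h6⟩ := hcov m hm.1 hmU
      apply hm.2
      rw [hV, mem_biUnion]
      exact ⟨s, hs, mem_Ico.mpr ⟨h5, h6⟩⟩
    exact_mod_cast Finset.card_le_card this
  rw [← Finset.sum_sdiff hVq]
  calc _ ≤ |∑ m ∈ range q \ V, x m * ψ m| + |∑ m ∈ V, x m * ψ m| := abs_add_le _ _
    _ ≤ _ := by linarith

/-- telescoping -/
theorem abs_sum_shift_le (f : ℤ → ℝ) (h0 : ∀ m, 0 ≤ f m) (h1 : ∀ m, f m ≤ 1) (q n : ℕ) :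
    |∑ m ∈ range q, (f m - f ((m : ℤ) - n))| ≤ n := by
  induction n with
  | zero => simp
  | succ n ih =>
    have h2 : ∑ m ∈ range q, (f m - f ((m : ℤ) - (n + 1 : ℕ))) =
        ∑ m ∈ range q, (f m - f ((m : ℤ) - n)) +
        (f ((q : ℤ) - (n + 1)) - f (-(n + 1 : ℤ))) := by
      have h3 : ∑ m ∈ range q, (f ((m : ℤ) - n) - f ((m : ℤ) - (n + 1 : ℕ))) =
          f ((q : ℤ) - (n + 1)) - f (-(n + 1 : ℤ)) := by
        have := Finset.sum_range_sub (fun m : ℕ => f ((m : ℤ) - (n + 1))) q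
        rw [show ((0 : ℕ) : ℤ) - (n + 1 : ℤ) = -(n + 1 : ℤ) by push_cast; ring] at this
        rw [← this]
        refine Finset.sum_congr rfl fun m _ => ?_
        push_cast
        ring_nf
      rw [← h3, ← Finset.sum_add_distrib]
      refine Finset.sum_congr rfl fun m _ => ?_
      ring
    rw [h2]
    have h4 : |f ((q : ℤ) - (n + 1)) - f (-(n + 1 : ℤ))| ≤ 1 := by
      rw [abs_le]
      constructor <;> linarith [h0 ((q : ℤ) - (n + 1)), h1 ((q : ℤ) - (n + 1)),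
        h0 (-(n + 1 : ℤ)), h1 (-(n + 1 : ℤ))]
    calc _ ≤ _ := abs_add_le _ _
      _ ≤ (n : ℝ) + 1 := add_le_add ih h4
      _ = _ := by push_cast; ring

end Tile

section Orbit

variable {w : ℕ → ℕ → Bool} {c e : ℕ → ℝ} {g : ℕ → ℕ} {u : ℤ → ℝ} {lev : ℕ → ℤ → ℕ}
  {bad : ℕ → Set ℤ}

/-- going backwards inside a column -/
theorem lev_sub (hO : OrbitData w c e g u lev bad) {b : ℕ} (hb : 1 ≤ b) (m : ℤ) (t : ℕ)
    (ht : t ≤ lev b m) : lev b (m - t) + t = lev b m := by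
  induction t with
  | zero => simp
  | succ t ih =>
    have h1 := ih (by omega)
    have h2 := hO.lev_step b (m - (t + 1 : ℕ)) hb
    have h3 : m - ((t + 1 : ℕ) : ℤ) + 1 = m - t := by push_cast; ring
    rw [h3] at h2
    omega

/-- around a non-bad position the level is linear in both directions -/
theorem lev_near (hO : OrbitData w c e g u lev bad) {b : ℕ} (hb : 1 ≤ b) {m : ℤ}
    (hm : m ∉ bad b) (t : ℤ) (h1 : -((2 * Pib b * Mb b : ℕ) : ℤ) ≤ t)
    (h2 : t ≤ ((2 * Pib b * Mb b : ℕ) : ℤ)) :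
    (lev b (m + t) : ℤ) = lev b m + t := by
  have h3 := hO.run_low b hb m hm
  have h4 := hO.run b hb m hm
  generalize 2 * Pib b * Mb b = L at h1 h2 h3 h4
  rcases le_total 0 t with h | h
  · obtain ⟨i, rfl⟩ := Int.eq_ofNat_of_zero_le h
    have := h4 i (by exact_mod_cast h2)
    rw [this]
    push_cast
    ring
  · obtain ⟨i, hi⟩ := Int.eq_ofNat_of_zero_le (show 0 ≤ -t by omega)
    have hi' : i ≤ lev b m := by omega
    have := lev_sub hO hb m i hi'
    have h5 : m + t = m - i := by omega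
    rw [h5]
    omega

open Classical in
/-- the set of starts of full windows inside `[0,q)` -/
noncomputable def fullW (lev : ℕ → ℤ → ℕ) (b l q : ℕ) : Finset ℕ :=
  (range q).filter (fun s => s + l ≤ q ∧ lev b s % l = 0 ∧
    ∀ i < l, lev b ((s : ℤ) + i) = lev b s + i)

theorem mem_fullW {b l q s : ℕ} : s ∈ fullW lev b l q ↔ s < q ∧ s + l ≤ q ∧ lev b s % l = 0 ∧
    ∀ i < l, lev b ((s : ℤ) + i) = lev b s + i := by
  classical
  rw [fullW, mem_filter, mem_range]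

theorem tiling_fullW {b l q : ℕ} : Tiling q l (fullW lev b l q) := by
  constructor
  · intro s hs
    exact (mem_fullW.mp hs).2.1
  · intro s hs t ht hst
    obtain ⟨-, -, h1, h2⟩ := mem_fullW.mp hs
    obtain ⟨-, -, h3, -⟩ := mem_fullW.mp ht
    by_contra hcon
    have h4 := h2 (t - s) (by omega)
    have h5 : (s : ℤ) + ((t - s : ℕ) : ℤ) = t := by omega
    rw [h5] at h4
    rw [h4, Nat.add_mod, h1, zero_add, Nat.mod_mod] at h3
    have h6 : (t - s) % l = t - s := Nat.mod_eq_of_lt (by omega)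
    omega

/-- positions away from the ends which are not bad lie in a full window -/
theorem exists_fullW (hO : OrbitData w c e g u lev bad) {b l q m : ℕ} (hb : 1 ≤ b) (hl : 0 < l)
    (hlM : l ≤ 2 * Pib b * Mb b) (hm : (m : ℤ) ∉ bad b) (h1 : l ≤ m) (h2 : m + l ≤ q) :
    ∃ s ∈ fullW lev b l q, s ≤ m ∧ m < s + l ∧ m - s = lev b m % l := by
  have hr : lev b m % l < l := Nat.mod_lt _ hl
  have hle : lev b m % l ≤ lev b m := Nat.mod_le _ _
  set r := lev b m % l with hrdef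
  refine ⟨m - r, ?_, by omega, by omega, by omega⟩
  rw [mem_fullW]
  have hlev : ∀ i : ℕ, i < l → (lev b (((m - r : ℕ) : ℤ) + i) : ℤ) = lev b m + (i - r) := by
    intro i hi
    have := lev_near hO hb hm (i - r : ℤ) (by omega) (by omega)
    have h5 : ((m - r : ℕ) : ℤ) + i = m + (i - r : ℤ) := by omega
    rw [h5, this]
  have h0 := hlev 0 hl
  simp only [Nat.cast_zero, add_zero, zero_sub] at h0
  refine ⟨by omega, by omega, ?_, ?_⟩
  · have h6 : lev b ((m - r : ℕ) : ℤ) = lev b m - r := by omega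
    rw [h6]
    have h7 := Nat.div_add_mod (lev b m) l
    have h8 : lev b m - r = l * (lev b m / l) := by omega
    rw [h8]
    exact Nat.mul_mod_right _ _
  · intro i hi
    have := hlev i hi
    omega

open Classical in
theorem card_bad_le {q N B J b : ℕ} (hC : OrbitCounts q N B J lev bad) (hB : B ≤ b) (hJ : b ≤ J)
    (n : ℕ) (hn : n ≤ N) :
    (((range q).filter (fun m : ℕ => (m : ℤ) - n ∈ bad b)).card : ℝ) ≤ zb b * q := by
  refine le_trans ?_ (hC.bad_count b hB hJ)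
  apply Nat.cast_le.mpr
  refine Finset.card_le_card_of_injOn (fun m : ℕ => (m : ℤ) - n) ?_ ?_
  · intro m hm
    rw [Finset.mem_coe, mem_filter, mem_range] at hm
    rw [Finset.mem_coe, mem_filter, mem_Icc]
    obtain ⟨hm1, hm2⟩ := hm
    refine ⟨⟨?_, ?_⟩, 0, by simp, ?_⟩
    · change -(N : ℤ) ≤ (m : ℤ) - n
      omega
    · change (m : ℤ) - n ≤ (q + N : ℤ)
      omega
    · change (m : ℤ) - n + 0 ∈ bad b
      rw [add_zero]
      exact hm2
  · intro m _ m' _ h
    simp only at h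
    omega

/-- fluxes at `E` of window-constant sets -/
theorem flux_E_le (hO : OrbitData w c e g u lev bad) {q N B J b l n : ℕ}
    (hC : OrbitCounts q N B J lev bad) (hB : B ≤ b) (hJ : b ≤ J) (hb : 1 ≤ b) (hl : 0 < l)
    (hlM : l ≤ Pib b * Mb b) (hln : l ∣ n) (hn : n ≤ Pib b * Mb b) (hnN : n ≤ N) (h : ℕ → ℝ)
    (h0 : ∀ m, 0 ≤ h m) (h1 : ∀ m, h m ≤ 1) {ρ η₁ : ℝ} (hρ0 : 0 ≤ ρ) (hρ1 : ρ ≤ 1) {l2 : ℕ}
    (hl2 : 0 < l2) (hl2l : l2 ≤ l)
    (hE5 : ∑ m ∈ range (q - l2), |∑ i ∈ range l2, (h (m + i) - ρ)| ≤ η₁ * l2 * q)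
    (φ : ℕ → Prop) :
    |flux (fun m : Fin q => h m) {m : ℤ | φ (lev b m / l)} n| ≤
      2 * (η₁ * q + l2 * (q / l)) + 4 * l + 3 * (zb b * q) + n := by
  classical
  have hlM2 : l ≤ 2 * Pib b * Mb b := by rw [mul_assoc]; omega
  have hn2 : n ≤ 2 * Pib b * Mb b := by rw [mul_assoc]; omega
  have hnl2 : n + l ≤ 2 * Pib b * Mb b := by rw [mul_assoc]; omega
  set A : Set ℤ := {m : ℤ | φ (lev b m / l)} with hA
  set x : ℕ → ℝ := fun m => h m - ρ with hxdef
  have hx : ∀ m, |x m| ≤ 1 := by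
    intro m
    rw [abs_le]
    constructor <;> simp only [hxdef] <;> linarith [h0 m, h1 m]
  have hind0 : ∀ m, 0 ≤ ind A m := by
    intro m
    unfold ind
    exact Set.indicator_nonneg (fun _ _ => zero_le_one) m
  have hind1 : ∀ m, ind A m ≤ 1 := by
    intro m
    unfold ind
    exact Set.indicator_le_self' (fun _ _ => zero_le_one) m
  have hind : ∀ m, |ind A m| ≤ 1 := fun m => by
    rw [abs_of_nonneg (hind0 m)]
    exact hind1 m
  have hiff : ∀ m m' : ℤ, lev b m / l = lev b m' / l → ind A m = ind A m' := by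
    intro m m' hmm
    have : m ∈ A ↔ m' ∈ A := by simp only [hA, Set.mem_ofPred_eq, hmm]
    unfold ind
    by_cases hm : m ∈ A
    · rw [Set.indicator_of_mem hm, Set.indicator_of_mem (this.mp hm)]
    · rw [Set.indicator_of_notMem hm, Set.indicator_of_notMem (fun h => hm (this.mpr h))]
  have hW := tiling_fullW (lev := lev) (b := b) (l := l) (q := q)
  have htile : ∑ s ∈ fullW lev b l q, |∑ i ∈ range l, x (s + i)| ≤ η₁ * q + l2 * (q / l) := by
    refine (tile_sum hW hl2 hl2l x hx η₁ hE5).trans ?_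
    have h2 := hW.card_mul_le
    have h3 : ((fullW lev b l q).card : ℝ) ≤ q / l := by
      rw [le_div_iff₀ (by exact_mod_cast hl)]
      exact_mod_cast h2
    have h4 : (0 : ℝ) ≤ l2 := by positivity
    nlinarith
  have hdivl : ∀ (s : ℕ) (i : ℕ), lev b s % l = 0 → i < l →
      (lev b s + i) / l = lev b s / l := by
    intro s i hs hi
    obtain ⟨k, hk⟩ := Nat.dvd_of_mod_eq_zero hs
    rw [hk, Nat.mul_add_div hl, Nat.div_eq_of_lt hi, Nat.mul_div_cancel_left _ hl, add_zero]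
  -- bad sets
  set B0 : Finset ℕ := (range q).filter (fun m : ℕ => (m : ℤ) - (0 : ℕ) ∈ bad b) with hB0
  set Bn : Finset ℕ := (range q).filter (fun m : ℕ => (m : ℤ) - n ∈ bad b) with hBn
  have hB0c : (B0.card : ℝ) ≤ zb b * q := by
    have := card_bad_le hC hB hJ 0 (Nat.zero_le _)
    convert this
  have hBnc : (Bn.card : ℝ) ≤ zb b * q := by
    have := card_bad_le hC hB hJ n hnN
    convert this
  set En : Finset ℕ := range l ∪ Ico (q - l) q with hEn
  have hEnc : (En.card : ℝ) ≤ 2 * l := by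
    have h3 : En.card ≤ l + l := by
      refine (Finset.card_union_le _ _).trans ?_
      rw [card_range, Nat.card_Ico]
      omega
    have h4 : (En.card : ℝ) ≤ ((l + l : ℕ) : ℝ) := by exact_mod_cast h3
    push_cast at h4
    linarith
  -- first sum
  have hS1 : |∑ m ∈ range q, x m * ind A (m : ℤ)| ≤
      (η₁ * q + l2 * (q / l)) + (2 * l + zb b * q) := by
    have h2 := tile_bound hW (Finset.Subset.refl _) x (fun m => ind A (m : ℤ)) hx
      (fun m => hind _) (fun s hs i hi => ?_) (En ∪ B0) (fun m hm hmU => ?_)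
    · refine h2.trans ?_
      have h3 : ((En ∪ B0).card : ℝ) ≤ En.card + B0.card := by
        exact_mod_cast Finset.card_union_le _ _
      linarith
    · obtain ⟨-, -, h3, h4⟩ := mem_fullW.mp hs
      apply hiff
      have := h4 i hi
      push_cast
      rw [this]
      exact hdivl s i h3 hi
    · simp only [mem_union, not_or, hEn, hB0, mem_filter, mem_range, mem_Ico, not_and,
        not_lt, Nat.cast_zero, sub_zero] at hmU
      obtain ⟨s, hs, h3, h4, -⟩ := exists_fullW hO hb hl hlM2 (q := q) (m := m) (hmU.2 hm)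
        hmU.1.1 (by have := hmU.1.2; omega)
      exact ⟨s, hs, h3, h4⟩
  have hS2 : |∑ m ∈ range q, x m * ind A ((m : ℤ) - n)| ≤
      (η₁ * q + l2 * (q / l)) + (2 * l + 2 * (zb b * q)) := by
    set G : Finset ℕ := (fullW lev b l q).filter
      (fun s => ∀ i < l, ind A (((s + i : ℕ) : ℤ) - n) = ind A ((s : ℤ) - n)) with hG
    have h2 := tile_bound hW (Finset.filter_subset _ _ : G ⊆ _) x
      (fun m => ind A ((m : ℤ) - n)) hx
      (fun m => hind _) (fun s hs i hi => ?_) (En ∪ B0 ∪ Bn) (fun m hm hmU => ?_)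
    · refine h2.trans ?_
      have h3 : ((En ∪ B0 ∪ Bn).card : ℝ) ≤ En.card + B0.card + Bn.card := by
        have h4 : ((En ∪ B0 ∪ Bn).card : ℝ) ≤ (En ∪ B0).card + Bn.card := by
          exact_mod_cast Finset.card_union_le _ _
        have h5 : ((En ∪ B0).card : ℝ) ≤ En.card + B0.card := by
          exact_mod_cast Finset.card_union_le _ _
        linarith
      linarith
    · exact (mem_filter.mp hs).2 i hi
    · simp only [mem_union, not_or, hEn, hB0, hBn, mem_filter, mem_range, mem_Ico, not_and,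
        not_lt, Nat.cast_zero, sub_zero] at hmU
      obtain ⟨s, hs, h3, h4, h5⟩ := exists_fullW hO hb hl hlM2 (q := q) (m := m) (hmU.1.2 hm)
        hmU.1.1.1 (by have := hmU.1.1.2; omega)
      refine ⟨s, ?_, h3, h4⟩
      refine mem_filter.mpr ⟨hs, ?_⟩
      have hmn : (m : ℤ) - n ∉ bad b := hmU.2 hm
      -- level at `m` from the level at `m - n`
      have h6 := lev_near hO hb hmn (n : ℤ) (by omega) (by exact_mod_cast hn2)
      rw [sub_add_cancel] at h6
      obtain ⟨k, hk⟩ := hln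
      have hmod : lev b ((m : ℤ) - n) % l = lev b m % l := by
        have h7 : lev b m = lev b ((m : ℤ) - n) + l * k := by
          rw [← hk]; omega
        rw [h7, Nat.add_mul_mod_self_left]
      have hr : lev b m % l < l := Nat.mod_lt _ hl
      have hle : lev b ((m : ℤ) - n) % l ≤ lev b ((m : ℤ) - n) := Nat.mod_le _ _
      have hbase : ∀ i : ℕ, i < l → lev b (((s + i : ℕ) : ℤ) - n) / l =
          lev b ((m : ℤ) - n) / l := by
        intro i hi
        have h8 := lev_near hO hb hmn ((s : ℤ) + i - m) (by omega) (by omega)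
        have h9 : (m : ℤ) - n + ((s : ℤ) + i - m) = ((s + i : ℕ) : ℤ) - n := by
          push_cast; ring
        rw [h9] at h8
        have h10 := Nat.div_add_mod (lev b ((m : ℤ) - n)) l
        have h11 : lev b (((s + i : ℕ) : ℤ) - n) =
            l * (lev b ((m : ℤ) - n) / l) + i := by
          omega
        rw [h11, Nat.mul_add_div hl, Nat.div_eq_of_lt hi, add_zero]
      intro i hi
      apply hiff
      have h12 := hbase 0 hl
      rw [add_zero] at h12
      rw [hbase i hi, h12]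
  have hcount := abs_sum_shift_le (fun m => ind A m) hind0 hind1 q n
  have hflux : flux (fun m : Fin q => h m) A n =
      ∑ m ∈ range q, x m * ind A (m : ℤ) - ∑ m ∈ range q, x m * ind A ((m : ℤ) - n) +
        ρ * ∑ m ∈ range q, (ind A (m : ℤ) - ind A ((m : ℤ) - n)) := by
    unfold flux
    rw [Fin.sum_univ_eq_sum_range (fun m : ℕ => h m * (ind A (m : ℤ) - ind A ((m : ℤ) - n))) q,
      Finset.mul_sum, ← Finset.sum_sub_distrib, ← Finset.sum_add_distrib]
    refine Finset.sum_congr rfl fun m _ => ?_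
    simp only [hxdef]
    ring
  rw [hflux]
  have h9 : |ρ * ∑ m ∈ range q, (ind A (m : ℤ) - ind A ((m : ℤ) - n))| ≤ n := by
    rw [abs_mul, abs_of_nonneg hρ0]
    calc ρ * _ ≤ 1 * _ := mul_le_mul_of_nonneg_right hρ1 (abs_nonneg _)
      _ ≤ n := by rw [one_mul]; exact hcount
  calc _ ≤ |∑ m ∈ range q, x m * ind A (m : ℤ) - ∑ m ∈ range q, x m * ind A ((m : ℤ) - n)| +
        |ρ * ∑ m ∈ range q, (ind A (m : ℤ) - ind A ((m : ℤ) - n))| := abs_add_le _ _
    _ ≤ (|∑ m ∈ range q, x m * ind A (m : ℤ)| + |∑ m ∈ range q, x m * ind A ((m : ℤ) - n)|) + n :=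
        add_le_add (abs_sub _ _) h9
    _ ≤ _ := by linarith

end Orbit

end Crest.Agent.R113.FluxE
end

-- ▼ part R113/FD/SeqApp

/-!
Row 113, S0149, task T12/A2 (helper251): the base fluxes at `E` are small (`base_flux_E`), and the
diagonals of `E` and of `e^{-s g} E` are `ℓ¹`-close (`seq_base`), `g` the base function.
-/

set_option autoImplicit false

namespace Crest.Agent.R113.SeqApp

open Finset
open Crest.Agent.R113.Orb (win cell pw near far gfun ind BIdx bset bshift bcoef IsBd flux)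

attribute [local irreducible] Mb rb Pib

variable {w : ℕ → ℕ → Bool} {c e : ℕ → ℝ} {g : ℕ → ℕ} {u : ℤ → ℝ} {lev : ℕ → ℤ → ℕ}
  {bad : ℕ → Set ℤ} {q N B J b0 l D K : ℕ}

/-- base sets depend only on the window number of the level -/
theorem bset_eq_phi (hlD : D * l = Mb b0) (j : BIdx D K) :
    ∃ φ : ℕ → Prop, bset w lev b0 l D K j = {m : ℤ | φ (lev b0 m / l)} := by
  refine ⟨fun x => ∃ m : ℤ, lev b0 m / l = x ∧ m ∈ bset w lev b0 l D K j, ?_⟩
  ext m
  constructor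
  · intro hm
    exact ⟨m, rfl, hm⟩
  · rintro ⟨m', h1, h2⟩
    exact (Orb.bset_congr hlD h1 j).mp h2

theorem bshift_le (hlD : D * l = Mb b0) (hK : K ≤ rb b0) (j : BIdx D K) :
    bshift b0 l D K j ≤ rb b0 * Mb b0 := by
  have hr := rb_pos b0
  rcases j with i | ks
  · have h1 : (i : ℕ) + 1 ≤ D := by have := i.2; omega
    calc ((i : ℕ) + 1) * l ≤ D * l := Nat.mul_le_mul_right _ h1
      _ = 1 * Mb b0 := by rw [hlD, one_mul]
      _ ≤ rb b0 * Mb b0 := Nat.mul_le_mul_right _ hr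
  · have h1 : (ks.1 : ℕ) + 1 ≤ rb b0 := by have := ks.1.2; omega
    exact Nat.mul_le_mul_right _ h1

/-- fluxes of the base sets at `E` -/
theorem base_flux_E (hO : OrbitData w c e g u lev bad) (hC : OrbitCounts q N B J lev bad)
    (hb : 1 ≤ b0) (hB : B ≤ b0) (hJ : b0 ≤ J) (hN : rb b0 * Mb b0 ≤ N)
    (hq : 4 ^ b0 * (Pib b0 * Mb b0) ≤ q)
    (hl : 0 < l) (hlD : D * l = Mb b0) (hK : K ≤ rb b0) (hE : Fin q → ℝ)
    (h0 : ∀ m, 0 ≤ hE m) (h1 : ∀ m, hE m ≤ 1) {ρ η1 : ℝ} (hρ0 : 0 ≤ ρ) (hρ1 : ρ ≤ 1) {lh : ℕ}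
    (hlh : 0 < lh) (hlhl : lh ≤ l)
    (hE5 : ∑ m ∈ range (q - lh),
      |∑ i ∈ range lh, ((if h : m + i < q then hE ⟨m + i, h⟩ else 0) - ρ)| ≤ η1 * lh * q)
    (j : BIdx D K) :
    |flux hE (bset w lev b0 l D K j) (bshift b0 l D K j)| ≤
      (2 * η1 + 2 * lh / l + 8 * zb b0) * q := by
  obtain ⟨φ, hφ⟩ := bset_eq_phi (w := w) (lev := lev) (K := K) hlD j
  set h : ℕ → ℝ := fun m => if hm : m < q then hE ⟨m, hm⟩ else 0 with hhdef
  have hh0 : ∀ m, 0 ≤ h m := by
    intro m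
    simp only [hhdef]
    split_ifs
    · exact h0 _
    · exact le_rfl
  have hh1 : ∀ m, h m ≤ 1 := by
    intro m
    simp only [hhdef]
    split_ifs
    · exact h1 _
    · exact zero_le_one
  have hlM : l ≤ Mb b0 := Orb.l_le hlD
  have hP := Pib_pos b0
  have hM := Mb_pos b0
  have hr1 := rb_pos b0
  have hr := Orb.rb_le_Pib b0
  have hlPM : l ≤ Pib b0 * Mb b0 := hlM.trans (Nat.le_mul_of_pos_left _ hP)
  have hrP : rb b0 * Mb b0 ≤ Pib b0 * Mb b0 := Nat.mul_le_mul_right _ (by omega)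
  have hsh := bshift_le hlD hK j
  obtain ⟨z, hz⟩ := Orb.bshift_dvd (K := K) hlD j
  have key := FluxE.flux_E_le hO hC hB hJ hb hl hlPM (n := bshift b0 l D K j)
    (hz ▸ Dvd.intro_left z rfl) (hsh.trans hrP) (hsh.trans hN) h hh0 hh1 hρ0 hρ1 hlh hlhl hE5 φ
  rw [← hφ] at key
  have hfe : flux (fun m : Fin q => h m) (bset w lev b0 l D K j) (bshift b0 l D K j) =
      flux hE (bset w lev b0 l D K j) (bshift b0 l D K j) := by
    unfold flux
    refine Finset.sum_congr rfl fun m _ => ?_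
    simp only [hhdef, m.2, dif_pos]
  rw [hfe] at key
  refine key.trans ?_
  -- `4 l + n ≤ 5 * Pib * Mb ≤ 5 * zb * q`
  have h4 : ((Pib b0 * Mb b0 : ℕ) : ℝ) ≤ zb b0 * q := by
    have h5 : ((4 ^ b0 * (Pib b0 * Mb b0) : ℕ) : ℝ) ≤ q := by exact_mod_cast hq
    have h6 : zb b0 * ((4 ^ b0 * (Pib b0 * Mb b0) : ℕ) : ℝ) ≤ zb b0 * q :=
      mul_le_mul_of_nonneg_left h5 (by unfold zb; positivity)
    refine le_trans ?_ h6
    have h7 : (1 : ℝ) ≤ zb b0 * 4 ^ b0 := by
      unfold zb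
      rw [← mul_pow]
      norm_num
      exact one_le_pow₀ (by norm_num)
    push_cast
    rw [← mul_assoc]
    have h8 : (0 : ℝ) ≤ (Pib b0 : ℝ) * Mb b0 := by positivity
    nlinarith
  have h9 : (l : ℝ) ≤ ((Pib b0 * Mb b0 : ℕ) : ℝ) := by exact_mod_cast hlPM
  have h10 : (bshift b0 l D K j : ℝ) ≤ ((Pib b0 * Mb b0 : ℕ) : ℝ) := by
    exact_mod_cast hsh.trans hrP
  have h11 : 2 * (η1 * q + lh * (q / l)) = (2 * η1 + 2 * lh / l) * q := by ring
  rw [h11]
  nlinarith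

section Seq

theorem mulD_comp_map {ι : Type*} (X : Submodule ℂ (EuclideanSpace ℂ ι)) (d d' : ι → ℝ) :
    (X.map (mulD d)).map (mulD d') = X.map (mulD (fun i => d i * d' i)) := by
  rw [← Submodule.map_comp]
  congr 1
  ext v i
  simp [mul_left_comm, mul_assoc]

/-- successive two-valued scalings -/
noncomputable def chain {ι : Type*} [Fintype ι] [DecidableEq ι]
    (E : Submodule ℂ (EuclideanSpace ℂ ι)) (A : ℕ → Finset ι) (s : ℕ → ℝ) (j : ℕ) :
    Submodule ℂ (EuclideanSpace ℂ ι) :=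
  E.map (mulD (fun m => Real.exp (-(∑ i ∈ range j, if m ∈ A i then s i else 0))))

theorem chain_zero {ι : Type*} [Fintype ι] [DecidableEq ι]
    (E : Submodule ℂ (EuclideanSpace ℂ ι)) (A : ℕ → Finset ι) (s : ℕ → ℝ) :
    chain E A s 0 = E := by
  have : (mulD (fun _ : ι => (1 : ℝ))) = LinearMap.id := by
    ext v i
    simp
  simp [chain, this]

theorem chain_succ {ι : Type*} [Fintype ι] [DecidableEq ι]
    (E : Submodule ℂ (EuclideanSpace ℂ ι)) (A : ℕ → Finset ι) (s : ℕ → ℝ)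
    (j : ℕ) : chain E A s (j + 1) = (chain E A s j).map (scal (A j) (s j)) := by
  rw [chain, chain, scal, mulD_comp_map]
  congr 2
  funext m
  rw [Finset.sum_range_succ, neg_add, Real.exp_add]
  congr 1
  split_ifs <;> simp

theorem norm_mulD_le {ι : Type*} [Fintype ι] [DecidableEq ι] (d : ι → ℝ) (hd0 : ∀ i, 0 ≤ d i) {C : ℝ}
    (hd : ∀ i, d i ≤ C) (hC : 0 ≤ C) (v : EuclideanSpace ℂ ι) : ‖mulD d v‖ ≤ C * ‖v‖ := by
  rw [← Real.sqrt_sq hC, EuclideanSpace.norm_eq, EuclideanSpace.norm_eq,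
    ← Real.sqrt_mul (sq_nonneg _)]
  apply Real.sqrt_le_sqrt
  rw [Finset.mul_sum]
  refine Finset.sum_le_sum fun i _ => ?_
  rw [mulD_apply, norm_mul, mul_pow, Complex.norm_real, Real.norm_eq_abs, sq_abs]
  have h1 : d i ^ 2 ≤ C ^ 2 := pow_le_pow_left₀ (hd0 i) (hd i) 2
  exact mul_le_mul_of_nonneg_right h1 (sq_nonneg _)

theorem norm_mulD_ge {ι : Type*} [Fintype ι] [DecidableEq ι] (d : ι → ℝ) {C : ℝ} (hC : 0 ≤ C)
    (hd : ∀ i, C ≤ d i) (v : EuclideanSpace ℂ ι) : C * ‖v‖ ≤ ‖mulD d v‖ := by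
  rw [← Real.sqrt_sq hC, EuclideanSpace.norm_eq, EuclideanSpace.norm_eq,
    ← Real.sqrt_mul (sq_nonneg _)]
  apply Real.sqrt_le_sqrt
  rw [Finset.mul_sum]
  refine Finset.sum_le_sum fun i _ => ?_
  rw [mulD_apply, norm_mul, mul_pow, Complex.norm_real, Real.norm_eq_abs, sq_abs]
  have h1 : C ^ 2 ≤ d i ^ 2 := pow_le_pow_left₀ hC (hd i) 2
  exact mul_le_mul_of_nonneg_right h1 (sq_nonneg _)

theorem blockDiag_mulD {ι κ : Type*} [Fintype ι] [DecidableEq ι] [DecidableEq κ] (win : ι → κ)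
    (d : ι → ℝ) : BlockDiag win (mulD d) := by
  intro c v
  ext i
  simp only [mulD_apply, restr_apply]
  split_ifs <;> simp

/-- (SEQ) for a finite family of sets satisfying the window conditions -/
theorem seq_family {κ' : Type*} [DecidableEq κ'] {τ : Type*} [Fintype τ]
    (E : Submodule ℂ (EuclideanSpace ℂ (Fin q))) (u : ℤ → ℝ) (wn : Fin q → κ')
    (A : τ → Set ℤ) (n : τ → ℕ) (co : τ → ℝ) (hco : ∀ j, 0 ≤ co j) (hco1 : ∀ j, co j ≤ 1)
    (G : ℝ) (hG : ∑ j, co j ≤ G) {γ V β φ cs d s : ℝ}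
    (hγ : 0 < γ) (hd : 0 ≤ d) (hβ : 0 ≤ φ + (10 * Real.exp (-γ / 4) * q + d + β * q))
    (hcs : V + 5 * γ + 10 ≤ cs) (hs : 0 ≤ s) (hsγ : 8 * (s * G) ≤ γ) (hs4 : s ≤ γ / 4)
    (hBd : ∀ j, ∃ (Bd : Finset (Fin q)) (v0 : ℝ), 0 ≤ v0 ∧ v0 ≤ V ∧
      IsBd wn u (n j) (A j) v0 γ Bd ∧ (Bd.card : ℝ) ≤ β * q)
    (hE3 : ∀ j, ∃ E' : Submodule ℂ (EuclideanSpace ℂ (Fin q)),
      AppInv E E' u (n j) (Real.exp (-cs)) d)
    (hflux : ∀ j, flux (dg E) (A j) (n j) ≤ φ) :
    ∑ i, |dg (E.map (mulD (fun i : Fin q =>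
        Real.exp (-(s * ∑ j, co j * ind (A j) ((i : ℕ) : ℤ)))))) i - dg E i| ≤
      3 ^ (Fintype.card τ) * (φ + (10 * Real.exp (-γ / 4) * q + d + β * q)) := by
  classical
  set L := Fintype.card τ with hL
  let ee : τ ≃ Fin L := Fintype.equivFin τ
  -- enumeration
  let AA : ℕ → Finset (Fin q) := fun j => if h : j < L then fs q (A (ee.symm ⟨j, h⟩)) else ∅
  let BB : ℕ → Finset (Fin q) := fun j => if h : j < L then
    fs q {m : ℤ | m - n (ee.symm ⟨j, h⟩) ∈ A (ee.symm ⟨j, h⟩)} else ∅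
  let ss : ℕ → ℝ := fun j => if h : j < L then s * co (ee.symm ⟨j, h⟩) else 0
  have hss : ∀ j, 0 ≤ ss j := by
    intro j
    simp only [ss]
    split_ifs
    · exact mul_nonneg hs (hco _)
    · exact le_rfl
  -- partial sums
  have hsum_le : ∀ (j : ℕ) (m : Fin q), ∑ i ∈ range j, (if m ∈ AA i then ss i else 0) ≤ s * G := by
    intro j m
    have h1 : ∑ i ∈ range j, (if m ∈ AA i then ss i else 0) ≤ ∑ i ∈ range j, ss i := by
      refine Finset.sum_le_sum fun i _ => ?_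
      split_ifs
      · exact le_rfl
      · exact hss i
    have h2 : ∑ i ∈ range j, ss i ≤ ∑ i ∈ range L, ss i := by
      rcases le_total j L with h | h
      · exact Finset.sum_le_sum_of_subset_of_nonneg (Finset.range_mono h) fun i _ _ => hss i
      · rw [← Finset.sum_range_add_sum_Ico _ h]
        have : ∑ i ∈ Ico L j, ss i = 0 := by
          refine Finset.sum_eq_zero fun i hi => ?_
          have : ¬ i < L := by have := (mem_Ico.mp hi).1; omega
          simp only [ss, this, dif_neg, not_false_eq_true]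
        rw [this, add_zero]
    have h3 : ∑ i ∈ range L, ss i = s * ∑ j, co j := by
      rw [← Fin.sum_univ_eq_sum_range, Finset.mul_sum]
      rw [← Equiv.sum_comp ee]
      refine Finset.sum_congr rfl fun j _ => ?_
      simp [ss]
    calc _ ≤ _ := h1
      _ ≤ _ := h2
      _ = s * ∑ j, co j := h3
      _ ≤ s * G := mul_le_mul_of_nonneg_left hG hs
  have hsum_nonneg : ∀ (j : ℕ) (m : Fin q), 0 ≤ ∑ i ∈ range j, (if m ∈ AA i then ss i else 0) := by
    intro j m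
    refine Finset.sum_nonneg fun i _ => ?_
    split_ifs
    · exact hss i
    · exact le_rfl
  have hchainL : chain E AA ss L = E.map (mulD (fun i : Fin q =>
        Real.exp (-(s * ∑ j, co j * ind (A j) ((i : ℕ) : ℤ))))) := by
    rw [chain]
    congr 2
    funext m
    congr 2
    rw [← Fin.sum_univ_eq_sum_range (fun i => if m ∈ AA i then ss i else 0), Finset.mul_sum,
      ← Equiv.sum_comp ee]
    refine Finset.sum_congr rfl fun j _ => ?_
    have h1 : AA ((ee j : Fin L) : ℕ) = fs q (A j) := by simp [AA]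
    have h2 : ss ((ee j : Fin L) : ℕ) = s * co j := by simp [ss]
    rw [h1, h2]
    unfold ind
    by_cases hm : ((m : ℕ) : ℤ) ∈ A j
    · rw [if_pos ((Orb.mem_fs _ _).mpr hm), Set.indicator_of_mem hm, mul_one]
    · rw [if_neg (fun h => hm ((Orb.mem_fs _ _).mp h)), Set.indicator_of_notMem hm]
      simp
  rw [← hchainL]
  have h0 : chain E AA ss 0 = E := chain_zero E AA ss
  have main := seq_scal L (chain E AA ss) AA BB ss φ (10 * Real.exp (-γ / 4) * q + d + β * q) hβ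
    (fun j _ => hss j) (fun j _ => chain_succ E AA ss j) ?_ ?_
  · have := main.2.1
    rw [h0] at this
    exact this
  · intro j hj
    rw [h0]
    simp only [AA, BB, hj, dif_pos]
    have := Orb.flux_fs E (A (ee.symm ⟨j, hj⟩)) (n (ee.symm ⟨j, hj⟩))
    rw [this]
    exact hflux _
  · intro j hj
    set t : τ := ee.symm ⟨j, hj⟩ with ht
    obtain ⟨Bd, v0, hv0, hv0V, hIs, hBdc⟩ := hBd t
    obtain ⟨E', hE'⟩ := hE3 t
    have hfw := flux_window wn E E' u (n t) cs d hd hE'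
      (mulD (fun m => Real.exp (-(∑ i ∈ range j, if m ∈ AA i then ss i else 0))))
      (blockDiag_mulD _ _) (s * G) (mul_nonneg hs (le_trans (Finset.sum_nonneg fun j _ => hco j) hG))
      (fun v => by
        have := norm_mulD_le (fun m => Real.exp (-(∑ i ∈ range j, if m ∈ AA i then ss i else 0)))
          (fun i => (Real.exp_pos _).le) (C := 1)
          (fun i => Real.exp_le_one_iff.mpr (neg_nonpos.mpr (hsum_nonneg j i))) zero_le_one v
        rwa [one_mul] at this)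
      (fun v => norm_mulD_ge _ (Real.exp_pos _).le
        (fun i => Real.exp_le_exp.mpr (neg_le_neg (hsum_le j i))) v)
      (A t) Bd v0 γ hv0 hγ hsγ (by linarith) hIs.cutA hIs.cutB hIs.onA hIs.offA
    have h2 := hfw.2 (ss j) (hss j) ?_
    · have hAA : AA j = fs q (A t) := by simp [AA, hj, ht]
      have hBB : BB j = fs q {m : ℤ | m - n t ∈ A t} := by simp [BB, hj, ht]
      have h3 : chain E AA ss (j + 1) = (chain E AA ss j).map (scal (AA j) (ss j)) :=
        chain_succ E AA ss j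
      rw [h3, hAA, hBB]
      have h4 : chain E AA ss j = E.map
        (mulD (fun m => Real.exp (-(∑ i ∈ range j, if m ∈ AA i then ss i else 0)))) := rfl
      rw [h4]
      linarith
    · have : ss j = s * co t := by simp [ss, hj, ht]
      rw [this]
      calc s * co t ≤ s * 1 := mul_le_mul_of_nonneg_left (hco1 t) hs
        _ ≤ γ / 4 := by rw [mul_one]; exact hs4

end Seq

/-- the coefficients of the base sets sum up to `D + 1` -/
theorem sum_bcoef (hD : 1 ≤ D) (hK1 : 1 ≤ K) : ∑ j : BIdx D K, bcoef D K j = D + 1 := by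
  rw [Fintype.sum_sum_type]
  simp only [bcoef, Finset.sum_const, Finset.card_univ, Fintype.card_fin, Fintype.card_prod,
    Fintype.card_bool, nsmul_eq_mul, mul_one]
  have h1 : ((D - 1 : ℕ) : ℝ) = D - 1 := by
    rw [Nat.cast_sub hD]; simp
  have h2 : (K : ℝ) ≠ 0 := by exact_mod_cast (by omega : K ≠ 0)
  rw [h1]
  push_cast
  field_simp
  ring

/-- A2: the diagonals of `E` and `e^{-s g} E` are `ℓ¹`-close. -/
theorem seq_base (hlD : D * l = Mb b0) (hK1 : 1 ≤ K)
    (E : Submodule ℂ (EuclideanSpace ℂ (Fin q))) {V β φ cs d s : ℝ}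
    (hγ : 0 < c b0 - e b0) (hd : 0 ≤ d)
    (hβ : 0 ≤ φ + (10 * Real.exp (-(c b0 - e b0) / 4) * q + d + β * q))
    (hcs : V + 5 * (c b0 - e b0) + 10 ≤ cs) (hs : 0 ≤ s)
    (hsγ : 8 * (s * (D + 1)) ≤ c b0 - e b0)
    (hBd : ∀ j : BIdx D K, ∃ (Bd : Finset (Fin q)) (v0 : ℝ), 0 ≤ v0 ∧ v0 ≤ V ∧
      IsBd (fun i : Fin q => win lev b0 l ((i : ℕ) : ℤ)) u (bshift b0 l D K j)
        (bset w lev b0 l D K j) v0 (c b0 - e b0) Bd ∧ (Bd.card : ℝ) ≤ β * q)
    (hE3 : ∀ j : BIdx D K, ∃ E' : Submodule ℂ (EuclideanSpace ℂ (Fin q)),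
      AppInv E E' u (bshift b0 l D K j) (Real.exp (-cs)) d)
    (hflux : ∀ j : BIdx D K, flux (dg E) (bset w lev b0 l D K j) (bshift b0 l D K j) ≤ φ) :
    ∑ i, |dg (E.map (mulD (fun i : Fin q =>
        Real.exp (-(s * gfun w lev b0 l K ((i : ℕ) : ℤ)))))) i - dg E i| ≤
      3 ^ (Fintype.card (BIdx D K)) *
        (φ + (10 * Real.exp (-(c b0 - e b0) / 4) * q + d + β * q)) := by
  have hD : 1 ≤ D := Orb.D_pos hlD
  have hDr : (1 : ℝ) ≤ D := by exact_mod_cast hD
  have h1 := seq_family E u (fun i : Fin q => win lev b0 l ((i : ℕ) : ℤ))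
    (bset w lev b0 l D K) (bshift b0 l D K) (bcoef D K)
    (fun j => by
      rcases j with i | ks
      · exact zero_le_one
      · simp only [bcoef]; positivity)
    (fun j => by
      rcases j with i | ks
      · exact le_rfl
      · simp only [bcoef]
        rw [div_le_one (by exact_mod_cast hK1)]
        exact_mod_cast hK1)
    (D + 1) (sum_bcoef hD hK1).le hγ hd hβ hcs hs hsγ (by nlinarith) hBd hE3 hflux
  have h2 : (fun i : Fin q => Real.exp (-(s * gfun w lev b0 l K ((i : ℕ) : ℤ)))) =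
      (fun i : Fin q => Real.exp (-(s * ∑ j, bcoef D K j *
        ind (bset w lev b0 l D K j) ((i : ℕ) : ℤ)))) := by
    funext i
    rw [Orb.gfun_eq_sum hlD]
  rw [h2]
  exact h1

end Crest.Agent.R113.SeqApp
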